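/-
Row 210 (S0432), layer TP (Sobolev calculus for the frozen test-plan notions), architect helper661.
DEFINITIONS of the layer.  Never change a definition without asking helper661.
Layer map and proofs: `git show origin/helper661:docs/R210_TP.md`.
-/
import Claimed.Agent.R210.Defs

set_option autoImplicit false

open Claims.C0366 Claims.C0366.WeakHessian
open Set Filter MeasureTheory
open scoped ENNReal NNReal Topology

namespace Claimed.Agent.R210.TP.Defs

noncomputable section

/-! ### One dimensional notion -/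

/-- `g` is an absolutely continuous representative on `[0,1]` of the (arbitrary) function `u`, it agrees with `u` at both
end points, and `|g'| ≤ w` a.e. on `[0,1]`. -/
structure tp_Rep1 (u : ℝ → ℝ) (w : ℝ → ℝ≥0∞) (g : ℝ → ℝ) : Prop where
  ac : AbsolutelyContinuousOnInterval g 0 1
  ae_eq : ∀ᵐ t ∂(volume.restrict (Icc (0 : ℝ) 1)), g t = u t
  zero : g 0 = u 0
  one : g 1 = u 1
  deriv_le : ∀ᵐ t ∂(volume.restrict (Icc (0 : ℝ) 1)), ENNReal.ofReal |deriv g t| ≤ w t

variable {X : Type*} [MetricSpace X]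

/-! ### Curvewise notions -/

/-- the integrand of the frozen weak upper gradient inequality: `D(γ_t)·|γ'_t|`. -/
def tp_wt (D : X → ℝ) (γ : Curve X) (t : ℝ) : ℝ≥0∞ :=
  ENNReal.ofReal (D (evalReal γ t)) * metricSpeed γ t

/-- `g` is an absolutely continuous representative of `f ∘ γ` with `|g'| ≤ D(γ_t)|γ'_t|` a.e. -/
def tp_Rep (f D : X → ℝ) (γ : Curve X) (g : ℝ → ℝ) : Prop :=
  tp_Rep1 (fun t => f (evalReal γ t)) (tp_wt D γ) g

/-- `f` is Sobolev along `γ` with `D` as upper gradient. -/
def tp_SobAlong (f D : X → ℝ) (γ : Curve X) : Prop := ∃ g, tp_Rep f D γ g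

/-- the curves contained in `closedBall o r` -/
def tp_inBall (o : X) (r : ℝ) : Set (Curve X) := {γ | ∀ t : Time, dist (γ t) o ≤ r}

/-! ### Slopes -/

/-- ascending slope -/
def tp_slopeUp (f : X → ℝ) (x : X) : ℝ≥0∞ :=
  Filter.limsup (fun y => ENNReal.ofReal ((f y - f x) / dist y x)) (𝓝[≠] x)

/-- descending slope -/
def tp_slopeDown (f : X → ℝ) (x : X) : ℝ≥0∞ :=
  Filter.limsup (fun y => ENNReal.ofReal ((f x - f y) / dist y x)) (𝓝[≠] x)

/-! ### Function classes -/

/-- Lipschitz on every ball. -/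
def tp_LipOnBdd (f : X → ℝ) : Prop :=
  ∀ o : X, ∀ R : ℝ, ∃ L : ℝ≥0, LipschitzOnWith L f (Metric.ball o R)

/-- the support is bounded -/
def tp_BddSupp (f : X → ℝ) : Prop := Bornology.IsBounded (Function.support f)

variable [MeasurableSpace X]

/-- essentially bounded on every ball -/
def tp_LocBdd (m : Measure X) (f : X → ℝ) : Prop :=
  ∀ o : X, ∀ R : ℝ, ∃ B : ℝ, ∀ᵐ x ∂m, x ∈ Metric.ball o R → |f x| ≤ B

/-- strong convergence in `L²` of every ball -/
def tp_L2locTendsto (m : Measure X) (fs : ℕ → X → ℝ) (f : X → ℝ) : Prop :=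
  ∀ o : X, ∀ R : ℝ,
    Tendsto (fun n => eLpNorm (fun x => fs n x - f x) 2 (m.restrict (Metric.ball o R))) atTop (𝓝 0)

end

end Claimed.Agent.R210.TP.Defs
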