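/-
Row 210 (S0432), layer TP, architect helper661.
Facts on curves and test plans in the form used by TP, derived from the interface of layer CU (`CU/Ifc.lean`, `CU/IfcBasic.lean`).
-/
import Claimed.Agent.R210.TP.Defs
import Claimed.Agent.R210.CU.Ifc

set_option autoImplicit false
set_option linter.unusedSectionVars false

open Claims.C0366 Claims.C0366.WeakHessian
open Claimed.Agent.R210.TP.Defs
open Claimed.Agent.R210.CU.Defs Claimed.Agent.R210.CU.IfcBasic Claimed.Agent.R210.CU.Ifc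
open Set Filter MeasureTheory
open scoped ENNReal NNReal Topology

namespace Claimed.Agent.R210.TP.Need

variable {X : Type*} [MetricSpace X] [MeasurableSpace X] [BorelSpace X] [CompleteSpace X]
  [TopologicalSpace.SeparableSpace X]

theorem tp_evalReal_zero (γ : Curve X) : evalReal γ 0 = γ timeZero := cu_evalReal_zero γ

theorem tp_evalReal_one (γ : Curve X) : evalReal γ 1 = γ timeOne := cu_evalReal_one γ

theorem tp_evalReal_coe (γ : Curve X) (t : Time) : evalReal γ (t : ℝ) = γ t := cu_evalReal_coe γ t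

/-- CU1 -/
theorem tp_measurable_eval (t : Time) : Measurable (fun γ : Curve X => γ t) := cu_measurable_eval t

theorem tp_measurable_evalReal_time (t : ℝ) : Measurable (fun γ : Curve X => evalReal γ t) :=
  cu_measurable_evalReal_time t

/-- CU1: joint measurability of the evaluation (product sigma-algebra). -/
theorem tp_measurable_evalReal : Measurable (fun p : Curve X × ℝ => evalReal p.1 p.2) :=
  cu_measurable_evalReal

/-- CU2: joint measurability of the metric speed (product sigma-algebra). -/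
theorem tp_measurable_metricSpeed : Measurable (fun p : Curve X × ℝ => metricSpeed p.1 p.2) :=
  cu_measurable_metricSpeed

/-- CU6: normalised restriction of a test plan. -/
theorem tp_testPlan_normalize {m : Measure X} {π : Measure (Curve X)} (hπ : IsTestPlan m π)
    {Γ : Set (Curve X)} (h0 : π Γ ≠ 0) : IsTestPlan m ((π Γ)⁻¹ • π.restrict Γ) :=
  cu_testPlan_cond hπ h0

/-- CU6 -/
theorem tp_boundedTracks_normalize {π : Measure (Curve X)} (hπ : BoundedTracks π)
    (Γ : Set (Curve X)) : BoundedTracks ((π Γ)⁻¹ • π.restrict Γ) :=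
  cu_boundedTracks_cond hπ Γ

/-- CU7: an `m`-a.e. property holds at `γ_t`, for every fixed `t`, for a.e. curve. -/
theorem tp_ae_eval {m : Measure X} {π : Measure (Curve X)} (hπ : IsTestPlan m π) {P : X → Prop}
    (hP : ∀ᵐ x ∂m, P x) (t : ℝ) : ∀ᵐ γ ∂π, P (evalReal γ t) := by
  obtain ⟨C, hC⟩ := cu_compr_of_testPlan hπ
  exact cu_ae_eval hC hP (clampTime t)

/-- CU7: an `m`-a.e. property holds at `γ_t` for a.e. `t ∈ [0,1]`, for a.e. curve. -/
theorem tp_ae_ae_eval {m : Measure X} {π : Measure (Curve X)} (hπ : IsTestPlan m π) {P : X → Prop}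
    (hP : ∀ᵐ x ∂m, P x) : ∀ᵐ γ ∂π, ∀ᵐ t ∂(volume.restrict (Icc (0 : ℝ) 1)), P (evalReal γ t) := by
  obtain ⟨C, hC⟩ := cu_compr_of_testPlan hπ
  have := hπ.1
  exact cu_ae_ae_along hC hP

/-- a.e. curve of a plan with bounded tracks stays in a ball -/
theorem tp_tracks_evalReal {π : Measure (Curve X)} (hπ : BoundedTracks π) :
    ∃ o : X, ∃ R : ℝ, 0 < R ∧ ∀ᵐ γ ∂π, ∀ t : ℝ, evalReal γ t ∈ Metric.ball o R := by
  obtain ⟨o, R, hR, h⟩ := hπ
  refine ⟨o, R + 1, by linarith, ?_⟩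
  filter_upwards [h] with γ hγ t
  have := hγ (clampTime t)
  rw [Metric.mem_ball]
  exact lt_of_le_of_lt this (by linarith)

/-- a.e. curve of a test plan has finite energy -/
theorem tp_ae_energy_lt_top {m : Measure X} {π : Measure (Curve X)} (hπ : IsTestPlan m π) :
    ∀ᵐ γ ∂π, (∫⁻ t in Icc (0 : ℝ) 1, (metricSpeed γ t) ^ 2) < ∞ := by
  filter_upwards [hπ.2.2.1] with γ hγ using cu_energy_lt_top hγ

/-- a.e. curve of a test plan has a.e. finite speed -/
theorem tp_ae_speed_lt_top {m : Measure X} {π : Measure (Curve X)} (hπ : IsTestPlan m π) :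
    ∀ᵐ γ ∂π, ∀ᵐ t ∂(volume.restrict (Icc (0 : ℝ) 1)), metricSpeed γ t < ∞ := by
  filter_upwards [tp_ae_energy_lt_top hπ] with γ hγ
  have h := ae_lt_top ((cu_measurable_metricSpeed_curve γ).pow_const 2) hγ.ne
  filter_upwards [h] with t ht
  by_contra hcon
  rw [not_lt, top_le_iff] at hcon
  rw [hcon] at ht
  simp at ht

/-- `∫ |D|² = ‖D‖₂²` in `ℝ≥0∞`. -/
theorem tp_need_lintegral_sq {α : Type*} [MeasurableSpace α] (μ : Measure α) (D : α → ℝ) :
    (∫⁻ x, (ENNReal.ofReal |D x|) ^ 2 ∂μ) = (eLpNorm D 2 μ) ^ 2 := by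
  rw [eLpNorm_eq_lintegral_rpow_enorm_toReal (by norm_num) (by norm_num)]
  simp only [ENNReal.toReal_ofNat, ENNReal.rpow_ofNat]
  rw [← ENNReal.rpow_natCast, ← ENNReal.rpow_mul]
  norm_num
  simp only [Real.enorm_eq_ofReal_abs]

theorem tp_need_aemeasurable {m : Measure X} {D : X → ℝ} (hD : LocallyL2 m D) (S : Set X) :
    AEMeasurable (fun x => ENNReal.ofReal |D x|) (m.restrict S) :=
  ((cu_aemeasurable_of_locallyL2 hD).abs.ennreal_ofReal).mono_measure Measure.restrict_le_self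

/-- tracks in an open ball, in the `Time` form. -/
theorem tp_need_tracks {π : Measure (Curve X)} (hπ : BoundedTracks π) :
    ∃ o : X, ∃ R : ℝ, 0 < R ∧ ∀ᵐ γ ∂π, ∀ t : Time, γ t ∈ Metric.ball o R := by
  obtain ⟨o, R, hR, h⟩ := hπ
  refine ⟨o, R + 1, by linarith, ?_⟩
  filter_upwards [h] with γ hγ t
  rw [Metric.mem_ball]
  exact (hγ t).trans_lt (by linarith)

/-- CU7 (quantitative form, used for stability): there are a ball and a constant, depending only on `π`, with
`∫∫ |D|(γ_t)·speed dt dπ ≤ C ‖D‖_{L²(ball)}`. -/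
theorem tp_lintegral_wt_le {m : Measure X} {π : Measure (Curve X)} (hπ : IsTestPlan m π)
    (hb : BoundedTracks π) :
    ∃ o : X, ∃ R : ℝ, ∃ C : ℝ≥0, ∀ D : X → ℝ, LocallyL2 m D →
      (∫⁻ γ, ∫⁻ t in Icc (0 : ℝ) 1, ENNReal.ofReal |D (evalReal γ t)| * metricSpeed γ t ∂volume ∂π) ≤
        C * eLpNorm D 2 (m.restrict (Metric.ball o R)) := by
  obtain ⟨C, hC⟩ := cu_compr_of_testPlan hπ
  have := hπ.1
  obtain ⟨o, R, hR, htr⟩ := tp_need_tracks hb
  have hE : (∫⁻ γ, cu_energy γ ∂π) < ∞ := hπ.2.2.2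
  have hfin : (C : ℝ≥0∞) ^ (1 / 2 : ℝ) * (∫⁻ γ, cu_energy γ ∂π) ^ (1 / 2 : ℝ) ≠ ∞ :=
    ENNReal.mul_ne_top (ENNReal.rpow_ne_top_of_nonneg (by norm_num) ENNReal.coe_ne_top)
      (ENNReal.rpow_ne_top_of_nonneg (by norm_num) hE.ne)
  refine ⟨o, R, ((C : ℝ≥0∞) ^ (1 / 2 : ℝ) * (∫⁻ γ, cu_energy γ ∂π) ^ (1 / 2 : ℝ)).toNNReal, ?_⟩
  intro D hD
  have h := cu_cauchy_schwarz_along_of_tracks hC (Metric.isOpen_ball.measurableSet) htr
    (g := fun x => ENNReal.ofReal |D x|) (tp_need_aemeasurable hD _)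
  refine h.trans (le_of_eq ?_)
  rw [tp_need_lintegral_sq, ENNReal.coe_toNNReal hfin,
    ENNReal.mul_rpow_of_nonneg _ _ (by norm_num : (0 : ℝ) ≤ 1 / 2)]
  have : ((eLpNorm D 2 (m.restrict (Metric.ball o R))) ^ 2) ^ (1 / 2 : ℝ)
      = eLpNorm D 2 (m.restrict (Metric.ball o R)) := by
    rw [← ENNReal.rpow_natCast, ← ENNReal.rpow_mul]
    norm_num
  rw [this]
  ring

/-- compression at a fixed time, quantitative: `∫ |f|(γ_t) dπ ≤ C ‖f‖_{L²(ball)}`. -/
theorem tp_lintegral_eval_le {m : Measure X} {π : Measure (Curve X)} (hπ : IsTestPlan m π)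
    (hb : BoundedTracks π) :
    ∃ o : X, ∃ R : ℝ, ∃ C : ℝ≥0, ∀ f : X → ℝ, LocallyL2 m f → ∀ t : ℝ,
      (∫⁻ γ, ENNReal.ofReal |f (evalReal γ t)| ∂π) ≤ C * eLpNorm f 2 (m.restrict (Metric.ball o R)) := by
  obtain ⟨C, hC⟩ := cu_compr_of_testPlan hπ
  have := hπ.1
  obtain ⟨o, R, hR, htr⟩ := tp_need_tracks hb
  refine ⟨o, R, NNReal.sqrt C, ?_⟩
  intro f hf t
  set S := Metric.ball o R with hS
  have hSm : MeasurableSet S := Metric.isOpen_ball.measurableSet
  have hfm : AEMeasurable f m := cu_aemeasurable_of_locallyL2 hf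
  -- measurability of the composition
  have hac : Measure.map (fun γ : Curve X => γ (clampTime t)) π ≪ m :=
    Measure.absolutelyContinuous_of_le_smul (hC (clampTime t))
  have hFm : AEMeasurable (fun γ : Curve X => f (evalReal γ t)) π :=
    (hfm.mono_ac hac).comp_measurable (cu_measurable_eval (clampTime t))
  -- L¹ ≤ L²
  have h1 : eLpNorm (fun γ : Curve X => f (evalReal γ t)) 1 π
      ≤ eLpNorm (fun γ : Curve X => f (evalReal γ t)) 2 π :=
    eLpNorm_le_eLpNorm_of_exponent_le (by norm_num) hFm.aestronglyMeasurable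
  rw [eLpNorm_one_eq_lintegral_enorm] at h1
  simp only [Real.enorm_eq_ofReal_abs] at h1
  refine h1.trans ?_
  -- square
  have h2 : (eLpNorm (fun γ : Curve X => f (evalReal γ t)) 2 π) ^ 2
      ≤ ((NNReal.sqrt C : ℝ≥0∞) * eLpNorm f 2 (m.restrict S)) ^ 2 := by
    rw [← tp_need_lintegral_sq, mul_pow, ← tp_need_lintegral_sq, ← ENNReal.coe_pow, NNReal.sq_sqrt]
    have h3 := cu_lintegral_eval_le hC
      (g := S.indicator (fun x => (ENNReal.ofReal |f x|) ^ 2))
      (((hfm.abs.ennreal_ofReal).pow_const 2).indicator hSm) (clampTime t)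
    rw [lintegral_indicator hSm] at h3
    refine le_trans (le_of_eq ?_) h3
    apply lintegral_congr_ae
    filter_upwards [htr] with γ hγ
    rw [Set.indicator_of_mem (hγ (clampTime t))]
    rfl
  exact (ENNReal.pow_le_pow_left_iff two_ne_zero).1 h2

end Claimed.Agent.R210.TP.Need
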