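/-
Row 210 (S0432), layer TP, architect helper661.
BASIC facts on the frozen notions `LocallyL2`, `IsLocalWeakUpperGradient`, `IsMinimalLocalWeakUpperGradient`, `weakGradient`,
`LocalSobolev`, `Sobolev`: measurability, congruence under a.e. equality, monotonicity, specification of `weakGradient`.
(wug = weak upper gradient = `IsLocalWeakUpperGradient`.)
-/
import Claimed.Agent.R210.TP.Need

set_option autoImplicit false
set_option linter.unusedSectionVars false

open Claims.C0366 Claims.C0366.WeakHessian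
open Claimed.Agent.R210.TP.Defs
open Set Filter MeasureTheory
open scoped ENNReal NNReal Topology

namespace Claimed.Agent.R210.TP.Basic

open Claimed.Agent.R210.TP.Need

variable {X : Type*} [MetricSpace X] [MeasurableSpace X] [BorelSpace X] [CompleteSpace X]
  [TopologicalSpace.SeparableSpace X] {m : Measure X} {f f' g D D' : X → ℝ}

/-! ### `LocallyL2` -/

theorem tp_aestronglyMeasurable (hf : LocallyL2 m f) : AEStronglyMeasurable f m := by
  rcases isEmpty_or_nonempty X with hX | ⟨⟨o⟩⟩
  · exact AEStronglyMeasurable.of_subsingleton_dom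
  · have h1 : AEStronglyMeasurable f (m.restrict (⋃ n : ℕ, Metric.ball o ((n : ℝ) + 1))) :=
      AEStronglyMeasurable.iUnion fun n => (hf o _ (by positivity)).1
    have h2 : (⋃ n : ℕ, Metric.ball o ((n : ℝ) + 1)) = univ := by
      refine eq_univ_of_forall fun x => mem_iUnion.2 ?_
      obtain ⟨n, hn⟩ := exists_nat_gt (dist x o)
      exact ⟨n, Metric.mem_ball.2 (by linarith)⟩
    rwa [h2, Measure.restrict_univ] at h1

theorem tp_aemeasurable (hf : LocallyL2 m f) : AEMeasurable f m := (tp_aestronglyMeasurable hf).aemeasurable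

theorem tp_locallyL2_congr (h : f =ᵐ[m] f') (hf : LocallyL2 m f) : LocallyL2 m f' :=
  fun o R hR => (hf o R hR).ae_eq (ae_restrict_of_ae h)

theorem tp_locallyL2_of_memLp (hf : MemLp f 2 m) : LocallyL2 m f := fun _ _ _ => hf.restrict _

theorem tp_locallyL2_zero : LocallyL2 m (fun _ : X => (0 : ℝ)) :=
  fun _ _ _ => MemLp.zero'

theorem tp_locallyL2_add (hf : LocallyL2 m f) (hg : LocallyL2 m g) : LocallyL2 m (fun x => f x + g x) :=
  fun o R hR => (hf o R hR).add (hg o R hR)

theorem tp_locallyL2_sub (hf : LocallyL2 m f) (hg : LocallyL2 m g) : LocallyL2 m (fun x => f x - g x) :=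
  fun o R hR => (hf o R hR).sub (hg o R hR)

theorem tp_locallyL2_const_mul (c : ℝ) (hf : LocallyL2 m f) : LocallyL2 m (fun x => c * f x) :=
  fun o R hR => (hf o R hR).const_mul c

/-- domination -/
theorem tp_locallyL2_of_abs_le (hg : LocallyL2 m g) (hf : AEStronglyMeasurable f m)
    (h : ∀ᵐ x ∂m, |f x| ≤ |g x|) : LocallyL2 m f :=
  fun o R hR => (hg o R hR).mono hf.restrict (ae_restrict_of_ae h)

/-- bounded on balls and a.e. measurable, `m` finite on bounded sets -/
theorem tp_locallyL2_of_locBdd (hfin : FiniteOnBoundedSets m) (hf : AEStronglyMeasurable f m)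
    (hb : tp_LocBdd m f) : LocallyL2 m f := by
  intro o R _
  obtain ⟨B, hB⟩ := hb o R
  have : IsFiniteMeasure (m.restrict (Metric.ball o R)) :=
    ⟨by rw [Measure.restrict_apply_univ]; exact hfin _ Metric.isBounded_ball⟩
  exact MemLp.of_bound hf.restrict B ((ae_restrict_iff' measurableSet_ball).2 hB)

/-- (locally bounded) × (locally `L²`) -/
theorem tp_locallyL2_mul_of_locBdd (hf : AEStronglyMeasurable f m) (hb : tp_LocBdd m f)
    (hg : LocallyL2 m g) : LocallyL2 m (fun x => f x * g x) := by
  intro o R hR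
  obtain ⟨B, hB⟩ := hb o R
  refine (hg o R hR).of_le_mul (c := B) (hf.restrict.mul (hg o R hR).1) ?_
  filter_upwards [(ae_restrict_iff' measurableSet_ball).2 hB] with x hx
  rw [norm_mul]
  exact mul_le_mul_of_nonneg_right hx (norm_nonneg _)

theorem tp_sigmaFinite (hfin : FiniteOnBoundedSets m) : SigmaFinite m := by
  rcases isEmpty_or_nonempty X with hX | ⟨⟨o⟩⟩
  · have : m = 0 := Measure.eq_zero_of_isEmpty m
    rw [this]
    infer_instance
  · exact ⟨⟨{ set := fun n : ℕ => Metric.ball o n
              set_mem := fun _ => trivial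
              finite := fun n => hfin _ Metric.isBounded_ball
              spanning := Metric.iUnion_ball_nat o }⟩⟩

/-- a property which holds a.e. on every ball holds a.e. -/
theorem tp_ae_of_ae_ball {P : X → Prop} (h : ∀ o : X, ∀ R : ℝ, ∀ᵐ x ∂m, x ∈ Metric.ball o R → P x) :
    ∀ᵐ x ∂m, P x := by
  rcases isEmpty_or_nonempty X with hX | ⟨⟨o⟩⟩
  · exact Eventually.of_forall fun x => (hX.false x).elim
  · have h1 : ∀ᵐ x ∂m, ∀ n : ℕ, x ∈ Metric.ball o (n : ℝ) → P x := ae_all_iff.2 fun n => h o n
    filter_upwards [h1] with x hx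
    obtain ⟨n, hn⟩ := exists_nat_gt (dist x o)
    exact hx n (Metric.mem_ball.2 hn)

/-! ### weak upper gradients: congruence and monotonicity -/

theorem tp_wug_congr (hf : f =ᵐ[m] f') (hD : D =ᵐ[m] D') (h : IsLocalWeakUpperGradient m f D) :
    IsLocalWeakUpperGradient m f' D' := by
  refine ⟨tp_locallyL2_congr hD h.1, ?_, fun π hπ hb => ?_⟩
  · filter_upwards [h.2.1, hD] with x h1 h2
    rwa [← h2]
  · have h3 := h.2.2 π hπ hb
    have e1 : (∫⁻ γ, ENNReal.ofReal |f' (γ timeOne) - f' (γ timeZero)| ∂π) =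
        ∫⁻ γ, ENNReal.ofReal |f (γ timeOne) - f (γ timeZero)| ∂π := by
      apply lintegral_congr_ae
      filter_upwards [tp_ae_eval hπ hf 0, tp_ae_eval hπ hf 1] with γ h0 h1
      rw [tp_evalReal_zero] at h0
      rw [tp_evalReal_one] at h1
      rw [h0, h1]
    have e2 : (∫⁻ γ, ∫⁻ t in Set.Icc (0 : ℝ) 1,
        ENNReal.ofReal (D' (evalReal γ t)) * metricSpeed γ t ∂volume ∂π) =
        ∫⁻ γ, ∫⁻ t in Set.Icc (0 : ℝ) 1,
        ENNReal.ofReal (D (evalReal γ t)) * metricSpeed γ t ∂volume ∂π := by
      apply lintegral_congr_ae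
      filter_upwards [tp_ae_ae_eval hπ hD] with γ hγ
      apply lintegral_congr_ae
      filter_upwards [hγ] with t ht
      rw [ht]
    rw [e1, e2]
    exact h3

theorem tp_wug_mono (h : IsLocalWeakUpperGradient m f D) (hD' : LocallyL2 m D') (hle : ∀ᵐ x ∂m, D x ≤ D' x) :
    IsLocalWeakUpperGradient m f D' := by
  refine ⟨hD', ?_, fun π hπ hb => (h.2.2 π hπ hb).trans ?_⟩
  · filter_upwards [h.2.1, hle] with x h1 h2 using h1.trans h2
  · apply lintegral_mono_ae
    filter_upwards [tp_ae_ae_eval hπ hle] with γ hγ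
    apply lintegral_mono_ae
    filter_upwards [hγ] with t ht
    exact mul_le_mul_left (ENNReal.ofReal_le_ofReal ht) _

theorem tp_minimal_congr (hf : f =ᵐ[m] f') (hD : D =ᵐ[m] D') (h : IsMinimalLocalWeakUpperGradient m f D) :
    IsMinimalLocalWeakUpperGradient m f' D' := by
  refine ⟨tp_wug_congr hf hD h.1, fun D'' hD'' => ?_⟩
  filter_upwards [h.2 D'' (tp_wug_congr hf.symm (EventuallyEq.refl _ _) hD''), hD] with x h1 h2
  rwa [← h2]

/-- two minimal wugs agree a.e. -/
theorem tp_minimal_unique (h : IsMinimalLocalWeakUpperGradient m f D)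
    (h' : IsMinimalLocalWeakUpperGradient m f D') : D =ᵐ[m] D' := by
  filter_upwards [h.2 D' h'.1, h'.2 D h.1] with x h1 h2 using le_antisymm h1 h2

/-! ### `weakGradient` -/

/-- equality of FUNCTIONS -/
theorem tp_weakGradient_congr (h : f =ᵐ[m] f') : weakGradient m f = weakGradient m f' := by
  have key : IsMinimalLocalWeakUpperGradient m f = IsMinimalLocalWeakUpperGradient m f' :=
    funext fun D => propext
      ⟨tp_minimal_congr h (EventuallyEq.refl _ _), tp_minimal_congr h.symm (EventuallyEq.refl _ _)⟩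
  unfold weakGradient
  rw [key]

theorem tp_weakGradient_minimal (hf : LocalSobolev m f) :
    IsMinimalLocalWeakUpperGradient m f (weakGradient m f) := by
  have h := hf.2
  unfold weakGradient
  rw [dif_pos h]
  exact Classical.choose_spec h

theorem tp_weakGradient_wug (hf : LocalSobolev m f) : IsLocalWeakUpperGradient m f (weakGradient m f) :=
  (tp_weakGradient_minimal hf).1

/-- unconditional -/
theorem tp_weakGradient_nonneg (m : Measure X) (f : X → ℝ) : ∀ᵐ x ∂m, 0 ≤ weakGradient m f x := by
  unfold weakGradient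
  split_ifs with h
  · exact (Classical.choose_spec h).1.2.1
  · exact Eventually.of_forall fun _ => le_rfl

/-- unconditional -/
theorem tp_weakGradient_locallyL2 (m : Measure X) (f : X → ℝ) : LocallyL2 m (weakGradient m f) := by
  unfold weakGradient
  split_ifs with h
  · exact (Classical.choose_spec h).1.1
  · exact tp_locallyL2_zero

/-- unconditional -/
theorem tp_weakGradient_le (h : IsLocalWeakUpperGradient m f D) : ∀ᵐ x ∂m, weakGradient m f x ≤ D x := by
  unfold weakGradient
  split_ifs with h'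
  · exact (Classical.choose_spec h').2 D h
  · exact h.2.1

theorem tp_weakGradient_eq_of_minimal (h : IsMinimalLocalWeakUpperGradient m f D) :
    weakGradient m f =ᵐ[m] D := by
  have h' : ∃ D, IsMinimalLocalWeakUpperGradient m f D := ⟨D, h⟩
  unfold weakGradient
  rw [dif_pos h']
  exact tp_minimal_unique (Classical.choose_spec h') h

theorem tp_localSobolev_congr (h : f =ᵐ[m] f') (hf : LocalSobolev m f) : LocalSobolev m f' := by
  obtain ⟨D, hD⟩ := hf.2
  exact ⟨tp_locallyL2_congr h hf.1, D, tp_minimal_congr h (EventuallyEq.refl _ _) hD⟩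

theorem tp_sobolev_congr (h : f =ᵐ[m] f') (hf : Sobolev m f) : Sobolev m f' :=
  ⟨hf.1.ae_eq h, tp_localSobolev_congr h hf.2.1, by rw [← tp_weakGradient_congr h]; exact hf.2.2⟩

end Claimed.Agent.R210.TP.Basic
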