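/-
Row 210 (S0432), layer TP, architect helper661.
ONE DIMENSIONAL real analysis: calculus of `tp_Rep1 u w g` (`g` absolutely continuous on `[0,1]`, `g = u` a.e. and at `0,1`,
`|g'| ≤ w` a.e.).  No metric measure space here.   `μ01 = volume.restrict (Icc 0 1)`.
-/
import Claimed.Agent.R210.TP.Defs

set_option autoImplicit false

open Claimed.Agent.R210.TP.Defs
open Set Filter MeasureTheory
open scoped ENNReal NNReal Topology

namespace Claimed.Agent.R210.TP.OneD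

theorem tp1_ac_of_dist_le {g W : ℝ → ℝ} {a b : ℝ} (hW : AbsolutelyContinuousOnInterval W a b)
    (h : ∀ x ∈ uIcc a b, ∀ y ∈ uIcc a b, dist (g x) (g y) ≤ dist (W x) (W y)) :
    AbsolutelyContinuousOnInterval g a b := by
  rw [absolutelyContinuousOnInterval_iff] at hW ⊢
  intro ε hε
  obtain ⟨δ, hδ, H⟩ := hW ε hε
  refine ⟨δ, hδ, fun E hE hsum => lt_of_le_of_lt ?_ (H E hE hsum)⟩
  exact Finset.sum_le_sum fun i hi => h _ (hE.1 i hi).1 _ (hE.1 i hi).2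

theorem tp1_ac_lipschitz_comp {g φ : ℝ → ℝ} {a b : ℝ} {L : ℝ≥0} (hφ : LipschitzWith L φ)
    (hg : AbsolutelyContinuousOnInterval g a b) :
    AbsolutelyContinuousOnInterval (fun t => φ (g t)) a b := by
  refine tp1_ac_of_dist_le (hg.const_mul (L : ℝ)) fun x _ y _ => ?_
  have h1 := hφ.dist_le_mul (g x) (g y)
  have h2 : dist ((L : ℝ) * g x) ((L : ℝ) * g y) = (L : ℝ) * dist (g x) (g y) := by
    rw [Real.dist_eq, Real.dist_eq, ← mul_sub, abs_mul, abs_of_nonneg L.coe_nonneg]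
  simpa [h2] using h1

theorem tp1_eqOn_of_ae_eq {g g' : ℝ → ℝ} (hg : ContinuousOn g (Icc 0 1)) (hg' : ContinuousOn g' (Icc 0 1))
    (h : ∀ᵐ t ∂(volume.restrict (Icc (0 : ℝ) 1)), g t = g' t) : EqOn g g' (Icc 0 1) :=
  Measure.eqOn_Icc_of_ae_eq volume zero_ne_one h hg hg'

/-- a set on which `g` is expanding and which is mapped into a null set is a null set -/
theorem tp1_null_of_expanding {g : ℝ → ℝ} {S N : Set ℝ} {K : ℝ≥0} (hN : volume N = 0)
    (hS : ∀ s ∈ S, g s ∈ N) (h : ∀ s ∈ S, ∀ t ∈ S, dist s t ≤ K * dist (g s) (g t)) :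
    volume S = 0 := by
  have h1 : AntilipschitzWith K (fun x : S => g x) :=
    AntilipschitzWith.of_le_mul_dist (fun x y => h x x.2 y y.2)
  have h2 := h1.hausdorffMeasure_preimage_le (d := 1) zero_le_one N
  have h3 : (fun x : S => g x) ⁻¹' N = univ := by
    ext x; simp [hS x x.2]
  have h4 := (isometry_subtype_coe (s := S)).hausdorffMeasure_image (d := 1) (Or.inl zero_le_one)
    (univ : Set S)
  rw [h3, hausdorffMeasure_real, hN, mul_zero] at h2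
  rw [image_univ, Subtype.range_coe, hausdorffMeasure_real] at h4
  rw [h4]
  exact le_antisymm h2 zero_le

theorem tp1_deriv_eq_zero_of_null (g : ℝ → ℝ) {N : Set ℝ} (hN : volume N = 0) :
    ∀ᵐ t ∂(volume : Measure ℝ), g t ∈ N → DifferentiableAt ℝ g t → deriv g t = 0 := by
  set B : ℕ → ℤ → Set ℝ := fun n k => {t | g t ∈ N ∧
    (∀ s, |s - t| < 1 / ((n : ℝ) + 1) → |s - t| ≤ ((n : ℝ) + 1) * |g s - g t|) ∧
    t ∈ Ico ((k : ℝ) / ((n : ℝ) + 1)) (((k : ℝ) + 1) / ((n : ℝ) + 1))} with hB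
  have hBnull : ∀ n k, volume (B n k) = 0 := by
    intro n k
    have hn : (0 : ℝ) < (n : ℝ) + 1 := by positivity
    refine tp1_null_of_expanding (K := ⟨(n : ℝ) + 1, hn.le⟩) hN (fun s hs => hs.1) ?_
    intro s hs t ht
    rw [Real.dist_eq, Real.dist_eq]
    refine ht.2.1 s ?_
    have h1 := hs.2.2
    have h2 := ht.2.2
    have e : ((k : ℝ) + 1) / ((n : ℝ) + 1) = (k : ℝ) / ((n : ℝ) + 1) + 1 / ((n : ℝ) + 1) := by ring
    rw [e] at h1 h2
    rw [abs_lt]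
    constructor <;> linarith [h1.1, h1.2, h2.1, h2.2]
  have hU : volume (⋃ n, ⋃ k, B n k) = 0 :=
    measure_iUnion_null fun n => measure_iUnion_null fun k => hBnull n k
  rw [ae_iff]
  refine measure_mono_null ?_ hU
  intro t ht
  simp only [mem_ofPred_eq, Classical.not_imp] at ht
  obtain ⟨htN, hd, hne⟩ := ht
  have hder := hd.hasDerivAt
  set c := deriv g t with hc
  have hcpos : 0 < |c| := abs_pos.mpr hne
  have hlo := hder.isLittleO
  have hev := hlo.def (c := |c| / 2) (by positivity)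
  obtain ⟨r, hr, hball⟩ := Metric.eventually_nhds_iff.1 hev
  obtain ⟨n, hn⟩ := exists_nat_gt (max (1 / r) (2 / |c|))
  have hn1 : 1 / r < (n : ℝ) + 1 := by
    have := le_max_left (1 / r) (2 / |c|); linarith
  have hn2 : 2 / |c| < (n : ℝ) + 1 := by
    have := le_max_right (1 / r) (2 / |c|); linarith
  have hnpos : (0 : ℝ) < (n : ℝ) + 1 := by positivity
  refine mem_iUnion.2 ⟨n, mem_iUnion.2 ⟨⌊t * ((n : ℝ) + 1)⌋, htN, ?_, ?_⟩⟩
  · intro s hs
    have hsr : dist s t < r := by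
      rw [Real.dist_eq]
      refine hs.trans ?_
      rw [div_lt_iff₀ hnpos]
      rw [div_lt_iff₀ hr] at hn1
      linarith
    have h1 := hball hsr
    simp only [smul_eq_mul, Real.norm_eq_abs] at h1
    have h2 : |c| * |s - t| - |g s - g t| ≤ |g s - g t - (s - t) * c| := by
      have := abs_sub_abs_le_abs_sub ((s - t) * c) (g s - g t)
      rw [abs_mul, abs_sub_comm ((s - t) * c)] at this
      linarith
    have h3 : |c| / 2 * |s - t| ≤ |g s - g t| := by linarith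
    have h4 : 1 ≤ ((n : ℝ) + 1) * (|c| / 2) := by
      rw [div_lt_iff₀ hcpos] at hn2
      linarith
    calc |s - t| = 1 * |s - t| := (one_mul _).symm
      _ ≤ ((n : ℝ) + 1) * (|c| / 2) * |s - t| := by gcongr
      _ = ((n : ℝ) + 1) * (|c| / 2 * |s - t|) := by ring
      _ ≤ ((n : ℝ) + 1) * |g s - g t| := by gcongr
  · constructor
    · rw [div_le_iff₀ hnpos]
      exact Int.floor_le _
    · rw [lt_div_iff₀ hnpos]
      exact Int.lt_floor_add_one _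


/-- a.e. on `[0,1]` version of a.e. differentiability -/
theorem tp1_ac_ae_diff {g : ℝ → ℝ} (hg : AbsolutelyContinuousOnInterval g 0 1) :
    ∀ᵐ t ∂(volume.restrict (Icc (0 : ℝ) 1)), DifferentiableAt ℝ g t := by
  rw [ae_restrict_iff' measurableSet_Icc]
  filter_upwards [hg.ae_differentiableAt] with t ht h
  exact ht (by rwa [uIcc_of_le zero_le_one])

/-- a.e. point of `[0,1]` is interior -/
theorem tp1_ae_mem_Ioo : ∀ᵐ t ∂(volume.restrict (Icc (0 : ℝ) 1)), t ∈ Ioo (0 : ℝ) 1 := by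
  rw [← restrict_Ioo_eq_restrict_Icc]
  exact ae_restrict_mem measurableSet_Ioo

theorem tp1_hasDerivAt_zero_lipschitz_comp {g φ : ℝ → ℝ} {L : ℝ≥0} (hφ : LipschitzWith L φ) {t : ℝ}
    (hg : HasDerivAt g 0 t) : HasDerivAt (fun r => φ (g r)) 0 t := by
  rw [hasDerivAt_iff_isLittleO] at hg ⊢
  simp only [smul_zero, sub_zero] at hg ⊢
  refine Asymptotics.IsBigO.trans_isLittleO ?_ hg
  refine Asymptotics.IsBigO.of_bound (L : ℝ) (Eventually.of_forall fun s => ?_)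
  simpa [Real.dist_eq] using hφ.dist_le_mul (g s) (g t)

theorem tp1_deriv_lipschitz_comp {g φ : ℝ → ℝ} {L : ℝ≥0} (hφ : LipschitzWith L φ)
    (hg : AbsolutelyContinuousOnInterval g 0 1) :
    ∀ᵐ t ∂(volume.restrict (Icc (0 : ℝ) 1)), deriv (fun r => φ (g r)) t = deriv φ (g t) * deriv g t := by
  have hN : volume {y | ¬ DifferentiableAt ℝ φ y} = 0 := by
    have := hφ.ae_differentiableAt_real
    rwa [ae_iff] at this
  have h1 := ae_restrict_of_ae (s := Icc (0 : ℝ) 1) (tp1_deriv_eq_zero_of_null g hN)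
  filter_upwards [h1, tp1_ac_ae_diff hg] with t ht hd
  by_cases hy : DifferentiableAt ℝ φ (g t)
  · exact (hy.hasDerivAt.comp t hd.hasDerivAt).deriv
  · have h0 : deriv g t = 0 := ht hy hd
    have hd0 : HasDerivAt g 0 t := h0 ▸ hd.hasDerivAt
    rw [(tp1_hasDerivAt_zero_lipschitz_comp hφ hd0).deriv, h0, mul_zero]

theorem tp1_lintegral_affine (F : ℝ → ℝ≥0∞) {s t : ℝ} (hst : s < t) :
    ENNReal.ofReal (t - s) * ∫⁻ r in Icc (0 : ℝ) 1, F (s + r * (t - s)) = ∫⁻ r in Icc s t, F r := by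
  have hpos : 0 < t - s := sub_pos.2 hst
  set e : ℝ ≃ᵐ ℝ := ((Homeomorph.mulRight₀ (t - s) hpos.ne').trans (Homeomorph.addLeft s)).toMeasurableEquiv
    with he
  have hecoe : ∀ r, e r = s + r * (t - s) := fun r => rfl
  have hmap : Measure.map e volume = ENNReal.ofReal (t - s)⁻¹ • volume := by
    have h1 : (e : ℝ → ℝ) = (fun x => s + x) ∘ (fun x => x * (t - s)) := by
      funext r; rfl
    rw [h1, ← Measure.map_map (measurable_const_add s) (measurable_mul_const (t - s)),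
      Real.map_volume_mul_right hpos.ne', Measure.map_smul, map_add_left_eq_self,
      abs_of_pos (inv_pos.2 hpos)]
  have hpre : e ⁻¹' (Icc s t) = Icc 0 1 := by
    ext r
    simp only [mem_preimage, hecoe, mem_Icc]
    constructor
    · rintro ⟨h1, h2⟩
      constructor
      · by_contra hneg
        rw [not_le] at hneg
        nlinarith
      · by_contra hneg
        rw [not_le] at hneg
        nlinarith
    · rintro ⟨h1, h2⟩
      constructor <;> nlinarith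
  have h2 : ∫⁻ r in Icc (0 : ℝ) 1, F (s + r * (t - s)) = ∫⁻ x, F x ∂((volume.restrict (Icc 0 1)).map e) := by
    rw [lintegral_map_equiv]
    rfl
  rw [h2, ← hpre, ← e.measurableEmbedding.restrict_map, hmap, Measure.restrict_smul, lintegral_smul_measure,
    smul_eq_mul, ← mul_assoc, ← ENNReal.ofReal_mul hpos.le, mul_inv_cancel₀ hpos.ne', ENNReal.ofReal_one, one_mul]

theorem tp1_ac_le_lintegral {g : ℝ → ℝ} (hg : AbsolutelyContinuousOnInterval g 0 1) {s t : ℝ}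
    (hs : 0 ≤ s) (hst : s ≤ t) (ht : t ≤ 1) :
    ENNReal.ofReal |g t - g s| ≤ ∫⁻ r in Icc s t, ENNReal.ofReal |deriv g r| := by
  have hsub : uIcc s t ⊆ uIcc (0 : ℝ) 1 := by
    rw [uIcc_of_le hst, uIcc_of_le zero_le_one]
    exact Icc_subset_Icc hs ht
  have hg' := hg.mono hsub
  have hint := hg'.intervalIntegrable_deriv
  have h1 := hg'.integral_deriv_eq_sub
  have h2 : |g t - g s| ≤ ∫ r in s..t, |deriv g r| := by
    rw [← h1]
    exact intervalIntegral.abs_integral_le_integral_abs hst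
  have h3 : ∫ r in s..t, |deriv g r| = ∫ r in Ioc s t, |deriv g r| := intervalIntegral.integral_of_le hst
  have hI : IntegrableOn (fun r => |deriv g r|) (Ioc s t) := by
    have := (intervalIntegrable_iff_integrableOn_Ioc_of_le hst).1 hint
    exact this.abs
  calc ENNReal.ofReal |g t - g s| ≤ ENNReal.ofReal (∫ r in Ioc s t, |deriv g r|) := by
        rw [← h3]; exact ENNReal.ofReal_le_ofReal h2
    _ = ∫⁻ r in Ioc s t, ENNReal.ofReal |deriv g r| :=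
        ofReal_integral_eq_lintegral_ofReal hI (Eventually.of_forall fun _ => abs_nonneg _)
    _ ≤ ∫⁻ r in Icc s t, ENNReal.ofReal |deriv g r| := lintegral_mono_set Ioc_subset_Icc_self


theorem tp1_lintegral_Icc_split (w : ℝ → ℝ≥0∞) {s r t : ℝ} (hsr : s ≤ r) (hrt : r ≤ t) :
    (∫⁻ x in Icc s r, w x) + ∫⁻ x in Icc r t, w x = ∫⁻ x in Icc s t, w x := by
  have h1 : Icc s t = Icc s r ∪ Ioc r t := (Icc_union_Ioc_eq_Icc hsr hrt).symm
  have hdisj : Disjoint (Icc s r) (Ioc r t) := by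
    rw [Set.disjoint_left]
    intro x hx hx'
    exact absurd hx.2 (not_le.2 hx'.1)
  rw [h1, lintegral_union measurableSet_Ioc hdisj, restrict_Ioc_eq_restrict_Icc]

theorem tp1_pairs_of_ae_aux {u : ℝ → ℝ} {w : ℝ → ℝ≥0∞} {S : Set ℝ}
    (h : ∀ s ∈ S, ∀ᵐ t ∂(volume.restrict (Icc (0 : ℝ) 1)),
      ENNReal.ofReal |u t - u s| ≤ ∫⁻ r in uIcc s t, w r) {s t : ℝ} (hs : s ∈ S ∩ Icc 0 1)
    (ht : t ∈ S ∩ Icc 0 1) (hst : s < t) : ENNReal.ofReal |u t - u s| ≤ ∫⁻ r in Icc s t, w r := by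
  have hae := (h s hs.1).and (h t ht.1)
  obtain ⟨r, hr, h1, h2⟩ : ∃ r ∈ Ioo s t, ENNReal.ofReal |u r - u s| ≤ ∫⁻ x in uIcc s r, w x ∧
      ENNReal.ofReal |u r - u t| ≤ ∫⁻ x in uIcc t r, w x := by
    by_contra hcon
    rw [ae_iff] at hae
    have hsub : Ioo s t ⊆ {a | ¬(ENNReal.ofReal |u a - u s| ≤ ∫⁻ x in uIcc s a, w x ∧
        ENNReal.ofReal |u a - u t| ≤ ∫⁻ x in uIcc t a, w x)} := by
      intro r hr hP
      exact hcon ⟨r, hr, hP⟩
    have h0 := measure_mono_null hsub hae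
    have hsub2 : Ioo s t ⊆ Icc (0 : ℝ) 1 := fun x hx =>
      ⟨hs.2.1.trans hx.1.le, hx.2.le.trans ht.2.2⟩
    rw [Measure.restrict_apply measurableSet_Ioo, inter_eq_left.2 hsub2, Real.volume_Ioo,
      ENNReal.ofReal_eq_zero] at h0
    linarith
  rw [uIcc_of_le hr.1.le] at h1
  rw [uIcc_of_ge hr.2.le] at h2
  have h3 : |u t - u s| ≤ |u r - u s| + |u r - u t| := by
    have : u t - u s = (u r - u s) - (u r - u t) := by ring
    rw [this]
    exact abs_sub _ _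
  calc ENNReal.ofReal |u t - u s| ≤ ENNReal.ofReal (|u r - u s| + |u r - u t|) :=
        ENNReal.ofReal_le_ofReal h3
    _ ≤ ENNReal.ofReal |u r - u s| + ENNReal.ofReal |u r - u t| := ENNReal.ofReal_add_le
    _ ≤ (∫⁻ x in Icc s r, w x) + ∫⁻ x in Icc r t, w x := add_le_add h1 h2
    _ = ∫⁻ x in Icc s t, w x := tp1_lintegral_Icc_split w hr.1.le hr.2.le

theorem tp1_pairs_of_ae {u : ℝ → ℝ} {w : ℝ → ℝ≥0∞} {S : Set ℝ}
    (h : ∀ s ∈ S, ∀ᵐ t ∂(volume.restrict (Icc (0 : ℝ) 1)),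
      ENNReal.ofReal |u t - u s| ≤ ∫⁻ r in uIcc s t, w r) :
    ∀ s ∈ S ∩ Icc 0 1, ∀ t ∈ S ∩ Icc 0 1, ENNReal.ofReal |u t - u s| ≤ ∫⁻ r in uIcc s t, w r := by
  intro s hs t ht
  rcases lt_trichotomy s t with hst | hst | hst
  · rw [uIcc_of_le hst.le]
    exact tp1_pairs_of_ae_aux h hs ht hst
  · subst hst
    simp
  · rw [uIcc_of_ge hst.le, abs_sub_comm]
    exact tp1_pairs_of_ae_aux h ht hs hst

/-- the primitive of the weight -/
theorem tp1_prim {w : ℝ → ℝ≥0∞} (hw : AEMeasurable w (volume.restrict (Icc (0 : ℝ) 1)))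
    (hwfin : (∫⁻ t in Icc (0 : ℝ) 1, w t) < ∞) :
    ∃ W : ℝ → ℝ, AbsolutelyContinuousOnInterval W 0 1 ∧
      (∀ s ∈ Icc (0 : ℝ) 1, ∀ t ∈ Icc (0 : ℝ) 1,
        ∫⁻ r in uIcc s t, w r = ENNReal.ofReal |W t - W s|) ∧
      ∀ᵐ t ∂(volume.restrict (Icc (0 : ℝ) 1)), ENNReal.ofReal |deriv W t| ≤ w t := by
  have hI : IntegrableOn (fun v => (w v).toReal) (Icc 0 1) :=
    integrable_toReal_of_lintegral_ne_top hw hwfin.ne
  have hII : IntervalIntegrable (fun v => (w v).toReal) volume 0 1 :=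
    (intervalIntegrable_iff_integrableOn_Icc_of_le zero_le_one).2 hI
  have hsubI : ∀ x ∈ Icc (0 : ℝ) 1, IntervalIntegrable (fun v => (w v).toReal) volume 0 x := by
    intro x hx
    refine hII.mono_set ?_
    rw [uIcc_of_le hx.1, uIcc_of_le zero_le_one]
    exact Icc_subset_Icc le_rfl hx.2
  have key : ∀ s ∈ Icc (0 : ℝ) 1, ∀ t ∈ Icc (0 : ℝ) 1, s ≤ t →
      (∫ v in (0 : ℝ)..t, (w v).toReal) - (∫ v in (0 : ℝ)..s, (w v).toReal)
        = (∫⁻ r in Icc s t, w r).toReal := by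
    intro s hs t ht hst
    have hsub : Ioc s t ⊆ Icc (0 : ℝ) 1 := fun x hx => ⟨hs.1.trans hx.1.le, hx.2.trans ht.2⟩
    rw [intervalIntegral.integral_interval_sub_left (hsubI t ht) (hsubI s hs),
      intervalIntegral.integral_of_le hst, ← restrict_Ioc_eq_restrict_Icc]
    refine integral_toReal (hw.mono_measure (Measure.restrict_mono hsub le_rfl)) ?_
    exact ae_restrict_of_ae_restrict_of_subset hsub (ae_lt_top' hw hwfin.ne)
  have hfin : ∀ s ∈ Icc (0 : ℝ) 1, ∀ t ∈ Icc (0 : ℝ) 1, (∫⁻ r in Icc s t, w r) ≠ ∞ := by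
    intro s hs t ht
    refine ne_top_of_le_ne_top hwfin.ne (lintegral_mono_set ?_)
    exact Icc_subset_Icc hs.1 ht.2
  refine ⟨fun x => ∫ v in (0 : ℝ)..x, (w v).toReal,
    hII.absolutelyContinuousOnInterval_intervalIntegral (by simp), ?_, ?_⟩
  · intro s hs t ht
    rcases le_total s t with hst | hst
    · rw [uIcc_of_le hst, key s hs t ht hst, abs_of_nonneg ENNReal.toReal_nonneg,
        ENNReal.ofReal_toReal (hfin s hs t ht)]
    · rw [uIcc_of_ge hst, abs_sub_comm, key t ht s hs hst, abs_of_nonneg ENNReal.toReal_nonneg,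
        ENNReal.ofReal_toReal (hfin t ht s hs)]
  · rw [ae_restrict_iff' measurableSet_Icc]
    filter_upwards [hII.ae_hasDerivAt_integral] with t ht hmem
    have := ht (by rwa [uIcc_of_le zero_le_one]) 0 (by simp)
    rw [this.deriv, abs_of_nonneg ENNReal.toReal_nonneg]
    exact ENNReal.ofReal_toReal_le

theorem tp1_extend {u : ℝ → ℝ} {w : ℝ → ℝ≥0∞} (hw : AEMeasurable w (volume.restrict (Icc (0 : ℝ) 1)))
    (hwfin : (∫⁻ t in Icc (0 : ℝ) 1, w t) < ∞) {T : Set ℝ} (hT : T ⊆ Icc 0 1)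
    (h : ∀ s ∈ T, ∀ t ∈ T, ENNReal.ofReal |u t - u s| ≤ ∫⁻ r in uIcc s t, w r) :
    ∃ g : ℝ → ℝ, AbsolutelyContinuousOnInterval g 0 1 ∧ (∀ s ∈ T, g s = u s) ∧
      ∀ᵐ t ∂(volume.restrict (Icc (0 : ℝ) 1)), ENNReal.ofReal |deriv g t| ≤ w t := by
  obtain ⟨W, hWac, hWd, hWder⟩ := tp1_prim hw hwfin
  have hu : ∀ s ∈ T, ∀ t ∈ T, |u t - u s| ≤ |W t - W s| := by
    intro s hs t ht
    have := h s hs t ht
    rw [hWd s (hT hs) t (hT ht)] at this
    exact (ENNReal.ofReal_le_ofReal_iff (abs_nonneg _)).1 this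
  have hσ : ∀ y ∈ W '' T, Function.invFunOn W T y ∈ T ∧ W (Function.invFunOn W T y) = y :=
    fun y hy => Function.invFunOn_pos hy
  have hlip : LipschitzOnWith 1 (fun y => u (Function.invFunOn W T y)) (W '' T) := by
    refine LipschitzOnWith.of_dist_le_mul fun y hy y' hy' => ?_
    have := hu _ (hσ y' hy').1 _ (hσ y hy).1
    rw [(hσ y hy).2, (hσ y' hy').2] at this
    simpa [Real.dist_eq] using this
  obtain ⟨ψ, hψ, hEq⟩ := hlip.extend_real
  refine ⟨fun t => ψ (W t), tp1_ac_lipschitz_comp hψ hWac, ?_, ?_⟩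
  · intro s hs
    have hmem : W s ∈ W '' T := mem_image_of_mem W hs
    have h1 : ψ (W s) = u (Function.invFunOn W T (W s)) := (hEq hmem).symm
    have h2 := hu _ (hσ _ hmem).1 _ hs
    rw [(hσ _ hmem).2, sub_self, abs_zero] at h2
    have h3 : u s - u (Function.invFunOn W T (W s)) = 0 := abs_eq_zero.1 (le_antisymm h2 (abs_nonneg _))
    show ψ (W s) = u s
    rw [h1]
    linarith
  · filter_upwards [tp1_deriv_lipschitz_comp hψ hWac, hWder] with t h1 h2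
    rw [h1, abs_mul]
    have h3 : |deriv ψ (W t)| ≤ 1 := by
      simpa using norm_deriv_le_of_lipschitz (x₀ := W t) hψ
    refine le_trans (ENNReal.ofReal_le_ofReal ?_) h2
    calc |deriv ψ (W t)| * |deriv W t| ≤ 1 * |deriv W t| := by gcongr
      _ = |deriv W t| := one_mul _


/-- **the 1-d lemma** -/
theorem tp1_exists_rep {u : ℝ → ℝ} {w : ℝ → ℝ≥0∞} (hw : AEMeasurable w (volume.restrict (Icc (0 : ℝ) 1)))
    (hwfin : (∫⁻ t in Icc (0 : ℝ) 1, w t) < ∞) {S : Set ℝ}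
    (hS : ∀ᵐ s ∂(volume.restrict (Icc (0 : ℝ) 1)), s ∈ S) (h0 : (0 : ℝ) ∈ S) (h1 : (1 : ℝ) ∈ S)
    (h : ∀ s ∈ S, ∀ᵐ t ∂(volume.restrict (Icc (0 : ℝ) 1)),
      ENNReal.ofReal |u t - u s| ≤ ∫⁻ r in uIcc s t, w r) :
    ∃ g, tp_Rep1 u w g ∧ ∀ s ∈ S ∩ Icc 0 1, g s = u s := by
  obtain ⟨g, hac, hg, hd⟩ := tp1_extend hw hwfin (T := S ∩ Icc 0 1) inter_subset_right (tp1_pairs_of_ae h)
  refine ⟨g, ⟨hac, ?_, hg 0 ⟨h0, by simp⟩, hg 1 ⟨h1, by simp⟩, hd⟩, hg⟩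
  have hmem : ∀ᵐ s ∂(volume.restrict (Icc (0 : ℝ) 1)), s ∈ Icc (0 : ℝ) 1 :=
    ae_restrict_mem measurableSet_Icc
  filter_upwards [hS, hmem] with s hs hs' using hg s ⟨hs, hs'⟩

/-! ### calculus of representatives -/

variable {u u' u₁ u₂ g g' g₁ g₂ : ℝ → ℝ} {w w' w₁ w₂ : ℝ → ℝ≥0∞}

theorem tp1_rep_eqOn (h : tp_Rep1 u w g) (h' : tp_Rep1 u w' g') : EqOn g g' (Icc 0 1) := by
  refine tp1_eqOn_of_ae_eq ?_ ?_ ?_
  · simpa using h.ac.continuousOn
  · simpa using h'.ac.continuousOn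
  · filter_upwards [h.ae_eq, h'.ae_eq] with t h1 h2 using h1.trans h2.symm

theorem tp1_rep_deriv_eq (h : tp_Rep1 u w g) (h' : tp_Rep1 u w' g') :
    ∀ t ∈ Ioo (0 : ℝ) 1, deriv g t = deriv g' t := by
  intro t ht
  refine Filter.EventuallyEq.deriv_eq ?_
  filter_upwards [Icc_mem_nhds ht.1 ht.2] with s hs using tp1_rep_eqOn h h' hs

/-- change of the weight -/
theorem tp1_rep_weight (h : tp_Rep1 u w g)
    (hw : ∀ᵐ t ∂(volume.restrict (Icc (0 : ℝ) 1)), ENNReal.ofReal |deriv g t| ≤ w' t) : tp_Rep1 u w' g :=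
  ⟨h.ac, h.ae_eq, h.zero, h.one, hw⟩

theorem tp1_rep_congr (h : tp_Rep1 u w g) (hu : ∀ᵐ t ∂(volume.restrict (Icc (0 : ℝ) 1)), u t = u' t)
    (h0 : u 0 = u' 0) (h1 : u 1 = u' 1) (hw : ∀ᵐ t ∂(volume.restrict (Icc (0 : ℝ) 1)), w t ≤ w' t) :
    tp_Rep1 u' w' g := by
  refine ⟨h.ac, ?_, h.zero.trans h0, h.one.trans h1, ?_⟩
  · filter_upwards [h.ae_eq, hu] with t h1 h2 using h1.trans h2
  · filter_upwards [h.deriv_le, hw] with t h1 h2 using h1.trans h2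

theorem tp1_rep_le_lintegral (h : tp_Rep1 u w g) {s t : ℝ} (hs : 0 ≤ s) (hst : s ≤ t) (ht : t ≤ 1) :
    ENNReal.ofReal |g t - g s| ≤ ∫⁻ r in Icc s t, w r := by
  refine (tp1_ac_le_lintegral h.ac hs hst ht).trans (lintegral_mono_ae ?_)
  exact ae_restrict_of_ae_restrict_of_subset (Icc_subset_Icc hs ht) h.deriv_le

theorem tp1_rep_endpoints (h : tp_Rep1 u w g) :
    ENNReal.ofReal |u 1 - u 0| ≤ ∫⁻ r in Icc (0 : ℝ) 1, w r := by
  have := tp1_rep_le_lintegral h le_rfl zero_le_one le_rfl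
  rwa [h.zero, h.one] at this

theorem tp1_rep_min (h : tp_Rep1 u w g) (h' : tp_Rep1 u w' g') :
    tp_Rep1 u (fun t => min (w t) (w' t)) g := by
  refine tp1_rep_weight h ?_
  filter_upwards [h.deriv_le, h'.deriv_le, tp1_ae_mem_Ioo] with t h1 h2 h3
  refine le_min h1 ?_
  rw [tp1_rep_deriv_eq h h' t h3]
  exact h2

theorem tp1_rep_add (h₁ : tp_Rep1 u₁ w₁ g₁) (h₂ : tp_Rep1 u₂ w₂ g₂) :
    tp_Rep1 (fun t => u₁ t + u₂ t) (fun t => w₁ t + w₂ t) (fun t => g₁ t + g₂ t) := by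
  refine ⟨h₁.ac.add h₂.ac, ?_, ?_, ?_, ?_⟩
  · filter_upwards [h₁.ae_eq, h₂.ae_eq] with t e1 e2
    rw [e1, e2]
  · show g₁ 0 + g₂ 0 = u₁ 0 + u₂ 0
    rw [h₁.zero, h₂.zero]
  · show g₁ 1 + g₂ 1 = u₁ 1 + u₂ 1
    rw [h₁.one, h₂.one]
  · filter_upwards [h₁.deriv_le, h₂.deriv_le, tp1_ac_ae_diff h₁.ac, tp1_ac_ae_diff h₂.ac] with t e1 e2 d1 d2
    have hd : deriv (fun t => g₁ t + g₂ t) t = deriv g₁ t + deriv g₂ t :=
      (d1.hasDerivAt.add d2.hasDerivAt).deriv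
    rw [hd]
    calc ENNReal.ofReal |deriv g₁ t + deriv g₂ t| ≤ ENNReal.ofReal (|deriv g₁ t| + |deriv g₂ t|) :=
          ENNReal.ofReal_le_ofReal (abs_add_le _ _)
      _ ≤ ENNReal.ofReal |deriv g₁ t| + ENNReal.ofReal |deriv g₂ t| := ENNReal.ofReal_add_le
      _ ≤ w₁ t + w₂ t := add_le_add e1 e2

theorem tp1_rep_const_mul (c : ℝ) (h : tp_Rep1 u w g) :
    tp_Rep1 (fun t => c * u t) (fun t => ENNReal.ofReal |c| * w t) (fun t => c * g t) := by
  refine ⟨h.ac.const_mul c, ?_, ?_, ?_, ?_⟩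
  · filter_upwards [h.ae_eq] with t e1
    rw [e1]
  · show c * g 0 = c * u 0
    rw [h.zero]
  · show c * g 1 = c * u 1
    rw [h.one]
  · filter_upwards [h.deriv_le, tp1_ac_ae_diff h.ac] with t e1 d1
    rw [(d1.hasDerivAt.const_mul c).deriv, abs_mul, ENNReal.ofReal_mul (abs_nonneg _)]
    gcongr

theorem tp1_rep_mul (h₁ : tp_Rep1 u₁ w₁ g₁) (h₂ : tp_Rep1 u₂ w₂ g₂) :
    tp_Rep1 (fun t => u₁ t * u₂ t)
      (fun t => ENNReal.ofReal |u₁ t| * w₂ t + ENNReal.ofReal |u₂ t| * w₁ t) (fun t => g₁ t * g₂ t) := by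
  refine ⟨h₁.ac.mul h₂.ac, ?_, ?_, ?_, ?_⟩
  · filter_upwards [h₁.ae_eq, h₂.ae_eq] with t e1 e2
    rw [e1, e2]
  · show g₁ 0 * g₂ 0 = u₁ 0 * u₂ 0
    rw [h₁.zero, h₂.zero]
  · show g₁ 1 * g₂ 1 = u₁ 1 * u₂ 1
    rw [h₁.one, h₂.one]
  · filter_upwards [h₁.deriv_le, h₂.deriv_le, tp1_ac_ae_diff h₁.ac, tp1_ac_ae_diff h₂.ac, h₁.ae_eq, h₂.ae_eq]
      with t e1 e2 d1 d2 a1 a2
    have hd : deriv (fun t => g₁ t * g₂ t) t = deriv g₁ t * g₂ t + g₁ t * deriv g₂ t :=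
      (d1.hasDerivAt.mul d2.hasDerivAt).deriv
    rw [hd, a1, a2]
    calc ENNReal.ofReal |deriv g₁ t * u₂ t + u₁ t * deriv g₂ t|
        ≤ ENNReal.ofReal (|u₁ t| * |deriv g₂ t| + |u₂ t| * |deriv g₁ t|) := by
          refine ENNReal.ofReal_le_ofReal ?_
          refine (abs_add_le _ _).trans ?_
          rw [abs_mul, abs_mul]
          linarith [mul_comm |deriv g₁ t| |u₂ t|]
      _ ≤ ENNReal.ofReal (|u₁ t| * |deriv g₂ t|) + ENNReal.ofReal (|u₂ t| * |deriv g₁ t|) :=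
          ENNReal.ofReal_add_le
      _ = ENNReal.ofReal |u₁ t| * ENNReal.ofReal |deriv g₂ t|
          + ENNReal.ofReal |u₂ t| * ENNReal.ofReal |deriv g₁ t| := by
          rw [ENNReal.ofReal_mul (abs_nonneg _), ENNReal.ofReal_mul (abs_nonneg _)]
      _ ≤ ENNReal.ofReal |u₁ t| * w₂ t + ENNReal.ofReal |u₂ t| * w₁ t := by gcongr

theorem tp1_rep_comp_lipschitz {φ : ℝ → ℝ} {L : ℝ≥0} (hφ : LipschitzWith L φ) (h : tp_Rep1 u w g) :
    tp_Rep1 (fun t => φ (u t)) (fun t => ENNReal.ofReal |deriv φ (u t)| * w t) (fun t => φ (g t)) := by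
  refine ⟨tp1_ac_lipschitz_comp hφ h.ac, ?_, ?_, ?_, ?_⟩
  · filter_upwards [h.ae_eq] with t e1
    rw [e1]
  · show φ (g 0) = φ (u 0)
    rw [h.zero]
  · show φ (g 1) = φ (u 1)
    rw [h.one]
  · filter_upwards [h.deriv_le, tp1_deriv_lipschitz_comp hφ h.ac, h.ae_eq] with t e1 e2 e3
    rw [e2, e3, abs_mul, ENNReal.ofReal_mul (abs_nonneg _)]
    gcongr

/-- `g' = 0` a.e. on `{u ∈ N}`, `N` Lebesgue null -/
theorem tp1_rep_null (h : tp_Rep1 u w g) {N : Set ℝ} (hN : volume N = 0) :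
    ∀ᵐ t ∂(volume.restrict (Icc (0 : ℝ) 1)), u t ∈ N → deriv g t = 0 := by
  filter_upwards [ae_restrict_of_ae (s := Icc (0 : ℝ) 1) (tp1_deriv_eq_zero_of_null g hN),
    tp1_ac_ae_diff h.ac, h.ae_eq] with t e1 d1 a1 hu
  exact e1 (a1 ▸ hu) d1

/-- locality -/
theorem tp1_rep_locality (h₁ : tp_Rep1 u₁ w₁ g₁) (h₂ : tp_Rep1 u₂ w₂ g₂) :
    ∀ᵐ t ∂(volume.restrict (Icc (0 : ℝ) 1)), u₁ t = u₂ t → deriv g₁ t = deriv g₂ t := by
  have hN : volume ({0} : Set ℝ) = 0 := by simp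
  filter_upwards [ae_restrict_of_ae (s := Icc (0 : ℝ) 1)
      (tp1_deriv_eq_zero_of_null (fun t => g₁ t - g₂ t) hN),
    tp1_ac_ae_diff h₁.ac, tp1_ac_ae_diff h₂.ac, h₁.ae_eq, h₂.ae_eq] with t e1 d1 d2 a1 a2 hu
  have h0 : g₁ t - g₂ t ∈ ({0} : Set ℝ) := by
    rw [mem_singleton_iff, a1, a2, hu, sub_self]
  have h3 := e1 h0 (d1.sub d2)
  have hd : deriv (fun t => g₁ t - g₂ t) t = deriv g₁ t - deriv g₂ t :=
    (d1.hasDerivAt.sub d2.hasDerivAt).deriv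
  rw [hd] at h3
  linarith

/-- reverse chain rule -/
theorem tp1_rep_inv_chain {φ : ℝ → ℝ} {L : ℝ≥0} (hφ : LipschitzWith L φ) (h : tp_Rep1 u w g)
    (h' : tp_Rep1 (fun t => φ (u t)) w' g') :
    ∀ᵐ t ∂(volume.restrict (Icc (0 : ℝ) 1)),
      ENNReal.ofReal |deriv φ (u t)| * ENNReal.ofReal |deriv g t| ≤ w' t := by
  have hc := tp1_rep_comp_lipschitz hφ h
  filter_upwards [h'.deriv_le, tp1_deriv_lipschitz_comp hφ h.ac, h.ae_eq, tp1_ae_mem_Ioo] with t e1 e2 e3 e4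
  rw [tp1_rep_deriv_eq h' hc t e4, e2, e3, abs_mul, ENNReal.ofReal_mul (abs_nonneg _)] at e1
  exact e1

end Claimed.Agent.R210.TP.OneD
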