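/-
Row 210 (S0432), layer TP, architect helper661.
TP1 (weak upper gradients = Sobolev along a.e. curve) and TP7 (upper gradient inequality on subintervals).
Chain of the proof:  tp_interval_set (restrict + rescale + normalise) → tp_interval_ae_borel → tp_pairs_* (Fubini)
 → OneD.tp1_exists_rep → tp_sobAlong_borel → (congruence) tp_sobAlong.
-/
import Claimed.Agent.R210.TP.Basic
import Claimed.Agent.R210.TP.OneD

set_option autoImplicit false
set_option linter.unusedSectionVars false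

open Claims.C0366 Claims.C0366.WeakHessian
open Claimed.Agent.R210.TP.Defs
open Claimed.Agent.R210.CU.Defs Claimed.Agent.R210.CU.IfcBasic Claimed.Agent.R210.CU.Ifc
open Set Filter MeasureTheory
open scoped ENNReal NNReal Topology

namespace Claimed.Agent.R210.TP.Curve

variable {X : Type*} [MetricSpace X] [MeasurableSpace X] [BorelSpace X] [CompleteSpace X]
  [TopologicalSpace.SeparableSpace X] {m : Measure X} {π : Measure (Curve X)} {f f' D D' : X → ℝ}

/-! ### measurability and finiteness of the weight -/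

theorem tp_measurable_wt (hD : Measurable D) : Measurable (fun p : Curve X × ℝ => tp_wt D p.1 p.2) := by
  unfold tp_wt
  exact (ENNReal.measurable_ofReal.comp (hD.comp Need.tp_measurable_evalReal)).mul
    Need.tp_measurable_metricSpeed

/-- joint measurability in `(γ, s, t)` of `∫_{[s,t]} D(γ_r)|γ'_r| dr` -/
theorem tp_measurable_lintegral_wt (hD : Measurable D) :
    Measurable (fun q : Curve X × (ℝ × ℝ) => ∫⁻ r in uIcc q.2.1 q.2.2, tp_wt D q.1 r) := by
  have hS : MeasurableSet {p : (Curve X × (ℝ × ℝ)) × ℝ | p.2 ∈ uIcc p.1.2.1 p.1.2.2} := by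
    have h1 : Measurable (fun p : (Curve X × (ℝ × ℝ)) × ℝ => p.1.2.1) :=
      measurable_fst.comp (measurable_snd.comp measurable_fst)
    have h2 : Measurable (fun p : (Curve X × (ℝ × ℝ)) × ℝ => p.1.2.2) :=
      measurable_snd.comp (measurable_snd.comp measurable_fst)
    have h3 : Measurable (fun p : (Curve X × (ℝ × ℝ)) × ℝ => p.2) := measurable_snd
    have : {p : (Curve X × (ℝ × ℝ)) × ℝ | p.2 ∈ uIcc p.1.2.1 p.1.2.2}
        = {p | min p.1.2.1 p.1.2.2 ≤ p.2} ∩ {p | p.2 ≤ max p.1.2.1 p.1.2.2} := by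
      ext p
      simp only [Set.mem_ofPred_eq, Set.mem_inter_iff, Set.uIcc, Set.mem_Icc]
    rw [this]
    exact (measurableSet_le (h1.min h2) h3).inter (measurableSet_le h3 (h1.max h2))
  have hF : Measurable (fun p : (Curve X × (ℝ × ℝ)) × ℝ => tp_wt D p.1.1 p.2) :=
    (tp_measurable_wt hD).comp ((measurable_fst.comp measurable_fst).prodMk measurable_snd)
  have hG : Measurable (fun p : (Curve X × (ℝ × ℝ)) × ℝ =>
      ({p : (Curve X × (ℝ × ℝ)) × ℝ | p.2 ∈ uIcc p.1.2.1 p.1.2.2}).indicator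
        (fun p => tp_wt D p.1.1 p.2) p) := hF.indicator hS
  have hE : (fun q : Curve X × (ℝ × ℝ) => ∫⁻ r in uIcc q.2.1 q.2.2, tp_wt D q.1 r)
      = fun q => ∫⁻ r, ({p : (Curve X × (ℝ × ℝ)) × ℝ | p.2 ∈ uIcc p.1.2.1 p.1.2.2}).indicator
        (fun p => tp_wt D p.1.1 p.2) (q, r) := by
    funext q
    rw [← lintegral_indicator measurableSet_uIcc]
    refine lintegral_congr fun r => ?_
    by_cases hr : r ∈ uIcc q.2.1 q.2.2
    · rw [Set.indicator_of_mem hr, Set.indicator_of_mem (show (q, r) ∈ _ from hr)]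
    · rw [Set.indicator_of_notMem hr, Set.indicator_of_notMem (show (q, r) ∉ _ from hr)]
  rw [hE]
  exact hG.lintegral_prod_right'

/-- the three a.e. statements which are used in every curvewise argument -/
theorem tp_ae_curve (hπ : IsTestPlan m π) {P : X → Prop} (hP : ∀ᵐ x ∂m, P x) :
    ∀ᵐ γ ∂π, (∀ᵐ t ∂(volume.restrict (Icc (0 : ℝ) 1)), P (evalReal γ t)) ∧
      P (evalReal γ 0) ∧ P (evalReal γ 1) := by
  filter_upwards [Need.tp_ae_ae_eval hπ hP, Need.tp_ae_eval hπ hP 0, Need.tp_ae_eval hπ hP 1]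
    with γ h1 h2 h3 using ⟨h1, h2, h3⟩

theorem tp_wt_congr_ae (hπ : IsTestPlan m π) (hD : D =ᵐ[m] D') :
    ∀ᵐ γ ∂π, ∀ᵐ t ∂(volume.restrict (Icc (0 : ℝ) 1)), tp_wt D γ t = tp_wt D' γ t := by
  filter_upwards [Need.tp_ae_ae_eval hπ hD] with γ hγ
  filter_upwards [hγ] with t ht
  unfold tp_wt
  rw [ht]

theorem tp_lintegral_wt_lt_top (hπ : IsTestPlan m π) (hb : BoundedTracks π) (hD : LocallyL2 m D) :
    (∫⁻ γ, ∫⁻ t in Icc (0 : ℝ) 1, tp_wt D γ t ∂volume ∂π) < ∞ := by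
  obtain ⟨o, R, C, h⟩ := Need.tp_lintegral_wt_le hπ hb
  have h1 : (∫⁻ γ, ∫⁻ t in Icc (0 : ℝ) 1, tp_wt D γ t ∂volume ∂π) ≤
      ∫⁻ γ, ∫⁻ t in Icc (0 : ℝ) 1, ENNReal.ofReal |D (evalReal γ t)| * metricSpeed γ t ∂volume ∂π := by
    refine lintegral_mono fun γ => lintegral_mono fun t => ?_
    exact mul_le_mul_left (ENNReal.ofReal_le_ofReal (le_abs_self _)) _
  refine (h1.trans (h D hD)).trans_lt ?_
  refine ENNReal.mul_lt_top ENNReal.coe_lt_top ?_
  rcases lt_or_ge 0 R with hR | hR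
  · exact (hD o R hR).eLpNorm_lt_top
  · rw [Metric.ball_eq_empty.2 hR, Measure.restrict_empty, eLpNorm_measure_zero]
    exact ENNReal.zero_lt_top

theorem tp_ae_lintegral_wt_lt_top (hπ : IsTestPlan m π) (hb : BoundedTracks π) (hD : LocallyL2 m D) :
    ∀ᵐ γ ∂π, (∫⁻ t in Icc (0 : ℝ) 1, tp_wt D γ t) < ∞ := by
  have hm := Basic.tp_aemeasurable hD
  have hDD : D =ᵐ[m] hm.mk D := hm.ae_eq_mk
  have hD' : LocallyL2 m (hm.mk D) := Basic.tp_locallyL2_congr hDD hD
  have hmeas : Measurable (fun γ : Curve X => ∫⁻ t in Icc (0 : ℝ) 1, tp_wt (hm.mk D) γ t) :=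
    (tp_measurable_wt hm.measurable_mk).lintegral_prod_right'
  have hfin := ae_lt_top hmeas (tp_lintegral_wt_lt_top hπ hb hD').ne
  filter_upwards [hfin, tp_wt_congr_ae hπ hDD] with γ h1 h2
  rwa [lintegral_congr_ae h2]

/-! ### the inequality on subintervals, Borel data -/

/-- change of variables along the restricted curve -/
theorem tp_lintegral_wt_restr (D : X → ℝ) (γ : Curve X) {s t : ℝ} (hst : s < t) :
    (∫⁻ r in Icc (0 : ℝ) 1, tp_wt D (cu_restr s t γ) r) = ∫⁻ r in Icc s t, tp_wt D γ r := by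
  have h1 : (∫⁻ r in Icc (0 : ℝ) 1, tp_wt D (cu_restr s t γ) r)
      = ∫⁻ r in Icc (0 : ℝ) 1, (fun τ => ENNReal.ofReal (D (evalReal γ τ))) (s + r * (t - s))
          * metricSpeed (cu_restr s t γ) r := by
    refine setLIntegral_congr_fun measurableSet_Icc fun r hr => ?_
    simp only [tp_wt]
    rw [cu_evalReal_restr s t γ hr]
  rw [h1, cu_lintegral_restr γ hst (fun τ => ENNReal.ofReal (D (evalReal γ τ)))]
  rfl

theorem tp_measurable_lintegral_wt_Icc (hD : Measurable D) (s t : ℝ) :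
    Measurable (fun γ : Curve X => ∫⁻ r in Icc s t, tp_wt D γ r) :=
  (tp_measurable_wt hD).lintegral_prod_right'

/-- Step A: apply the definition to the plan `(restr_{s,t})_# (π(Γ)⁻¹ π|_Γ)`. -/
theorem tp_interval_set (hf : Measurable f) (hD : Measurable D) (h : IsLocalWeakUpperGradient m f D)
    (hπ : IsTestPlan m π) (hb : BoundedTracks π) {s t : ℝ} (hs : 0 ≤ s) (hst : s < t) (ht : t ≤ 1)
    {Γ : Set (Curve X)} (hΓ : MeasurableSet Γ) :
    (∫⁻ γ in Γ, ENNReal.ofReal |f (evalReal γ t) - f (evalReal γ s)| ∂π) ≤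
      ∫⁻ γ in Γ, ∫⁻ r in Icc s t, tp_wt D γ r ∂volume ∂π := by
  have hprob : IsProbabilityMeasure π := hπ.1
  by_cases h0 : π Γ = 0
  · rw [Measure.restrict_eq_zero.2 h0]
    simp
  have hc0 : (π Γ)⁻¹ ≠ 0 := ENNReal.inv_ne_zero.2 (measure_ne_top π Γ)
  have hct : (π Γ)⁻¹ ≠ ∞ := ENNReal.inv_ne_top.2 h0
  have hT : IsTestPlan m (((π Γ)⁻¹ • π.restrict Γ).map (cu_restr s t)) :=
    cu_testPlan_restr (cu_testPlan_cond hπ h0) hs hst ht
  have hB : BoundedTracks (((π Γ)⁻¹ • π.restrict Γ).map (cu_restr s t)) :=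
    cu_boundedTracks_restr (cu_boundedTracks_cond hb Γ) s t
  have key := h.2.2 _ hT hB
  have hm1 : Measurable (fun γ : Curve X => ENNReal.ofReal |f (γ timeOne) - f (γ timeZero)|) :=
    ENNReal.measurable_ofReal.comp
      (((hf.comp (cu_measurable_eval timeOne)).sub (hf.comp (cu_measurable_eval timeZero))).abs)
  have hm2 : Measurable (fun γ : Curve X => ∫⁻ r in Icc (0 : ℝ) 1,
      ENNReal.ofReal (D (evalReal γ r)) * metricSpeed γ r) :=
    tp_measurable_lintegral_wt_Icc hD 0 1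
  rw [lintegral_map hm1 (cu_measurable_restr s t), lintegral_map hm2 (cu_measurable_restr s t),
    lintegral_smul_measure, lintegral_smul_measure] at key
  have key2 := (ENNReal.mul_le_mul_iff_right hc0 hct).1 key
  have e1 : (∫⁻ γ in Γ, ENNReal.ofReal |f (cu_restr s t γ timeOne) - f (cu_restr s t γ timeZero)| ∂π)
      = ∫⁻ γ in Γ, ENNReal.ofReal |f (evalReal γ t) - f (evalReal γ s)| ∂π := by
    refine lintegral_congr fun γ => ?_
    rw [cu_restr_timeOne, cu_restr_timeZero]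
  have e2 : (∫⁻ γ in Γ, ∫⁻ r in Icc (0 : ℝ) 1,
      ENNReal.ofReal (D (evalReal (cu_restr s t γ) r)) * metricSpeed (cu_restr s t γ) r ∂volume ∂π)
      = ∫⁻ γ in Γ, ∫⁻ r in Icc s t, tp_wt D γ r ∂volume ∂π := by
    refine lintegral_congr fun γ => ?_
    exact tp_lintegral_wt_restr D γ hst
  rw [← e1, ← e2]
  exact key2

/-- Step B -/
theorem tp_interval_ae_borel (hf : Measurable f) (hD : Measurable D) (h : IsLocalWeakUpperGradient m f D)
    (hπ : IsTestPlan m π) (hb : BoundedTracks π) {s t : ℝ} (hs : 0 ≤ s) (hst : s ≤ t) (ht : t ≤ 1) :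
    ∀ᵐ γ ∂π, ENNReal.ofReal |f (evalReal γ t) - f (evalReal γ s)| ≤ ∫⁻ r in Icc s t, tp_wt D γ r := by
  have hprob : IsProbabilityMeasure π := hπ.1
  rcases hst.eq_or_lt with rfl | hlt
  · exact Eventually.of_forall fun γ => by simp
  · have hm1 : Measurable (fun γ : Curve X => ENNReal.ofReal |f (evalReal γ t) - f (evalReal γ s)|) :=
      ENNReal.measurable_ofReal.comp
        (((hf.comp (cu_measurable_evalReal_time t)).sub (hf.comp (cu_measurable_evalReal_time s))).abs)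
    exact ae_le_of_forall_setLIntegral_le_of_sigmaFinite hm1
      (fun Γ hΓ _ => tp_interval_set hf hD h hπ hb hs hlt ht hΓ)

/-- Step 0: fixed times, in any order -/
theorem tp_pairs_step0 (hf : Measurable f) (hD : Measurable D) (h : IsLocalWeakUpperGradient m f D)
    (hπ : IsTestPlan m π) (hb : BoundedTracks π) {s t : ℝ} (hs : s ∈ Icc (0 : ℝ) 1) (ht : t ∈ Icc (0 : ℝ) 1) :
    ∀ᵐ γ ∂π, ENNReal.ofReal |f (evalReal γ t) - f (evalReal γ s)| ≤ ∫⁻ r in uIcc s t, tp_wt D γ r := by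
  rcases le_total s t with hst | hst
  · rw [uIcc_of_le hst]
    exact tp_interval_ae_borel hf hD h hπ hb hs.1 hst ht.2
  · rw [uIcc_of_ge hst]
    filter_upwards [tp_interval_ae_borel hf hD h hπ hb ht.1 hst hs.2] with γ hγ
    rwa [abs_sub_comm]

/-- measurability of the set of the good triples -/
theorem tp_pairs_measurableSet (hf : Measurable f) (hD : Measurable D) :
    MeasurableSet {q : Curve X × (ℝ × ℝ) | ENNReal.ofReal |f (evalReal q.1 q.2.2) - f (evalReal q.1 q.2.1)|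
      ≤ ∫⁻ r in uIcc q.2.1 q.2.2, tp_wt D q.1 r} := by
  have h2 : Measurable (fun q : Curve X × (ℝ × ℝ) => f (evalReal q.1 q.2.2)) :=
    hf.comp (cu_measurable_evalReal.comp (measurable_fst.prodMk (measurable_snd.comp measurable_snd)))
  have h1 : Measurable (fun q : Curve X × (ℝ × ℝ) => f (evalReal q.1 q.2.1)) :=
    hf.comp (cu_measurable_evalReal.comp (measurable_fst.prodMk (measurable_fst.comp measurable_snd)))
  exact measurableSet_le (ENNReal.measurable_ofReal.comp (h2.sub h1).abs) (tp_measurable_lintegral_wt hD)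

/-- Step C (Fubini), one time fixed -/
theorem tp_pairs_fixed_borel (hf : Measurable f) (hD : Measurable D) (h : IsLocalWeakUpperGradient m f D)
    (hπ : IsTestPlan m π) (hb : BoundedTracks π) {s : ℝ} (hs : s ∈ Icc (0 : ℝ) 1) :
    ∀ᵐ γ ∂π, ∀ᵐ t ∂(volume.restrict (Icc (0 : ℝ) 1)),
      ENNReal.ofReal |f (evalReal γ t) - f (evalReal γ s)| ≤ ∫⁻ r in uIcc s t, tp_wt D γ r := by
  have hprob : IsProbabilityMeasure π := hπ.1
  have hmeas : MeasurableSet {x : Curve X × ℝ | ENNReal.ofReal |f (evalReal x.1 x.2) - f (evalReal x.1 s)|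
      ≤ ∫⁻ r in uIcc s x.2, tp_wt D x.1 r} :=
    (tp_pairs_measurableSet hf hD).preimage
      (measurable_fst.prodMk (measurable_const.prodMk measurable_snd) :
        Measurable fun x : Curve X × ℝ => (x.1, (s, x.2)))
  refine (Measure.ae_ae_comm (p := fun (γ : Curve X) (t : ℝ) =>
    ENNReal.ofReal |f (evalReal γ t) - f (evalReal γ s)| ≤ ∫⁻ r in uIcc s t, tp_wt D γ r) hmeas).2 ?_
  exact (ae_restrict_iff' measurableSet_Icc).2
    (Eventually.of_forall fun t ht => tp_pairs_step0 hf hD h hπ hb hs ht)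

/-- Step C (Fubini), both times free -/
theorem tp_pairs_borel (hf : Measurable f) (hD : Measurable D) (h : IsLocalWeakUpperGradient m f D)
    (hπ : IsTestPlan m π) (hb : BoundedTracks π) :
    ∀ᵐ γ ∂π, ∀ᵐ s ∂(volume.restrict (Icc (0 : ℝ) 1)), ∀ᵐ t ∂(volume.restrict (Icc (0 : ℝ) 1)),
      ENNReal.ofReal |f (evalReal γ t) - f (evalReal γ s)| ≤ ∫⁻ r in uIcc s t, tp_wt D γ r := by
  have hprob : IsProbabilityMeasure π := hπ.1
  have h1 : ∀ᵐ γ ∂π, ∀ᵐ p ∂((volume.restrict (Icc (0 : ℝ) 1)).prod (volume.restrict (Icc (0 : ℝ) 1))),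
      ENNReal.ofReal |f (evalReal γ p.2) - f (evalReal γ p.1)| ≤ ∫⁻ r in uIcc p.1 p.2, tp_wt D γ r := by
    refine (Measure.ae_ae_comm (p := fun (γ : Curve X) (p : ℝ × ℝ) =>
      ENNReal.ofReal |f (evalReal γ p.2) - f (evalReal γ p.1)| ≤ ∫⁻ r in uIcc p.1 p.2, tp_wt D γ r)
      (tp_pairs_measurableSet hf hD)).2 ?_
    rw [Measure.prod_restrict]
    exact (ae_restrict_iff' (measurableSet_Icc.prod measurableSet_Icc)).2
      (Eventually.of_forall fun p hp => tp_pairs_step0 hf hD h hπ hb hp.1 hp.2)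
  filter_upwards [h1] with γ hγ
  exact Measure.ae_ae_of_ae_prod hγ

/-- Step E: Borel data -/
theorem tp_sobAlong_borel (hf : Measurable f) (hD : Measurable D) (h : IsLocalWeakUpperGradient m f D)
    (hπ : IsTestPlan m π) (hb : BoundedTracks π) : ∀ᵐ γ ∂π, tp_SobAlong f D γ := by
  filter_upwards [tp_ae_lintegral_wt_lt_top hπ hb h.1, tp_pairs_borel hf hD h hπ hb,
    tp_pairs_fixed_borel hf hD h hπ hb (s := 0) (by simp),
    tp_pairs_fixed_borel hf hD h hπ hb (s := 1) (by simp)] with γ h1 h2 h3 h4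
  have hw : Measurable (tp_wt D γ) := (tp_measurable_wt hD).comp (measurable_const.prodMk measurable_id)
  obtain ⟨g, hg, -⟩ := OneD.tp1_exists_rep (u := fun t => f (evalReal γ t)) (w := tp_wt D γ)
    (S := {s | ∀ᵐ t ∂(volume.restrict (Icc (0 : ℝ) 1)),
      ENNReal.ofReal |f (evalReal γ t) - f (evalReal γ s)| ≤ ∫⁻ r in uIcc s t, tp_wt D γ r})
    hw.aemeasurable h1 h2 h3 h4 (fun s hs => hs)
  exact ⟨g, hg⟩

theorem tp_rep_eval_borel (hf : Measurable f) (hD : Measurable D) (h : IsLocalWeakUpperGradient m f D)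
    (hπ : IsTestPlan m π) (hb : BoundedTracks π) {t : ℝ} (ht : t ∈ Icc (0 : ℝ) 1) :
    ∀ᵐ γ ∂π, ∀ g, tp_Rep f D γ g → g t = f (evalReal γ t) := by
  filter_upwards [tp_ae_lintegral_wt_lt_top hπ hb h.1, tp_pairs_borel hf hD h hπ hb,
    tp_pairs_fixed_borel hf hD h hπ hb (s := 0) (by simp),
    tp_pairs_fixed_borel hf hD h hπ hb (s := 1) (by simp),
    tp_pairs_fixed_borel hf hD h hπ hb ht] with γ h1 h2 h3 h4 h5
  have hw : Measurable (tp_wt D γ) := (tp_measurable_wt hD).comp (measurable_const.prodMk measurable_id)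
  obtain ⟨g₀, hg₀, hv⟩ := OneD.tp1_exists_rep (u := fun t => f (evalReal γ t)) (w := tp_wt D γ)
    (S := {s | ∀ᵐ t ∂(volume.restrict (Icc (0 : ℝ) 1)),
      ENNReal.ofReal |f (evalReal γ t) - f (evalReal γ s)| ≤ ∫⁻ r in uIcc s t, tp_wt D γ r})
    hw.aemeasurable h1 h2 h3 h4 (fun s hs => hs)
  intro g hg
  rw [OneD.tp1_rep_eqOn hg hg₀ ht]
  exact hv t ⟨h5, ht⟩

/-! ### general data -/

/-- changing `f` and `D` on `m`-null sets does not change the representatives, for a.e. curve -/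
theorem tp_rep_congr_ae (hπ : IsTestPlan m π) (hf : f =ᵐ[m] f') (hD : D =ᵐ[m] D') :
    ∀ᵐ γ ∂π, ∀ g, tp_Rep f D γ g → tp_Rep f' D' γ g := by
  filter_upwards [tp_ae_curve hπ (P := fun x => f x = f' x) hf, tp_wt_congr_ae hπ hD]
    with γ h1 h2 g hg
  exact OneD.tp1_rep_congr hg h1.1 h1.2.1 h1.2.2 (h2.mono fun t ht => ht.le)

/-- enlarging `D` -/
theorem tp_rep_mono_ae (hπ : IsTestPlan m π) (hD : ∀ᵐ x ∂m, D x ≤ D' x) :
    ∀ᵐ γ ∂π, ∀ g, tp_Rep f D γ g → tp_Rep f D' γ g := by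
  filter_upwards [tp_ae_curve hπ hD] with γ h1 g hg
  refine OneD.tp1_rep_congr hg (Eventually.of_forall fun _ => rfl) rfl rfl ?_
  filter_upwards [h1.1] with t ht
  exact mul_le_mul_left (ENNReal.ofReal_le_ofReal ht) _

/-- **TP1, direct part** -/
theorem tp_sobAlong (hf : AEMeasurable f m) (h : IsLocalWeakUpperGradient m f D)
    (hπ : IsTestPlan m π) (hb : BoundedTracks π) : ∀ᵐ γ ∂π, tp_SobAlong f D γ := by
  have hDm := Basic.tp_aemeasurable h.1
  have hf' := hf.ae_eq_mk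
  have hD' := hDm.ae_eq_mk
  have h' := Basic.tp_wug_congr hf' hD' h
  filter_upwards [tp_sobAlong_borel hf.measurable_mk hDm.measurable_mk h' hπ hb,
    tp_rep_congr_ae hπ hf'.symm hD'.symm] with γ h1 h2
  obtain ⟨g, hg⟩ := h1
  exact ⟨g, h2 g hg⟩

/-- TP1, complement: the representative takes the right value at every fixed time, for a.e. curve -/
theorem tp_rep_eval (hf : AEMeasurable f m) (h : IsLocalWeakUpperGradient m f D)
    (hπ : IsTestPlan m π) (hb : BoundedTracks π) {t : ℝ} (ht : t ∈ Icc (0 : ℝ) 1) :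
    ∀ᵐ γ ∂π, ∀ g, tp_Rep f D γ g → g t = f (evalReal γ t) := by
  have hDm := Basic.tp_aemeasurable h.1
  have hf' := hf.ae_eq_mk
  have hD' := hDm.ae_eq_mk
  have h' := Basic.tp_wug_congr hf' hD' h
  filter_upwards [tp_rep_eval_borel hf.measurable_mk hDm.measurable_mk h' hπ hb ht,
    tp_rep_congr_ae hπ hf' hD',
    Need.tp_ae_eval hπ (P := fun x => f x = hf.mk f x) hf' t] with γ h1 h2 h3 g hg
  rw [h1 g (h2 g hg), h3]

/-- **TP1, converse part** -/
theorem tp_wug_of_sobAlong (hD : LocallyL2 m D) (hD0 : ∀ᵐ x ∂m, 0 ≤ D x)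
    (h : ∀ π : Measure (Curve X), IsTestPlan m π → BoundedTracks π → ∀ᵐ γ ∂π, tp_SobAlong f D γ) :
    IsLocalWeakUpperGradient m f D := by
  refine ⟨hD, hD0, fun π hπ hb => lintegral_mono_ae ?_⟩
  filter_upwards [h π hπ hb] with γ hγ
  obtain ⟨g, hg⟩ := hγ
  have h1 := OneD.tp1_rep_endpoints hg
  simp only [Need.tp_evalReal_one, Need.tp_evalReal_zero] at h1
  exact h1

/-- **TP7**, a.e. curve -/
theorem tp_interval_ae (hf : AEMeasurable f m) (h : IsLocalWeakUpperGradient m f D)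
    (hπ : IsTestPlan m π) (hb : BoundedTracks π) {s t : ℝ} (hs : 0 ≤ s) (hst : s ≤ t) (ht : t ≤ 1) :
    ∀ᵐ γ ∂π, ENNReal.ofReal |f (evalReal γ t) - f (evalReal γ s)| ≤ ∫⁻ r in Icc s t, tp_wt D γ r := by
  have hDm := Basic.tp_aemeasurable h.1
  have hf' := hf.ae_eq_mk
  have hD' := hDm.ae_eq_mk
  have h' := Basic.tp_wug_congr hf' hD' h
  filter_upwards [tp_interval_ae_borel hf.measurable_mk hDm.measurable_mk h' hπ hb hs hst ht,
    Need.tp_ae_eval hπ (P := fun x => f x = hf.mk f x) hf' t,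
    Need.tp_ae_eval hπ (P := fun x => f x = hf.mk f x) hf' s,
    tp_wt_congr_ae hπ hD'] with γ h1 h2 h3 h4
  rw [h2, h3]
  refine h1.trans (le_of_eq ?_)
  apply lintegral_congr_ae
  have hle : (volume : Measure ℝ).restrict (Icc s t) ≤ volume.restrict (Icc (0 : ℝ) 1) :=
    Measure.restrict_mono (Icc_subset_Icc hs ht) le_rfl
  have h5 : ∀ᵐ r ∂((volume : Measure ℝ).restrict (Icc s t)),
      tp_wt D γ r = tp_wt (AEMeasurable.mk D hDm) γ r := ae_mono hle h4
  exact h5.mono fun r hr => hr.symm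

/-- **TP7**, integrated -/
theorem tp_interval (hf : AEMeasurable f m) (h : IsLocalWeakUpperGradient m f D)
    (hπ : IsTestPlan m π) (hb : BoundedTracks π) {s t : ℝ} (hs : 0 ≤ s) (hst : s ≤ t) (ht : t ≤ 1) :
    (∫⁻ γ, ENNReal.ofReal |f (evalReal γ t) - f (evalReal γ s)| ∂π) ≤
      ∫⁻ γ, ∫⁻ r in Icc s t, tp_wt D γ r ∂volume ∂π :=
  lintegral_mono_ae (tp_interval_ae hf h hπ hb hs hst ht)

/-- localisation: only the values of `f` and `D` on the ball containing the tracks matter -/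
theorem tp_wug_of_local (hD : LocallyL2 m D) (hD0 : ∀ᵐ x ∂m, 0 ≤ D x)
    (h : ∀ o : X, ∀ R : ℝ, ∃ f₁ D₁ : X → ℝ, IsLocalWeakUpperGradient m f₁ D₁ ∧
      (∀ᵐ x ∂m, x ∈ Metric.ball o R → f x = f₁ x) ∧ (∀ᵐ x ∂m, x ∈ Metric.ball o R → D₁ x ≤ D x)) :
    IsLocalWeakUpperGradient m f D := by
  refine ⟨hD, hD0, fun π hπ hb => ?_⟩
  obtain ⟨o, R, hR, htr⟩ := Need.tp_tracks_evalReal hb
  obtain ⟨f₁, D₁, hw, hf1, hD1⟩ := h o R
  have e1 : (∫⁻ γ, ENNReal.ofReal |f (γ timeOne) - f (γ timeZero)| ∂π) =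
      ∫⁻ γ, ENNReal.ofReal |f₁ (γ timeOne) - f₁ (γ timeZero)| ∂π := by
    apply lintegral_congr_ae
    filter_upwards [htr, Need.tp_ae_eval hπ hf1 0, Need.tp_ae_eval hπ hf1 1] with γ h0 h1 h2
    have a0 := h1 (h0 0)
    have a1 := h2 (h0 1)
    rw [Need.tp_evalReal_zero] at a0
    rw [Need.tp_evalReal_one] at a1
    rw [a0, a1]
  rw [e1]
  refine (hw.2.2 π hπ hb).trans ?_
  apply lintegral_mono_ae
  filter_upwards [htr, Need.tp_ae_ae_eval hπ hD1] with γ h0 h1
  apply lintegral_mono_ae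
  filter_upwards [h1] with t ht
  exact mul_le_mul_left (ENNReal.ofReal_le_ofReal (ht (h0 t))) _

end Claimed.Agent.R210.TP.Curve
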