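/-
Row 210 (S0432), layer TP, architect helper661.
TP2: lattice property of weak upper gradients, decreasing limits, existence of the minimal one.
-/
import Claimed.Agent.R210.TP.Curve

set_option autoImplicit false
set_option linter.unusedSectionVars false

open Claims.C0366 Claims.C0366.WeakHessian
open Claimed.Agent.R210.TP.Defs
open Set Filter MeasureTheory
open scoped ENNReal NNReal Topology

namespace Claimed.Agent.R210.TP.Min

/-- abstract lemma: a nonempty class of a.e. measurable real functions which is stable under `min` and has a lower bound (in the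
class) for every pointwise antitone sequence has an a.e. smallest element.  (`∫ arctan D dν`, `ν` finite equivalent measure.) -/
theorem tp_exists_ae_min {α : Type*} [MeasurableSpace α] (ν : Measure α) [SFinite ν] (P : (α → ℝ) → Prop)
    (hne : ∃ D, P D) (hmeas : ∀ D, P D → AEMeasurable D ν)
    (hmin : ∀ D₁ D₂, P D₁ → P D₂ → P (fun x => min (D₁ x) (D₂ x)))
    (hlim : ∀ Ds : ℕ → α → ℝ, (∀ n, P (Ds n)) → Antitone Ds → ∃ D, P D ∧ ∀ n, ∀ᵐ x ∂ν, D x ≤ Ds n x) :
    ∃ D, P D ∧ ∀ D', P D' → ∀ᵐ x ∂ν, D x ≤ D' x := by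
  set μ := ν.toFinite with hμ
  have hac1 : μ ≪ ν := toFinite_absolutelyContinuous ν
  have hac2 : ν ≪ μ := absolutelyContinuous_toFinite ν
  let J : (α → ℝ) → ℝ := fun D => ∫ x, Real.arctan (D x) ∂μ
  have hint : ∀ D, P D → Integrable (fun x => Real.arctan (D x)) μ := by
    intro D hD
    have hm : AEMeasurable D μ := (hmeas D hD).mono_ac hac1
    refine Integrable.of_bound
      (Real.continuous_arctan.measurable.comp_aemeasurable hm).aestronglyMeasurable
      (Real.pi / 2) (Eventually.of_forall fun x => ?_)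
    rw [Real.norm_eq_abs, abs_le]
    exact ⟨(Real.neg_pi_div_two_lt_arctan _).le, (Real.arctan_lt_pi_div_two _).le⟩
  have hbdd : BddBelow (J '' {D | P D}) := by
    refine ⟨∫ _x, (-(Real.pi / 2) : ℝ) ∂μ, ?_⟩
    rintro _ ⟨D, hD, rfl⟩
    exact integral_mono (integrable_const _) (hint D hD)
      (fun x => (Real.neg_pi_div_two_lt_arctan _).le)
  have hne' : (J '' {D | P D}).Nonempty := by
    obtain ⟨D, hD⟩ := hne
    exact ⟨J D, D, hD, rfl⟩
  set i := sInf (J '' {D | P D}) with hi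
  have hch : ∀ n : ℕ, ∃ D, P D ∧ J D < i + 1 / ((n : ℝ) + 1) := by
    intro n
    obtain ⟨_, ⟨D, hD, rfl⟩, hlt⟩ := exists_lt_of_csInf_lt hne'
      (lt_add_of_pos_right i (by positivity : (0 : ℝ) < 1 / ((n : ℝ) + 1)))
    exact ⟨D, hD, hlt⟩
  choose Dn hDnP hDnJ using hch
  let E : ℕ → α → ℝ := fun n => Nat.rec (Dn 0) (fun k Ek => fun x => min (Ek x) (Dn (k + 1) x)) n
  have hES : ∀ n, E (n + 1) = fun x => min (E n x) (Dn (n + 1) x) := fun n => rfl
  have hEP : ∀ n, P (E n) := by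
    intro n
    induction n with
    | zero => exact hDnP 0
    | succ k ih => rw [hES]; exact hmin _ _ ih (hDnP _)
  have hEanti : Antitone E := antitone_nat_of_succ_le (fun n => by
    rw [hES]; intro x; exact min_le_left _ _)
  have hEle : ∀ n x, E n x ≤ Dn n x := by
    intro n x
    cases n with
    | zero => exact le_rfl
    | succ k => rw [hES]; exact min_le_right _ _
  obtain ⟨D, hDP, hDle⟩ := hlim E hEP hEanti
  have hJmono : ∀ D₁ D₂, P D₁ → P D₂ → (∀ᵐ x ∂ν, D₁ x ≤ D₂ x) → J D₁ ≤ J D₂ := by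
    intro D₁ D₂ h1 h2 hle
    have hle' : ∀ᵐ x ∂μ, D₁ x ≤ D₂ x := hac1.ae_le hle
    exact integral_mono_ae (hint _ h1) (hint _ h2)
      (hle'.mono fun x hx => Real.arctan_strictMono.monotone hx)
  have hJD : J D = i := by
    apply le_antisymm
    · apply le_of_forall_pos_le_add
      intro ε hε
      obtain ⟨n, hn⟩ := exists_nat_one_div_lt hε
      have h1 : J D ≤ J (Dn n) :=
        hJmono _ _ hDP (hDnP n) ((hDle n).mono fun x hx => hx.trans (hEle n x))
      linarith [hDnJ n]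
    · exact csInf_le hbdd ⟨D, hDP, rfl⟩
  refine ⟨D, hDP, fun D' hD' => ?_⟩
  have hM : P (fun x => min (D x) (D' x)) := hmin _ _ hDP hD'
  have hJM : i ≤ J (fun x => min (D x) (D' x)) := csInf_le hbdd ⟨_, hM, rfl⟩
  have hnn : 0 ≤ᵐ[μ] fun x => Real.arctan (D x) - Real.arctan (min (D x) (D' x)) :=
    Eventually.of_forall fun x => sub_nonneg.2 (Real.arctan_strictMono.monotone (min_le_left _ _))
  have hint' : Integrable (fun x => Real.arctan (D x) - Real.arctan (min (D x) (D' x))) μ :=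
    (hint _ hDP).sub (hint _ hM)
  have hzero : ∫ x, (Real.arctan (D x) - Real.arctan (min (D x) (D' x))) ∂μ = 0 := by
    apply le_antisymm
    · rw [integral_sub (hint _ hDP) (hint _ hM)]
      have h3 : J D - J (fun x => min (D x) (D' x)) ≤ 0 := by linarith
      exact h3
    · exact integral_nonneg_of_ae hnn
  have hae := (integral_eq_zero_iff_of_nonneg_ae hnn hint').1 hzero
  apply hac2.ae_le
  filter_upwards [hae] with x hx
  have h4 : Real.arctan (D x) = Real.arctan (min (D x) (D' x)) := sub_eq_zero.1 hx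
  have h5 := Real.arctan_injective h4
  rw [h5]
  exact min_le_right _ _

variable {X : Type*} [MetricSpace X] [MeasurableSpace X] [BorelSpace X] [CompleteSpace X]
  [TopologicalSpace.SeparableSpace X] {m : Measure X} {f D D₁ D₂ : X → ℝ}

theorem tp_wug_min (hf : AEMeasurable f m) (h₁ : IsLocalWeakUpperGradient m f D₁)
    (h₂ : IsLocalWeakUpperGradient m f D₂) : IsLocalWeakUpperGradient m f (fun x => min (D₁ x) (D₂ x)) := by
  have hmeas : AEStronglyMeasurable (fun x => min (D₁ x) (D₂ x)) m :=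
    ((Basic.tp_aemeasurable h₁.1).min (Basic.tp_aemeasurable h₂.1)).aestronglyMeasurable
  have hnn : ∀ᵐ x ∂m, 0 ≤ min (D₁ x) (D₂ x) := by
    filter_upwards [h₁.2.1, h₂.2.1] with x a b using le_min a b
  refine Curve.tp_wug_of_sobAlong (Basic.tp_locallyL2_of_abs_le h₁.1 hmeas ?_) hnn ?_
  · filter_upwards [hnn, h₁.2.1] with x a b
    rw [abs_of_nonneg a, abs_of_nonneg b]
    exact min_le_left _ _
  · intro π hπ hb
    filter_upwards [Curve.tp_sobAlong hf h₁ hπ hb, Curve.tp_sobAlong hf h₂ hπ hb] with γ hg₁ hg₂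
    obtain ⟨g₁, r₁⟩ := hg₁
    obtain ⟨g₂, r₂⟩ := hg₂
    refine ⟨g₁, ?_⟩
    have r := OneD.tp1_rep_min r₁ r₂
    refine OneD.tp1_rep_congr r (Eventually.of_forall fun _ => rfl) rfl rfl
      (Eventually.of_forall fun t => le_of_eq ?_)
    unfold tp_wt
    beta_reduce
    rcases le_total (D₁ (evalReal γ t)) (D₂ (evalReal γ t)) with hle | hle
    · rw [min_eq_left hle, min_eq_left (mul_le_mul_left (ENNReal.ofReal_le_ofReal hle) _)]
    · rw [min_eq_right hle, min_eq_right (mul_le_mul_left (ENNReal.ofReal_le_ofReal hle) _)]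

/-- **TP2** lattice property -/
theorem tp_wug_indicator (hf : AEMeasurable f m) (h₁ : IsLocalWeakUpperGradient m f D₁)
    (h₂ : IsLocalWeakUpperGradient m f D₂) {B : Set X} (hB : MeasurableSet B) :
    IsLocalWeakUpperGradient m f (fun x => B.indicator D₁ x + Bᶜ.indicator D₂ x) := by
  refine Basic.tp_wug_mono (tp_wug_min hf h₁ h₂) ?_ (Eventually.of_forall fun x => ?_)
  · intro o R hR
    exact (MemLp.indicator hB (h₁.1 o R hR)).add (MemLp.indicator hB.compl (h₂.1 o R hR))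
  · by_cases hx : x ∈ B
    · have hx' : x ∉ Bᶜ := fun h => h hx
      rw [indicator_of_mem hx, indicator_of_notMem hx', add_zero]
      exact min_le_left _ _
    · have hx' : x ∈ Bᶜ := hx
      rw [indicator_of_notMem hx, indicator_of_mem hx', zero_add]
      exact min_le_right _ _

/-- **TP2** decreasing limits -/
theorem tp_wug_antitone_lim (hf : AEMeasurable f m) {Ds : ℕ → X → ℝ}
    (h : ∀ n, IsLocalWeakUpperGradient m f (Ds n)) (hanti : Antitone Ds) :
    IsLocalWeakUpperGradient m f (fun x => ⨅ n, Ds n x) ∧ ∀ n, ∀ᵐ x ∂m, (⨅ k, Ds k x) ≤ Ds n x := by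
  have hpos : ∀ᵐ x ∂m, ∀ n, 0 ≤ Ds n x := ae_all_iff.2 fun n => (h n).2.1
  have hbdd : ∀ x, (∀ n, 0 ≤ Ds n x) → BddBelow (range fun n => Ds n x) := fun x hx =>
    ⟨0, by rintro _ ⟨n, rfl⟩; exact hx n⟩
  have hantix : ∀ x, Antitone (fun n => Ds n x) := fun x a b hab => hanti hab x
  have hlim : ∀ᵐ x ∂m, Tendsto (fun n => Ds n x) atTop (𝓝 (⨅ n, Ds n x)) := by
    filter_upwards [hpos] with x hx
    exact tendsto_atTop_ciInf (hantix x) (hbdd x hx)
  have hle : ∀ n, ∀ᵐ x ∂m, (⨅ k, Ds k x) ≤ Ds n x := fun n => by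
    filter_upwards [hpos] with x hx
    exact ciInf_le (hbdd x hx) n
  have h0 : ∀ᵐ x ∂m, 0 ≤ ⨅ n, Ds n x := by
    filter_upwards [hpos] with x hx
    exact le_ciInf hx
  have hmeas : AEMeasurable (fun x => ⨅ n, Ds n x) m :=
    aemeasurable_of_tendsto_metrizable_ae atTop (fun n => Basic.tp_aemeasurable (h n).1) hlim
  have hL2 : LocallyL2 m (fun x => ⨅ n, Ds n x) := by
    refine Basic.tp_locallyL2_of_abs_le (h 0).1 hmeas.aestronglyMeasurable ?_
    filter_upwards [h0, hle 0] with x h1 h2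
    rw [abs_of_nonneg h1, abs_of_nonneg (h1.trans h2)]
    exact h2
  refine ⟨Curve.tp_wug_of_sobAlong hL2 h0 (fun π hπ hb => ?_), hle⟩
  have hrep : ∀ᵐ γ ∂π, ∀ n, tp_SobAlong f (Ds n) γ :=
    ae_all_iff.2 fun n => Curve.tp_sobAlong hf (h n) hπ hb
  filter_upwards [hrep, Need.tp_ae_ae_eval hπ hlim, Need.tp_ae_speed_lt_top hπ] with γ h1 h2 h3
  obtain ⟨g0, hg0⟩ := h1 0
  refine ⟨g0, OneD.tp1_rep_weight hg0 ?_⟩
  have h4 : ∀ᵐ t ∂(volume.restrict (Icc (0 : ℝ) 1)), ∀ n,
      ENNReal.ofReal |deriv g0 t| ≤ tp_wt (Ds n) γ t := by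
    rw [ae_all_iff]
    intro n
    obtain ⟨gn, hgn⟩ := h1 n
    have hIoo : ∀ᵐ t ∂(volume.restrict (Icc (0 : ℝ) 1)), t ∈ Ioo (0 : ℝ) 1 := by
      rw [← restrict_Ioo_eq_restrict_Icc]
      exact ae_restrict_mem measurableSet_Ioo
    filter_upwards [tp_Rep1.deriv_le hgn, hIoo] with t ht1 ht2
    rw [OneD.tp1_rep_deriv_eq hg0 hgn t ht2]
    exact ht1
  filter_upwards [h4, h2, h3] with t ht4 ht2 ht3
  have hT : Tendsto (fun n => tp_wt (Ds n) γ t) atTop (𝓝 (tp_wt (fun x => ⨅ n, Ds n x) γ t)) := by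
    unfold tp_wt
    exact ENNReal.Tendsto.mul_const (ENNReal.tendsto_ofReal ht2) (Or.inr ht3.ne)
  exact ge_of_tendsto' hT ht4

/-- **TP2** existence of the minimal weak upper gradient -/
theorem tp_exists_minimal (hfin : FiniteOnBoundedSets m) (hf : AEMeasurable f m)
    (h : IsLocalWeakUpperGradient m f D) : ∃ D₀, IsMinimalLocalWeakUpperGradient m f D₀ := by
  have := Basic.tp_sigmaFinite hfin
  obtain ⟨D₀, h0, hmin⟩ := tp_exists_ae_min m (fun D => IsLocalWeakUpperGradient m f D) ⟨D, h⟩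
    (fun D hD => Basic.tp_aemeasurable hD.1) (fun D₁ D₂ h₁ h₂ => tp_wug_min hf h₁ h₂)
    (fun Ds hDs hanti => ⟨_, (tp_wug_antitone_lim hf hDs hanti).1, (tp_wug_antitone_lim hf hDs hanti).2⟩)
  exact ⟨D₀, h0, hmin⟩

theorem tp_localSobolev_of_wug (hfin : FiniteOnBoundedSets m) (hf : LocallyL2 m f)
    (h : IsLocalWeakUpperGradient m f D) : LocalSobolev m f :=
  ⟨hf, tp_exists_minimal hfin (Basic.tp_aemeasurable hf) h⟩

theorem tp_sobolev_of_wug (hfin : FiniteOnBoundedSets m) (hf : MemLp f 2 m)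
    (h : IsLocalWeakUpperGradient m f D) (hD : MemLp D 2 m) : Sobolev m f := by
  refine ⟨hf, tp_localSobolev_of_wug hfin (Basic.tp_locallyL2_of_memLp hf) h, ?_⟩
  refine MemLp.mono hD (Basic.tp_aestronglyMeasurable (Basic.tp_weakGradient_locallyL2 m f)) ?_
  filter_upwards [Basic.tp_weakGradient_nonneg m f, Basic.tp_weakGradient_le h] with x a b
  rw [Real.norm_eq_abs, Real.norm_eq_abs, abs_of_nonneg a, abs_of_nonneg (a.trans b)]
  exact b

end Claimed.Agent.R210.TP.Min
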