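/-
Row 210 (S0432), layer TP, architect helper661.
TP3 at the level of weak upper gradients (wug): every rule is proved curvewise:
 `Curve.tp_sobAlong` (representatives along a.e. curve) + a rule of `OneD` + `Curve.tp_ae_curve` + `Curve.tp_wug_of_sobAlong`.
-/
import Claimed.Agent.R210.TP.Min

set_option autoImplicit false
set_option linter.unusedSectionVars false

open Claims.C0366 Claims.C0366.WeakHessian
open Claimed.Agent.R210.TP.Defs
open Set Filter MeasureTheory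
open scoped ENNReal NNReal Topology

namespace Claimed.Agent.R210.TP.Calc

variable {X : Type*} [MetricSpace X] [MeasurableSpace X] [BorelSpace X] [CompleteSpace X]
  [TopologicalSpace.SeparableSpace X] {m : Measure X} {f g D D' D₁ D₂ E : X → ℝ}

/-- the wug predicate only sees the increments of `f` -/
theorem tp_wug_iff_of_increments {f' : X → ℝ} (h : ∀ x y, |f' x - f' y| = |f x - f y|) :
    IsLocalWeakUpperGradient m f' D ↔ IsLocalWeakUpperGradient m f D := by
  unfold IsLocalWeakUpperGradient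
  simp only [h]

theorem tp_wug_const (m : Measure X) (c : ℝ) : IsLocalWeakUpperGradient m (fun _ => c) (fun _ => 0) := by
  refine ⟨Basic.tp_locallyL2_zero, Filter.Eventually.of_forall fun _ => le_rfl, fun π _ _ => ?_⟩
  simp

theorem tp_wug_const_mul (c : ℝ) (h : IsLocalWeakUpperGradient m f D) :
    IsLocalWeakUpperGradient m (fun x => c * f x) (fun x => |c| * D x) := by
  refine ⟨Basic.tp_locallyL2_const_mul |c| h.1, ?_, fun π hπ hb => ?_⟩
  · filter_upwards [h.2.1] with x hx using mul_nonneg (abs_nonneg c) hx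
  · have h1 : ∀ γ : Curve X, ENNReal.ofReal |c * f (γ timeOne) - c * f (γ timeZero)|
        = ENNReal.ofReal |c| * ENNReal.ofReal |f (γ timeOne) - f (γ timeZero)| := by
      intro γ
      rw [← mul_sub, abs_mul, ENNReal.ofReal_mul (abs_nonneg c)]
    have h2 : ∀ (γ : Curve X) (t : ℝ), ENNReal.ofReal (|c| * D (evalReal γ t)) * metricSpeed γ t
        = ENNReal.ofReal |c| * (ENNReal.ofReal (D (evalReal γ t)) * metricSpeed γ t) := by
      intro γ t
      rw [ENNReal.ofReal_mul (abs_nonneg c), mul_assoc]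
    simp only [h1, h2]
    rw [lintegral_const_mul' _ _ ENNReal.ofReal_ne_top]
    simp only [lintegral_const_mul' _ _ ENNReal.ofReal_ne_top]
    exact mul_le_mul_right (h.2.2 π hπ hb) _

theorem tp_wug_add (hf : AEMeasurable f m) (hg : AEMeasurable g m) (h₁ : IsLocalWeakUpperGradient m f D₁)
    (h₂ : IsLocalWeakUpperGradient m g D₂) :
    IsLocalWeakUpperGradient m (fun x => f x + g x) (fun x => D₁ x + D₂ x) := by
  refine Curve.tp_wug_of_sobAlong (Basic.tp_locallyL2_add h₁.1 h₂.1) ?_ (fun π hπ hb => ?_)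
  · filter_upwards [h₁.2.1, h₂.2.1] with x a b using add_nonneg a b
  filter_upwards [Curve.tp_sobAlong hf h₁ hπ hb, Curve.tp_sobAlong hg h₂ hπ hb,
    Curve.tp_ae_curve hπ h₁.2.1, Curve.tp_ae_curve hπ h₂.2.1] with γ r₁ r₂ s₁ s₂
  obtain ⟨g₁, r₁⟩ := r₁
  obtain ⟨g₂, r₂⟩ := r₂
  refine ⟨fun t => g₁ t + g₂ t, ?_⟩
  refine OneD.tp1_rep_congr (OneD.tp1_rep_add r₁ r₂) (Eventually.of_forall fun _ => rfl) rfl rfl ?_
  filter_upwards [s₁.1, s₂.1] with t a b
  unfold tp_wt
  rw [ENNReal.ofReal_add a b, add_mul]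

theorem tp_wug_mul (hf : AEMeasurable f m) (hg : AEMeasurable g m) (h₁ : IsLocalWeakUpperGradient m f D₁)
    (h₂ : IsLocalWeakUpperGradient m g D₂) (hL : LocallyL2 m (fun x => |f x| * D₂ x + |g x| * D₁ x)) :
    IsLocalWeakUpperGradient m (fun x => f x * g x) (fun x => |f x| * D₂ x + |g x| * D₁ x) := by
  refine Curve.tp_wug_of_sobAlong hL ?_ (fun π hπ hb => ?_)
  · filter_upwards [h₁.2.1, h₂.2.1] with x a b
    exact add_nonneg (mul_nonneg (abs_nonneg _) b) (mul_nonneg (abs_nonneg _) a)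
  filter_upwards [Curve.tp_sobAlong hf h₁ hπ hb, Curve.tp_sobAlong hg h₂ hπ hb,
    Curve.tp_ae_curve hπ h₁.2.1, Curve.tp_ae_curve hπ h₂.2.1] with γ r₁ r₂ s₁ s₂
  obtain ⟨g₁, r₁⟩ := r₁
  obtain ⟨g₂, r₂⟩ := r₂
  refine ⟨fun t => g₁ t * g₂ t, ?_⟩
  refine OneD.tp1_rep_congr (OneD.tp1_rep_mul r₁ r₂) (Eventually.of_forall fun _ => rfl) rfl rfl ?_
  filter_upwards [s₁.1, s₂.1] with t a b
  unfold tp_wt
  rw [ENNReal.ofReal_add (mul_nonneg (abs_nonneg _) b) (mul_nonneg (abs_nonneg _) a),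
    ENNReal.ofReal_mul (abs_nonneg _), ENNReal.ofReal_mul (abs_nonneg _), add_mul, mul_assoc,
    mul_assoc]

theorem tp_wug_comp_lipschitz (hf : AEMeasurable f m) (h : IsLocalWeakUpperGradient m f D) {φ : ℝ → ℝ}
    {L : ℝ≥0} (hφ : LipschitzWith L φ) :
    IsLocalWeakUpperGradient m (fun x => φ (f x)) (fun x => |deriv φ (f x)| * D x) := by
  have hdl : ∀ z, |deriv φ z| ≤ L := fun z => by
    have := norm_deriv_le_of_lipschitz (x₀ := z) hφ
    rwa [Real.norm_eq_abs] at this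
  have hmeas : AEStronglyMeasurable (fun x => |deriv φ (f x)| * D x) m := by
    have h1 : AEMeasurable (fun x => deriv φ (f x)) m := (measurable_deriv φ).comp_aemeasurable hf
    have h2 : AEMeasurable (fun x => |deriv φ (f x)|) m := h1.abs
    exact (h2.mul (Basic.tp_aemeasurable h.1)).aestronglyMeasurable
  refine Curve.tp_wug_of_sobAlong
    (Basic.tp_locallyL2_of_abs_le (g := fun x => (L : ℝ) * D x)
      (Basic.tp_locallyL2_const_mul (L : ℝ) h.1) hmeas ?_) ?_ (fun π hπ hb => ?_)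
  · refine Eventually.of_forall fun x => ?_
    rw [abs_mul, abs_mul, abs_abs]
    exact mul_le_mul_of_nonneg_right ((hdl _).trans (le_abs_self _)) (abs_nonneg _)
  · filter_upwards [h.2.1] with x a using mul_nonneg (abs_nonneg _) a
  filter_upwards [Curve.tp_sobAlong hf h hπ hb] with γ r
  obtain ⟨g₁, r⟩ := r
  refine ⟨fun t => φ (g₁ t), ?_⟩
  refine OneD.tp1_rep_congr (OneD.tp1_rep_comp_lipschitz hφ r) (Eventually.of_forall fun _ => rfl)
    rfl rfl (Eventually.of_forall fun t => ?_)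
  unfold tp_wt
  rw [ENNReal.ofReal_mul (abs_nonneg _), mul_assoc]

/-- a wug may be replaced by `0` on `f⁻¹(N)`, `N` Lebesgue null -/
theorem tp_wug_null (hf : AEMeasurable f m) (h : IsLocalWeakUpperGradient m f D) {N : Set ℝ}
    (hN : volume N = 0) (hE : LocallyL2 m E) (hE0 : ∀ᵐ x ∂m, 0 ≤ E x)
    (hle : ∀ᵐ x ∂m, f x ∉ N → D x ≤ E x) : IsLocalWeakUpperGradient m f E := by
  refine Curve.tp_wug_of_sobAlong hE hE0 (fun π hπ hb => ?_)
  filter_upwards [Curve.tp_sobAlong hf h hπ hb, Curve.tp_ae_curve hπ hle] with γ r s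
  obtain ⟨g₁, r⟩ := r
  refine ⟨g₁, OneD.tp1_rep_weight r ?_⟩
  filter_upwards [OneD.tp1_rep_null r hN, r.deriv_le, s.1] with t a b c
  by_cases hm : f (evalReal γ t) ∈ N
  · rw [a hm]; simp
  · refine b.trans ?_
    unfold tp_wt
    gcongr
    exact c hm

/-- on `{f = g}` a wug of `f` may be replaced by a wug of `g` -/
theorem tp_wug_locality (hf : AEMeasurable f m) (hg : AEMeasurable g m)
    (h₁ : IsLocalWeakUpperGradient m f D₁) (h₂ : IsLocalWeakUpperGradient m g D₂)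
    (hE : LocallyL2 m E) (hE0 : ∀ᵐ x ∂m, 0 ≤ E x)
    (hle : ∀ᵐ x ∂m, (f x = g x → D₂ x ≤ E x) ∧ (f x ≠ g x → D₁ x ≤ E x)) :
    IsLocalWeakUpperGradient m f E := by
  refine Curve.tp_wug_of_sobAlong hE hE0 (fun π hπ hb => ?_)
  filter_upwards [Curve.tp_sobAlong hf h₁ hπ hb, Curve.tp_sobAlong hg h₂ hπ hb,
    Curve.tp_ae_curve hπ hle] with γ r₁ r₂ s
  obtain ⟨g₁, r₁⟩ := r₁
  obtain ⟨g₂, r₂⟩ := r₂
  refine ⟨g₁, OneD.tp1_rep_weight r₁ ?_⟩
  filter_upwards [OneD.tp1_rep_locality r₁ r₂, r₁.deriv_le, r₂.deriv_le, s.1] with t a b₁ b₂ c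
  by_cases hm : f (evalReal γ t) = g (evalReal γ t)
  · rw [a hm]
    refine b₂.trans ?_
    unfold tp_wt
    gcongr
    exact c.1 hm
  · refine b₁.trans ?_
    unfold tp_wt
    gcongr
    exact c.2 hm

/-- reverse chain rule: where `φ'(f) ≠ 0` a wug `D'` of `φ ∘ f` gives the wug `D'/|φ'(f)|` of `f` -/
theorem tp_wug_inv_chain (hf : AEMeasurable f m) (h : IsLocalWeakUpperGradient m f D) {φ : ℝ → ℝ}
    {L : ℝ≥0} (hφ : LipschitzWith L φ) (h' : IsLocalWeakUpperGradient m (fun x => φ (f x)) D')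
    (hE : LocallyL2 m E) (hE0 : ∀ᵐ x ∂m, 0 ≤ E x)
    (hle : ∀ᵐ x ∂m, D x ≤ E x ∨ (deriv φ (f x) ≠ 0 ∧ D' x ≤ |deriv φ (f x)| * E x)) :
    IsLocalWeakUpperGradient m f E := by
  refine Curve.tp_wug_of_sobAlong hE hE0 (fun π hπ hb => ?_)
  have hφf : AEMeasurable (fun x => φ (f x)) m := hφ.continuous.measurable.comp_aemeasurable hf
  filter_upwards [Curve.tp_sobAlong hf h hπ hb, Curve.tp_sobAlong hφf h' hπ hb,
    Curve.tp_ae_curve hπ hle] with γ r r' s
  obtain ⟨g₁, r⟩ := r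
  obtain ⟨g₂, r'⟩ := r'
  refine ⟨g₁, OneD.tp1_rep_weight r ?_⟩
  filter_upwards [OneD.tp1_rep_inv_chain hφ r r', r.deriv_le, s.1] with t a b c
  rcases c with c | ⟨c0, c⟩
  · refine b.trans ?_
    unfold tp_wt
    gcongr
  · have hpos : 0 < |deriv φ (f (evalReal γ t))| := abs_pos.2 c0
    have h0 : ENNReal.ofReal |deriv φ (f (evalReal γ t))| ≠ 0 := by
      rw [Ne, ENNReal.ofReal_eq_zero, not_le]; exact hpos
    have h1 : ENNReal.ofReal |deriv φ (f (evalReal γ t))| * ENNReal.ofReal |deriv g₁ t| ≤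
        ENNReal.ofReal |deriv φ (f (evalReal γ t))| * tp_wt E γ t := by
      refine a.trans ?_
      unfold tp_wt
      rw [← mul_assoc, ← ENNReal.ofReal_mul (abs_nonneg _)]
      gcongr
    exact (ENNReal.mul_le_mul_iff_right h0 ENNReal.ofReal_ne_top).1 h1

end Claimed.Agent.R210.TP.Calc
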