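/-
Row 210 (S0432), layer TP, architect helper661.
TP3 at the level of `weakGradient` and `LocalSobolev` (`|Df| = weakGradient m f`).  Everything follows from `Calc` (rules for wugs),
`Min.tp_localSobolev_of_wug`, `Basic.tp_weakGradient_le` and `Basic.tp_weakGradient_wug`.
-/
import Claimed.Agent.R210.TP.Calc

set_option autoImplicit false
set_option linter.unusedSectionVars false

open Claims.C0366 Claims.C0366.WeakHessian
open Claimed.Agent.R210.TP.Defs
open Set Filter MeasureTheory
open scoped ENNReal NNReal Topology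

namespace Claimed.Agent.R210.TP.Grad

variable {X : Type*} [MetricSpace X] [MeasurableSpace X] [BorelSpace X] [CompleteSpace X]
  [TopologicalSpace.SeparableSpace X] {m : Measure X} {f g : X → ℝ}

/-! ### linear structure -/

/-- equality of FUNCTIONS -/
theorem tp_weakGradient_of_increments {f' : X → ℝ} (h : ∀ x y, |f' x - f' y| = |f x - f y|) :
    weakGradient m f' = weakGradient m f := by
  have hp : IsLocalWeakUpperGradient m f' = IsLocalWeakUpperGradient m f := by
    funext D
    exact propext (Calc.tp_wug_iff_of_increments h)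
  have hq : IsMinimalLocalWeakUpperGradient m f' = IsMinimalLocalWeakUpperGradient m f := by
    funext D
    unfold IsMinimalLocalWeakUpperGradient
    rw [hp]
  have key : ∀ P P' : (X → ℝ) → Prop, P = P' →
      (@dite _ (∃ L, P L) (Classical.propDecidable _) (fun h => Classical.choose h)
        (fun _ => (0 : X → ℝ))) =
      (@dite _ (∃ L, P' L) (Classical.propDecidable _) (fun h => Classical.choose h)
        (fun _ => (0 : X → ℝ))) := by
    intro P P' hPP
    subst hPP
    rfl
  exact key _ _ hq

/-- equality of FUNCTIONS, unconditional -/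
theorem tp_weakGradient_neg (m : Measure X) (f : X → ℝ) :
    weakGradient m (fun x => -f x) = weakGradient m f :=
  tp_weakGradient_of_increments fun x y => by rw [← abs_neg]; congr 1; ring

/-- equality of FUNCTIONS, unconditional -/
theorem tp_weakGradient_add_const (m : Measure X) (f : X → ℝ) (c : ℝ) :
    weakGradient m (fun x => f x + c) = weakGradient m f :=
  tp_weakGradient_of_increments fun x y => by congr 1; ring

/-- equality of FUNCTIONS, unconditional -/
theorem tp_weakGradient_sub_comm (m : Measure X) (f g : X → ℝ) :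
    weakGradient m (fun x => f x - g x) = weakGradient m (fun x => g x - f x) :=
  tp_weakGradient_of_increments fun x y => by rw [← abs_neg]; congr 1; ring

theorem tp_weakGradient_const (m : Measure X) (c : ℝ) : weakGradient m (fun _ : X => c) =ᵐ[m] 0 :=
  Basic.tp_weakGradient_eq_of_minimal (D := fun _ => 0) ⟨Calc.tp_wug_const m c, fun _ h' => h'.2.1⟩

theorem tp_localSobolev_const (hfin : FiniteOnBoundedSets m) (c : ℝ) : LocalSobolev m (fun _ : X => c) :=
  ⟨Basic.tp_locallyL2_of_locBdd hfin aestronglyMeasurable_const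
      (fun _ _ => ⟨|c|, Eventually.of_forall fun _ _ => le_rfl⟩),
    ⟨fun _ => 0, Calc.tp_wug_const m c, fun _ h' => h'.2.1⟩⟩

/-- a minimal wug of `f` gives a minimal wug of `c f`, `c ≠ 0` -/
theorem tp_minimal_const_mul {c : ℝ} (hc : c ≠ 0) {D₀ : X → ℝ} (h : IsMinimalLocalWeakUpperGradient m f D₀) :
    IsMinimalLocalWeakUpperGradient m (fun x => c * f x) (fun x => |c| * D₀ x) := by
  refine ⟨Calc.tp_wug_const_mul c h.1, fun E hE => ?_⟩
  have h1 := Calc.tp_wug_const_mul c⁻¹ hE
  have e : (fun x => c⁻¹ * (c * f x)) = f := by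
    funext x
    rw [inv_mul_cancel_left₀ hc]
  rw [e] at h1
  filter_upwards [h.2 _ h1] with x hx
  rw [abs_inv] at hx
  have hc' : 0 < |c| := abs_pos.2 hc
  calc |c| * D₀ x ≤ |c| * (|c|⁻¹ * E x) := mul_le_mul_of_nonneg_left hx hc'.le
    _ = E x := by rw [mul_inv_cancel_left₀ hc'.ne']

/-- unconditional -/
theorem tp_weakGradient_const_mul (m : Measure X) (c : ℝ) (f : X → ℝ) :
    weakGradient m (fun x => c * f x) =ᵐ[m] fun x => |c| * weakGradient m f x := by
  rcases eq_or_ne c 0 with rfl | hc
  · simp only [zero_mul, abs_zero]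
    exact tp_weakGradient_const m 0
  · by_cases h : ∃ D, IsMinimalLocalWeakUpperGradient m f D
    · obtain ⟨D₀, hD₀⟩ := h
      filter_upwards [Basic.tp_weakGradient_eq_of_minimal (tp_minimal_const_mul hc hD₀),
        Basic.tp_weakGradient_eq_of_minimal hD₀] with x h1 h2
      rw [h1, h2]
    · have h' : ¬ ∃ D, IsMinimalLocalWeakUpperGradient m (fun x => c * f x) D := by
        rintro ⟨D, hD⟩
        apply h
        have h1 := tp_minimal_const_mul (inv_ne_zero hc) hD
        have e : (fun x => c⁻¹ * (c * f x)) = f := by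
          funext x
          rw [inv_mul_cancel_left₀ hc]
        rw [e] at h1
        exact ⟨_, h1⟩
      have e1 : weakGradient m f = 0 := by
        unfold weakGradient
        rw [dif_neg h]
      have e2 : weakGradient m (fun x => c * f x) = 0 := by
        unfold weakGradient
        rw [dif_neg h']
      rw [e1, e2]
      exact Eventually.of_forall fun x => by simp

theorem tp_localSobolev_const_mul (hfin : FiniteOnBoundedSets m) (c : ℝ) (hf : LocalSobolev m f) :
    LocalSobolev m (fun x => c * f x) :=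
  Min.tp_localSobolev_of_wug hfin (Basic.tp_locallyL2_const_mul c hf.1)
    (Calc.tp_wug_const_mul c (Basic.tp_weakGradient_wug hf))

theorem tp_localSobolev_neg (hfin : FiniteOnBoundedSets m) (hf : LocalSobolev m f) :
    LocalSobolev m (fun x => -f x) := by
  simpa using tp_localSobolev_const_mul hfin (-1) hf

theorem tp_localSobolev_add (hfin : FiniteOnBoundedSets m) (hf : LocalSobolev m f) (hg : LocalSobolev m g) :
    LocalSobolev m (fun x => f x + g x) :=
  Min.tp_localSobolev_of_wug hfin (Basic.tp_locallyL2_add hf.1 hg.1)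
    (Calc.tp_wug_add (Basic.tp_aemeasurable hf.1) (Basic.tp_aemeasurable hg.1)
      (Basic.tp_weakGradient_wug hf) (Basic.tp_weakGradient_wug hg))

theorem tp_weakGradient_add_le (hf : LocalSobolev m f) (hg : LocalSobolev m g) :
    ∀ᵐ x ∂m, weakGradient m (fun x => f x + g x) x ≤ weakGradient m f x + weakGradient m g x :=
  Basic.tp_weakGradient_le
    (Calc.tp_wug_add (Basic.tp_aemeasurable hf.1) (Basic.tp_aemeasurable hg.1)
      (Basic.tp_weakGradient_wug hf) (Basic.tp_weakGradient_wug hg))

theorem tp_localSobolev_sub (hfin : FiniteOnBoundedSets m) (hf : LocalSobolev m f) (hg : LocalSobolev m g) :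
    LocalSobolev m (fun x => f x - g x) := by
  simpa [sub_eq_add_neg] using tp_localSobolev_add hfin hf (tp_localSobolev_neg hfin hg)

theorem tp_weakGradient_sub_le (hfin : FiniteOnBoundedSets m) (hf : LocalSobolev m f)
    (hg : LocalSobolev m g) :
    ∀ᵐ x ∂m, weakGradient m (fun x => f x - g x) x ≤ weakGradient m f x + weakGradient m g x := by
  have h := tp_weakGradient_add_le hf (tp_localSobolev_neg hfin hg)
  rw [tp_weakGradient_neg] at h
  simpa [sub_eq_add_neg] using h

theorem tp_localSobolev_add_const (hfin : FiniteOnBoundedSets m) (hf : LocalSobolev m f) (c : ℝ) :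
    LocalSobolev m (fun x => f x + c) := tp_localSobolev_add hfin hf (tp_localSobolev_const hfin c)

/-- `| |Df| - |Dg| | ≤ |D(f-g)|` -/
theorem tp_abs_weakGradient_sub_le (hfin : FiniteOnBoundedSets m) (hf : LocalSobolev m f)
    (hg : LocalSobolev m g) :
    ∀ᵐ x ∂m, |weakGradient m f x - weakGradient m g x| ≤ weakGradient m (fun x => f x - g x) x := by
  have h1 := tp_weakGradient_add_le (tp_localSobolev_sub hfin hf hg) hg
  have h2 := tp_weakGradient_add_le (tp_localSobolev_sub hfin hg hf) hf
  have e1 : (fun x => f x - g x + g x) = f := by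
    funext x
    exact sub_add_cancel _ _
  have e2 : (fun x => g x - f x + f x) = g := by
    funext x
    exact sub_add_cancel _ _
  rw [e1] at h1
  rw [e2, ← tp_weakGradient_sub_comm m f g] at h2
  filter_upwards [h1, h2] with x h1 h2
  rw [abs_le]
  constructor <;> linarith

/-! ### locality -/

/-- one half of the locality -/
theorem tp_weakGradient_locality_le (hf : LocalSobolev m f) (hg : LocalSobolev m g) :
    ∀ᵐ x ∂m, f x = g x → weakGradient m f x ≤ weakGradient m g x := by
  have hfm : AEMeasurable f m := Basic.tp_aemeasurable hf.1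
  have hgm : AEMeasurable g m := Basic.tp_aemeasurable hg.1
  have hA : MeasurableSet {x | hfm.mk f x = hgm.mk g x} :=
    measurableSet_eq_fun hfm.measurable_mk hgm.measurable_mk
  have hff : f =ᵐ[m] hfm.mk f := hfm.ae_eq_mk
  have hgg : g =ᵐ[m] hgm.mk g := hgm.ae_eq_mk
  generalize hfm.mk f = f₀ at hA hff
  generalize hgm.mk g = g₀ at hA hgg
  generalize hAdef : {x | f₀ x = g₀ x} = A at hA
  have hmem : ∀ x, x ∈ A ↔ f₀ x = g₀ x := fun x => by rw [← hAdef]; rfl
  have hE : LocallyL2 m (fun x => A.indicator (weakGradient m g) x + Aᶜ.indicator (weakGradient m f) x) :=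
    fun o R hR => ((Basic.tp_weakGradient_locallyL2 m g o R hR).indicator hA).add
      ((Basic.tp_weakGradient_locallyL2 m f o R hR).indicator hA.compl)
  have hE0 : ∀ᵐ x ∂m, 0 ≤ A.indicator (weakGradient m g) x + Aᶜ.indicator (weakGradient m f) x := by
    filter_upwards [Basic.tp_weakGradient_nonneg m f, Basic.tp_weakGradient_nonneg m g] with x h1 h2
    by_cases hx : x ∈ A
    · rw [Set.indicator_of_mem hx, Set.indicator_of_notMem (show x ∉ Aᶜ from fun h => h hx)]
      linarith
    · rw [Set.indicator_of_notMem hx, Set.indicator_of_mem (show x ∈ Aᶜ from hx)]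
      linarith
  have hle : ∀ᵐ x ∂m,
      (f x = g x → weakGradient m g x ≤
        A.indicator (weakGradient m g) x + Aᶜ.indicator (weakGradient m f) x) ∧
      (f x ≠ g x → weakGradient m f x ≤
        A.indicator (weakGradient m g) x + Aᶜ.indicator (weakGradient m f) x) := by
    filter_upwards [hff, hgg] with x h1 h2
    constructor
    · intro h
      have hx : x ∈ A := (hmem x).2 (by rw [← h1, ← h2]; exact h)
      rw [Set.indicator_of_mem hx, Set.indicator_of_notMem (show x ∉ Aᶜ from fun h => h hx)]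
      linarith
    · intro h
      have hx : x ∉ A := fun hx => h (by rw [h1, h2]; exact (hmem x).1 hx)
      rw [Set.indicator_of_notMem hx, Set.indicator_of_mem (show x ∈ Aᶜ from hx)]
      linarith
  have hw := Calc.tp_wug_locality hfm hgm (Basic.tp_weakGradient_wug hf) (Basic.tp_weakGradient_wug hg)
    hE hE0 hle
  filter_upwards [Basic.tp_weakGradient_le hw, hff, hgg] with x h1 h2 h3 h
  have hx : x ∈ A := (hmem x).2 (by rw [← h2, ← h3]; exact h)
  rw [Set.indicator_of_mem hx, Set.indicator_of_notMem (show x ∉ Aᶜ from fun h => h hx)] at h1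
  linarith

theorem tp_weakGradient_locality (hf : LocalSobolev m f) (hg : LocalSobolev m g) :
    ∀ᵐ x ∂m, f x = g x → weakGradient m f x = weakGradient m g x := by
  filter_upwards [tp_weakGradient_locality_le hf hg, tp_weakGradient_locality_le hg hf] with x h1 h2 h
  exact le_antisymm (h1 h) (h2 h.symm)

theorem tp_weakGradient_null (hf : LocalSobolev m f) {N : Set ℝ} (hN : volume N = 0) :
    ∀ᵐ x ∂m, f x ∈ N → weakGradient m f x = 0 := by
  have hfm : AEMeasurable f m := Basic.tp_aemeasurable hf.1
  have hN'0 : volume (toMeasurable volume N) = 0 := by rw [measure_toMeasurable]; exact hN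
  have hN'm : MeasurableSet (toMeasurable volume N) := measurableSet_toMeasurable _ _
  have hsub : N ⊆ toMeasurable volume N := subset_toMeasurable _ _
  generalize toMeasurable volume N = N' at hN'0 hN'm hsub
  have hf₀ : Measurable (hfm.mk f) := hfm.measurable_mk
  have hff : f =ᵐ[m] hfm.mk f := hfm.ae_eq_mk
  generalize hfm.mk f = f₀ at hf₀ hff
  have hA : MeasurableSet (f₀ ⁻¹' N') := hf₀ hN'm
  have hE : LocallyL2 m ((f₀ ⁻¹' N')ᶜ.indicator (weakGradient m f)) :=
    fun o R hR => (Basic.tp_weakGradient_locallyL2 m f o R hR).indicator hA.compl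
  have hE0 : ∀ᵐ x ∂m, 0 ≤ (f₀ ⁻¹' N')ᶜ.indicator (weakGradient m f) x := by
    filter_upwards [Basic.tp_weakGradient_nonneg m f] with x hx
    exact Set.indicator_apply_nonneg (fun _ => hx)
  have hle : ∀ᵐ x ∂m, f x ∉ N' → weakGradient m f x ≤ (f₀ ⁻¹' N')ᶜ.indicator (weakGradient m f) x := by
    filter_upwards [hff] with x hx hxN
    have hxA : x ∈ (f₀ ⁻¹' N')ᶜ := by
      intro h
      apply hxN
      rw [hx]
      exact h
    rw [Set.indicator_of_mem hxA]
  have hw := Calc.tp_wug_null hfm (Basic.tp_weakGradient_wug hf) hN'0 hE hE0 hle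
  filter_upwards [Basic.tp_weakGradient_le hw, Basic.tp_weakGradient_nonneg m f, hff] with x h1 h2 h3 hxN
  have hxA : x ∉ (f₀ ⁻¹' N')ᶜ := by
    intro h
    apply h
    show f₀ x ∈ N'
    rw [← h3]
    exact hsub hxN
  rw [Set.indicator_of_notMem hxA] at h1
  exact le_antisymm h1 h2

/-- local-to-global: a function which coincides a.e. on every ball with a `LocalSobolev` function is `LocalSobolev` -/
theorem tp_localSobolev_of_local (hfin : FiniteOnBoundedSets m)
    (h : ∀ o : X, ∀ R : ℝ, ∃ f₁ : X → ℝ, LocalSobolev m f₁ ∧ ∀ᵐ x ∂m, x ∈ Metric.ball o R → f x = f₁ x) :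
    LocalSobolev m f := by
  rcases isEmpty_or_nonempty X with hX | ⟨⟨o⟩⟩
  · exact Min.tp_localSobolev_of_wug hfin (fun o => (hX.false o).elim)
      (Curve.tp_wug_of_local (D := fun _ => 0) Basic.tp_locallyL2_zero
        (Eventually.of_forall fun _ => le_rfl) (fun o => (hX.false o).elim))
  choose F hF hFeq using fun n : ℕ => h o ((n : ℝ) + 1)
  set k : X → ℕ := fun x => ⌊dist x o⌋₊ with hk
  set D : X → ℝ := fun x => weakGradient m (F (k x)) x with hD
  -- the key a.e. identity
  have hloc : ∀ᵐ x ∂m, ∀ n N : ℕ, F n x = F N x → weakGradient m (F n) x = weakGradient m (F N) x :=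
    ae_all_iff.2 fun n => ae_all_iff.2 fun N => tp_weakGradient_locality (hF n) (hF N)
  have hfe : ∀ᵐ x ∂m, ∀ n : ℕ, x ∈ Metric.ball o ((n : ℝ) + 1) → f x = F n x := ae_all_iff.2 hFeq
  have hkmem : ∀ x, x ∈ Metric.ball o ((k x : ℝ) + 1) := fun x =>
    Metric.mem_ball.2 (Nat.lt_floor_add_one _)
  have key : ∀ᵐ x ∂m, ∀ N : ℕ, x ∈ Metric.ball o ((N : ℝ) + 1) → D x = weakGradient m (F N) x := by
    filter_upwards [hloc, hfe] with x h1 h2 N hx
    exact h1 (k x) N ((h2 (k x) (hkmem x)).symm.trans (h2 N hx))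
  -- every ball is contained in a ball around `o`
  have hsub : ∀ (o' : X) (R : ℝ), ∃ N : ℕ, Metric.ball o' R ⊆ Metric.ball o ((N : ℝ) + 1) := by
    intro o' R
    obtain ⟨N, hN⟩ := exists_nat_gt (dist o' o + R)
    refine ⟨N, fun x hx => ?_⟩
    rw [Metric.mem_ball] at hx ⊢
    have := dist_triangle x o' o
    linarith
  have hDL : LocallyL2 m D := by
    intro o' R hR
    obtain ⟨N, hN⟩ := hsub o' R
    refine (Basic.tp_weakGradient_locallyL2 m (F N) o' R hR).ae_eq ?_
    refine (ae_restrict_iff' measurableSet_ball).2 ?_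
    filter_upwards [key] with x hx hxm
    exact (hx N (hN hxm)).symm
  have hD0 : ∀ᵐ x ∂m, 0 ≤ D x := by
    have : ∀ᵐ x ∂m, ∀ n : ℕ, 0 ≤ weakGradient m (F n) x :=
      ae_all_iff.2 fun n => Basic.tp_weakGradient_nonneg m (F n)
    filter_upwards [this] with x hx using hx (k x)
  have hfL : LocallyL2 m f := by
    intro o' R hR
    obtain ⟨N, hN⟩ := hsub o' R
    refine ((hF N).1 o' R hR).ae_eq ?_
    refine (ae_restrict_iff' measurableSet_ball).2 ?_
    filter_upwards [hfe] with x hx hxm
    exact (hx N (hN hxm)).symm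
  refine Min.tp_localSobolev_of_wug hfin hfL (Curve.tp_wug_of_local hDL hD0 fun o' R => ?_)
  obtain ⟨N, hN⟩ := hsub o' R
  refine ⟨F N, weakGradient m (F N), Basic.tp_weakGradient_wug (hF N), ?_, ?_⟩
  · filter_upwards [hfe] with x hx hxm using hx N (hN hxm)
  · filter_upwards [key] with x hx hxm using (hx N (hN hxm)).ge

/-! ### chain rule -/

theorem tp_localSobolev_comp_lipschitz (hfin : FiniteOnBoundedSets m) (hf : LocalSobolev m f) {φ : ℝ → ℝ}
    {L : ℝ≥0} (hφ : LipschitzWith L φ) : LocalSobolev m (fun x => φ (f x)) := by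
  refine Min.tp_localSobolev_of_wug hfin ?_
    (Calc.tp_wug_comp_lipschitz (Basic.tp_aemeasurable hf.1) (Basic.tp_weakGradient_wug hf) hφ)
  have habs : LocallyL2 m (fun x => |f x|) := fun o R hR => (hf.1 o R hR).norm
  have hg : LocallyL2 m (fun x => |φ 0| + (L : ℝ) * |f x|) :=
    Basic.tp_locallyL2_add (tp_localSobolev_const hfin |φ 0|).1 (Basic.tp_locallyL2_const_mul L habs)
  refine Basic.tp_locallyL2_of_abs_le hg
    (hφ.continuous.comp_aestronglyMeasurable (Basic.tp_aestronglyMeasurable hf.1)) ?_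
  refine Eventually.of_forall fun x => ?_
  have h1 : |φ (f x) - φ 0| ≤ L * |f x| := by
    have := hφ.dist_le_mul (f x) 0
    simpa [Real.dist_eq] using this
  have h2 : |φ (f x)| ≤ |φ 0| + |φ (f x) - φ 0| := by
    have := abs_add_le (φ 0) (φ (f x) - φ 0)
    simpa using this
  have h3 : 0 ≤ |φ 0| + (L : ℝ) * |f x| := by positivity
  rw [abs_of_nonneg h3]
  linarith

/-- chain rule, `φ` Lipschitz; `deriv φ z = 0` by convention where `φ` is not differentiable -/
theorem tp_weakGradient_comp_lipschitz (hfin : FiniteOnBoundedSets m) (hf : LocalSobolev m f) {φ : ℝ → ℝ}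
    {L : ℝ≥0} (hφ : LipschitzWith L φ) :
    weakGradient m (fun x => φ (f x)) =ᵐ[m] fun x => |deriv φ (f x)| * weakGradient m f x := by
  have hfm : AEMeasurable f m := Basic.tp_aemeasurable hf.1
  have hwf := Basic.tp_weakGradient_wug hf
  have hφf := tp_localSobolev_comp_lipschitz hfin hf hφ
  have hwφ := Basic.tp_weakGradient_wug hφf
  have hle : ∀ᵐ x ∂m, weakGradient m (fun x => φ (f x)) x ≤ |deriv φ (f x)| * weakGradient m f x :=
    Basic.tp_weakGradient_le (Calc.tp_wug_comp_lipschitz hfm hwf hφ)
  have hG0 := Basic.tp_weakGradient_nonneg m (fun x => φ (f x))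
  have hD0 := Basic.tp_weakGradient_nonneg m f
  have hGL := Basic.tp_weakGradient_locallyL2 m (fun x => φ (f x))
  have hDL := Basic.tp_weakGradient_locallyL2 m f
  set G := weakGradient m (fun x => φ (f x)) with hG
  set Df := weakGradient m f with hDf
  have ham : AEMeasurable (fun x => |deriv φ (f x)|) m :=
    (continuous_abs.measurable.comp (measurable_deriv φ)).comp_aemeasurable hfm
  set a : X → ℝ := fun x => |deriv φ (f x)| with ha
  have haa : a =ᵐ[m] ham.mk a := ham.ae_eq_mk
  have key : ∀ k : ℕ, ∀ᵐ x ∂m, 1 / ((k : ℝ) + 1) ≤ ham.mk a x → a x * Df x ≤ G x := by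
    intro k
    have hk0 : (0 : ℝ) < 1 / ((k : ℝ) + 1) := by positivity
    set A : Set X := {x | 1 / ((k : ℝ) + 1) ≤ ham.mk a x} with hA
    have hAm : MeasurableSet A := measurableSet_le measurable_const ham.measurable_mk
    set E : X → ℝ := fun x => A.indicator (fun x => G x / a x) x + Aᶜ.indicator Df x with hE
    have hEm : AEStronglyMeasurable E m := by
      refine AEStronglyMeasurable.add ?_ ?_
      · exact (((Basic.tp_aemeasurable hGL).div ham).aestronglyMeasurable).indicator hAm
      · exact (Basic.tp_aestronglyMeasurable hDL).indicator hAm.compl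
    have hdom : LocallyL2 m (fun x => ((k : ℝ) + 1) * G x + Df x) :=
      Basic.tp_locallyL2_add (Basic.tp_locallyL2_const_mul _ hGL) hDL
    have hE0 : ∀ᵐ x ∂m, 0 ≤ E x := by
      filter_upwards [hG0, hD0] with x h1 h2
      by_cases hx : x ∈ A
      · simp only [hE, indicator_of_mem hx, indicator_of_notMem (notMem_compl_iff.mpr hx), add_zero]
        exact div_nonneg h1 (abs_nonneg _)
      · simp only [hE, indicator_of_notMem hx, indicator_of_mem (mem_compl hx), zero_add]
        exact h2
    have hEL : LocallyL2 m E := by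
      refine Basic.tp_locallyL2_of_abs_le hdom hEm ?_
      filter_upwards [hG0, hD0, haa, hE0] with x h1 h2 h3 h4
      have h5 : 0 ≤ ((k : ℝ) + 1) * G x := by positivity
      rw [abs_of_nonneg h4, abs_of_nonneg (by linarith)]
      by_cases hx : x ∈ A
      · simp only [hE, indicator_of_mem hx, indicator_of_notMem (notMem_compl_iff.mpr hx), add_zero]
        have hx' : 1 / ((k : ℝ) + 1) ≤ a x := by rw [h3]; exact hx
        have hax : 0 < a x := lt_of_lt_of_le hk0 hx'
        have : G x / a x ≤ ((k : ℝ) + 1) * G x := by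
          rw [div_le_iff₀ hax]
          have h6 : 1 ≤ ((k : ℝ) + 1) * a x := by
            have := mul_le_mul_of_nonneg_left hx' (by positivity : (0 : ℝ) ≤ (k : ℝ) + 1)
            rwa [mul_one_div_cancel (by positivity)] at this
          nlinarith
        linarith
      · simp only [hE, indicator_of_notMem hx, indicator_of_mem (mem_compl hx), zero_add]
        linarith
    have hw : IsLocalWeakUpperGradient m f E := by
      refine Calc.tp_wug_inv_chain hfm hwf hφ hwφ hEL hE0 ?_
      filter_upwards [haa] with x h3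
      by_cases hx : x ∈ A
      · right
        have hx' : 1 / ((k : ℝ) + 1) ≤ a x := by rw [h3]; exact hx
        have hax : 0 < a x := lt_of_lt_of_le hk0 hx'
        refine ⟨fun h0 => ?_, ?_⟩
        · simp only [ha, h0, abs_zero] at hax
          exact lt_irrefl _ hax
        · simp only [hE, indicator_of_mem hx, indicator_of_notMem (notMem_compl_iff.mpr hx), add_zero]
          change G x ≤ a x * (G x / a x)
          rw [mul_div_cancel₀ _ hax.ne']
      · left
        simp only [hE, indicator_of_notMem hx, indicator_of_mem (mem_compl hx), zero_add]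
        exact le_rfl
    filter_upwards [Basic.tp_weakGradient_le hw, haa] with x h1 h3 hx
    have hx' : 1 / ((k : ℝ) + 1) ≤ a x := by rw [h3]; exact hx
    have hax : 0 < a x := lt_of_lt_of_le hk0 hx'
    have hxA : x ∈ A := hx
    simp only [hE, indicator_of_mem hxA, indicator_of_notMem (notMem_compl_iff.mpr hxA), add_zero] at h1
    rw [le_div_iff₀ hax] at h1
    linarith
  filter_upwards [ae_all_iff.mpr key, hle, hG0, hD0, haa] with x h1 h2 h3 h4 h5
  refine le_antisymm h2 ?_
  change a x * Df x ≤ G x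
  rcases (abs_nonneg (deriv φ (f x))).eq_or_lt with h0 | h0
  · have : a x = 0 := h0.symm
    rw [this, zero_mul]; exact h3
  · obtain ⟨k, hk⟩ := exists_nat_one_div_lt h0
    exact h1 k (by rw [← h5]; exact hk.le)

/-- a function which is Lipschitz on `[a,b]` has a globally Lipschitz extension with the same chain rule on `f⁻¹[a,b]` -/
theorem tp_chain_local_aux (hf : LocalSobolev m f) {φ : ℝ → ℝ} {a b : ℝ} {L : ℝ≥0}
    (hL : LipschitzOnWith L φ (Icc a b)) :
    ∃ ψ : ℝ → ℝ, LipschitzWith L ψ ∧ (∀ z ∈ Icc a b, φ z = ψ z) ∧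
      ∀ᵐ x ∂m, f x ∈ Icc a b →
        |deriv ψ (f x)| * weakGradient m f x = |deriv φ (f x)| * weakGradient m f x := by
  obtain ⟨ψ, hψ, hEq⟩ := hL.extend_real
  refine ⟨ψ, hψ, hEq, ?_⟩
  have hN : volume ({a, b} : Set ℝ) = 0 := (Set.toFinite _).measure_zero _
  filter_upwards [tp_weakGradient_null hf hN] with x hx hxm
  by_cases hab : f x ∈ ({a, b} : Set ℝ)
  · rw [hx hab, mul_zero, mul_zero]
  · have hne : f x ≠ a ∧ f x ≠ b := by
      simpa [not_or] using hab
    have hIoo : f x ∈ Ioo a b := ⟨lt_of_le_of_ne hxm.1 (Ne.symm hne.1), lt_of_le_of_ne hxm.2 hne.2⟩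
    have he : φ =ᶠ[𝓝 (f x)] ψ := by
      filter_upwards [Ioo_mem_nhds hIoo.1 hIoo.2] with z hz using hEq (Ioo_subset_Icc_self hz)
    rw [he.deriv_eq]

/-- chain rule, local form: on every ball `f` takes a.e. its values in a compact interval on which `φ` is Lipschitz
(e.g. `φ ∈ C¹` and `f` locally bounded; `φ = log, sqrt` and `f` locally bounded and locally bounded away from `0`). -/
theorem tp_chain_local (hfin : FiniteOnBoundedSets m) (hf : LocalSobolev m f) {φ : ℝ → ℝ}
    (hφ : ∀ o : X, ∀ R : ℝ, ∃ a b : ℝ, ∃ L : ℝ≥0,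
      (∀ᵐ x ∂m, x ∈ Metric.ball o R → f x ∈ Icc a b) ∧ LipschitzOnWith L φ (Icc a b)) :
    LocalSobolev m (fun x => φ (f x)) ∧
      weakGradient m (fun x => φ (f x)) =ᵐ[m] fun x => |deriv φ (f x)| * weakGradient m f x := by
  have hex : ∀ o : X, ∀ R : ℝ, ∃ ψ : ℝ → ℝ, ∃ L : ℝ≥0, LipschitzWith L ψ ∧
      (∀ᵐ x ∂m, x ∈ Metric.ball o R → φ (f x) = ψ (f x)) ∧
      ∀ᵐ x ∂m, x ∈ Metric.ball o R →
        |deriv ψ (f x)| * weakGradient m f x = |deriv φ (f x)| * weakGradient m f x := by
    intro o R
    obtain ⟨a, b, L, hab, hL⟩ := hφ o R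
    obtain ⟨ψ, hψ, hEq, hd⟩ := tp_chain_local_aux hf hL
    refine ⟨ψ, L, hψ, ?_, ?_⟩
    · filter_upwards [hab] with x hx hxm using hEq _ (hx hxm)
    · filter_upwards [hab, hd] with x hx hx' hxm using hx' (hx hxm)
  have hLS : LocalSobolev m (fun x => φ (f x)) := by
    refine tp_localSobolev_of_local hfin fun o R => ?_
    obtain ⟨ψ, L, hψ, h1, -⟩ := hex o R
    exact ⟨fun x => ψ (f x), tp_localSobolev_comp_lipschitz hfin hf hψ, h1⟩
  refine ⟨hLS, Basic.tp_ae_of_ae_ball fun o R => ?_⟩
  obtain ⟨ψ, L, hψ, h1, h2⟩ := hex o R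
  filter_upwards [h1, h2, tp_weakGradient_locality hLS (tp_localSobolev_comp_lipschitz hfin hf hψ),
    tp_weakGradient_comp_lipschitz hfin hf hψ] with x e1 e2 e3 e4 hxm
  rw [e3 (e1 hxm), e4, e2 hxm]

/-- chain rule for `C¹` functions of locally bounded functions -/
theorem tp_chain_contDiff (hfin : FiniteOnBoundedSets m) (hf : LocalSobolev m f) (hb : tp_LocBdd m f)
    {φ : ℝ → ℝ} (hφ : ContDiff ℝ 1 φ) :
    LocalSobolev m (fun x => φ (f x)) ∧
      weakGradient m (fun x => φ (f x)) =ᵐ[m] fun x => |deriv φ (f x)| * weakGradient m f x := by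
  refine tp_chain_local hfin hf fun o R => ?_
  obtain ⟨B, hB⟩ := hb o R
  obtain ⟨C, hC⟩ := (isCompact_Icc (a := -B) (b := B)).exists_bound_of_continuousOn
    (hφ.continuous_deriv le_rfl).continuousOn
  refine ⟨-B, B, Real.toNNReal C, ?_, ?_⟩
  · filter_upwards [hB] with x hx hxm using abs_le.1 (hx hxm)
  · refine Convex.lipschitzOnWith_of_nnnorm_deriv_le
      (fun z _ => (hφ.differentiable one_ne_zero).differentiableAt) (fun z hz => ?_) (convex_Icc _ _)
    rw [← NNReal.coe_le_coe, coe_nnnorm]
    exact (hC z hz).trans (Real.le_coe_toNNReal C)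

/-! ### Leibniz rule -/

theorem tp_weakGradient_mul_le (hf : LocalSobolev m f) (hg : LocalSobolev m g)
    (hL : LocallyL2 m (fun x => |f x| * weakGradient m g x + |g x| * weakGradient m f x)) :
    ∀ᵐ x ∂m, weakGradient m (fun x => f x * g x) x ≤
      |f x| * weakGradient m g x + |g x| * weakGradient m f x :=
  Basic.tp_weakGradient_le
    (Calc.tp_wug_mul (Basic.tp_aemeasurable hf.1) (Basic.tp_aemeasurable hg.1)
      (Basic.tp_weakGradient_wug hf) (Basic.tp_weakGradient_wug hg) hL)

theorem tp_localSobolev_mul (hfin : FiniteOnBoundedSets m) (hf : LocalSobolev m f) (hg : LocalSobolev m g)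
    (hfg : LocallyL2 m (fun x => f x * g x))
    (hL : LocallyL2 m (fun x => |f x| * weakGradient m g x + |g x| * weakGradient m f x)) :
    LocalSobolev m (fun x => f x * g x) :=
  Min.tp_localSobolev_of_wug hfin hfg
    (Calc.tp_wug_mul (Basic.tp_aemeasurable hf.1) (Basic.tp_aemeasurable hg.1)
      (Basic.tp_weakGradient_wug hf) (Basic.tp_weakGradient_wug hg) hL)

/-- the integrability hypotheses of the Leibniz rule hold for locally bounded functions -/
theorem tp_leibniz_locallyL2 (hf : LocalSobolev m f) (hg : LocalSobolev m g) (hbf : tp_LocBdd m f)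
    (hbg : tp_LocBdd m g) :
    LocallyL2 m (fun x => f x * g x) ∧
      LocallyL2 m (fun x => |f x| * weakGradient m g x + |g x| * weakGradient m f x) := by
  have hfm := Basic.tp_aestronglyMeasurable hf.1
  have hgm := Basic.tp_aestronglyMeasurable hg.1
  have hbf' : tp_LocBdd m (fun x => |f x|) := fun o R => by
    obtain ⟨B, hB⟩ := hbf o R
    exact ⟨B, by simpa only [abs_abs] using hB⟩
  have hbg' : tp_LocBdd m (fun x => |g x|) := fun o R => by
    obtain ⟨B, hB⟩ := hbg o R
    exact ⟨B, by simpa only [abs_abs] using hB⟩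
  have hfm' : AEStronglyMeasurable (fun x => |f x|) m := hfm.norm
  have hgm' : AEStronglyMeasurable (fun x => |g x|) m := hgm.norm
  exact ⟨Basic.tp_locallyL2_mul_of_locBdd hfm hbf hg.1,
    Basic.tp_locallyL2_add
      (Basic.tp_locallyL2_mul_of_locBdd hfm' hbf' (Basic.tp_weakGradient_locallyL2 m g))
      (Basic.tp_locallyL2_mul_of_locBdd hgm' hbg' (Basic.tp_weakGradient_locallyL2 m f))⟩

theorem tp_localSobolev_mul_of_locBdd (hfin : FiniteOnBoundedSets m) (hf : LocalSobolev m f)
    (hg : LocalSobolev m g) (hbf : tp_LocBdd m f) (hbg : tp_LocBdd m g) :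
    LocalSobolev m (fun x => f x * g x) :=
  tp_localSobolev_mul hfin hf hg (tp_leibniz_locallyL2 hf hg hbf hbg).1 (tp_leibniz_locallyL2 hf hg hbf hbg).2

theorem tp_weakGradient_mul_le_of_locBdd (hf : LocalSobolev m f) (hg : LocalSobolev m g)
    (hbf : tp_LocBdd m f) (hbg : tp_LocBdd m g) :
    ∀ᵐ x ∂m, weakGradient m (fun x => f x * g x) x ≤
      |f x| * weakGradient m g x + |g x| * weakGradient m f x :=
  tp_weakGradient_mul_le hf hg (tp_leibniz_locallyL2 hf hg hbf hbg).2

/-! ### lattice operations -/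

theorem tp_localSobolev_posPart (hfin : FiniteOnBoundedSets m) (hf : LocalSobolev m f) :
    LocalSobolev m (fun x => max (f x) 0) := by
  exact tp_localSobolev_comp_lipschitz hfin hf (φ := fun z : ℝ => max z 0) (LipschitzWith.id.max_const 0)

theorem tp_weakGradient_posPart (hfin : FiniteOnBoundedSets m) (hf : LocalSobolev m f) :
    ∀ᵐ x ∂m, (0 < f x → weakGradient m (fun x => max (f x) 0) x = weakGradient m f x) ∧
      (f x ≤ 0 → weakGradient m (fun x => max (f x) 0) x = 0) := by
  have h1 := tp_weakGradient_comp_lipschitz hfin hf (φ := fun z : ℝ => max z 0) (LipschitzWith.id.max_const 0)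
  have h2 := tp_weakGradient_null hf (N := {(0 : ℝ)}) (by simp)
  filter_upwards [h1, h2] with x hx1 hx2
  refine ⟨fun hpos => ?_, fun hle => ?_⟩
  · rw [hx1]
    have hd : deriv (fun z : ℝ => max z 0) (f x) = 1 := by
      have he : (fun z : ℝ => max z 0) =ᶠ[𝓝 (f x)] fun z => z := by
        filter_upwards [lt_mem_nhds hpos] with z hz
        exact max_eq_left hz.le
      rw [he.deriv_eq]; simp
    rw [hd]; simp
  · rw [hx1]
    rcases hle.eq_or_lt with h0 | hneg
    · rw [hx2 (by simpa using h0)]; simp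
    · have hd : deriv (fun z : ℝ => max z 0) (f x) = 0 := by
        have he : (fun z : ℝ => max z 0) =ᶠ[𝓝 (f x)] fun _ => (0 : ℝ) := by
          filter_upwards [gt_mem_nhds hneg] with z hz
          exact max_eq_right hz.le
        rw [he.deriv_eq]; simp
      rw [hd]; simp

theorem tp_localSobolev_abs (hfin : FiniteOnBoundedSets m) (hf : LocalSobolev m f) :
    LocalSobolev m (fun x => |f x|) := by
  exact tp_localSobolev_comp_lipschitz hfin hf (φ := fun z : ℝ => |z|) lipschitzWith_one_norm

theorem tp_weakGradient_abs (hfin : FiniteOnBoundedSets m) (hf : LocalSobolev m f) :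
    weakGradient m (fun x => |f x|) =ᵐ[m] weakGradient m f := by
  have h1 := tp_weakGradient_comp_lipschitz hfin hf (φ := fun z : ℝ => |z|) lipschitzWith_one_norm
  have h2 := tp_weakGradient_null hf (N := {(0 : ℝ)}) (by simp)
  filter_upwards [h1, h2] with x hx1 hx2
  rw [hx1]
  rcases lt_trichotomy (f x) 0 with hneg | h0 | hpos
  · have hd : deriv (fun z : ℝ => |z|) (f x) = -1 := by
      have he : (fun z : ℝ => |z|) =ᶠ[𝓝 (f x)] fun z => -z := by
        filter_upwards [gt_mem_nhds hneg] with z hz
        exact abs_of_neg hz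
      rw [he.deriv_eq]; simp
    rw [hd]; simp
  · rw [hx2 (by simpa using h0)]; simp
  · have hd : deriv (fun z : ℝ => |z|) (f x) = 1 := by
      have he : (fun z : ℝ => |z|) =ᶠ[𝓝 (f x)] fun z => z := by
        filter_upwards [lt_mem_nhds hpos] with z hz
        exact abs_of_pos hz
      rw [he.deriv_eq]; simp
    rw [hd]; simp

theorem tp_localSobolev_max (hfin : FiniteOnBoundedSets m) (hf : LocalSobolev m f) (hg : LocalSobolev m g) :
    LocalSobolev m (fun x => max (f x) (g x)) := by
  have h := tp_localSobolev_add hfin hg (tp_localSobolev_posPart hfin (tp_localSobolev_sub hfin hf hg))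
  have e : (fun x => g x + max (f x - g x) 0) = fun x => max (f x) (g x) := by
    funext x
    rcases le_total (f x) (g x) with h1 | h1
    · rw [max_eq_right h1, max_eq_right (by linarith)]; ring
    · rw [max_eq_left h1, max_eq_left (by linarith)]; ring
  rwa [e] at h

theorem tp_localSobolev_min (hfin : FiniteOnBoundedSets m) (hf : LocalSobolev m f) (hg : LocalSobolev m g) :
    LocalSobolev m (fun x => min (f x) (g x)) := by
  have h := tp_localSobolev_neg hfin
    (tp_localSobolev_max hfin (tp_localSobolev_neg hfin hf) (tp_localSobolev_neg hfin hg))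
  have e : (fun x => -max (-f x) (-g x)) = fun x => min (f x) (g x) := by
    funext x
    rw [max_neg_neg, neg_neg]
  rwa [e] at h

theorem tp_weakGradient_max (hfin : FiniteOnBoundedSets m) (hf : LocalSobolev m f) (hg : LocalSobolev m g) :
    ∀ᵐ x ∂m, (g x ≤ f x → weakGradient m (fun x => max (f x) (g x)) x = weakGradient m f x) ∧
      (f x ≤ g x → weakGradient m (fun x => max (f x) (g x)) x = weakGradient m g x) := by
  have hm := tp_localSobolev_max hfin hf hg
  filter_upwards [tp_weakGradient_locality hm hf, tp_weakGradient_locality hm hg] with x h1 h2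
  exact ⟨fun h => h1 (max_eq_left h), fun h => h2 (max_eq_right h)⟩

theorem tp_weakGradient_min (hfin : FiniteOnBoundedSets m) (hf : LocalSobolev m f) (hg : LocalSobolev m g) :
    ∀ᵐ x ∂m, (f x ≤ g x → weakGradient m (fun x => min (f x) (g x)) x = weakGradient m f x) ∧
      (g x ≤ f x → weakGradient m (fun x => min (f x) (g x)) x = weakGradient m g x) := by
  have hm := tp_localSobolev_min hfin hf hg
  filter_upwards [tp_weakGradient_locality hm hf, tp_weakGradient_locality hm hg] with x h1 h2
  exact ⟨fun h => h1 (min_eq_left h), fun h => h2 (min_eq_right h)⟩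

theorem tp_clamp_lipschitz (a b : ℝ) : LipschitzWith 1 (fun z : ℝ => max a (min b z)) :=
  (LipschitzWith.id.const_min b).const_max a

theorem tp_clamp_deriv_mid {a b z : ℝ} (hz : z ∈ Ioo a b) : deriv (fun z : ℝ => max a (min b z)) z = 1 := by
  have h : (fun z : ℝ => max a (min b z)) =ᶠ[𝓝 z] id := by
    filter_upwards [Ioo_mem_nhds hz.1 hz.2] with y hy
    rw [min_eq_right hy.2.le, max_eq_right hy.1.le]; rfl
  rw [h.deriv_eq, deriv_id]

theorem tp_clamp_deriv_lt {a b z : ℝ} (hab : a ≤ b) (hz : z < a) :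
    deriv (fun z : ℝ => max a (min b z)) z = 0 := by
  have h : (fun z : ℝ => max a (min b z)) =ᶠ[𝓝 z] fun _ => a := by
    filter_upwards [Iio_mem_nhds hz] with y hy
    have hy' : y < a := hy
    rw [min_eq_right (hy'.le.trans hab), max_eq_left hy'.le]
  rw [h.deriv_eq, deriv_const]

theorem tp_clamp_deriv_gt {a b z : ℝ} (hab : a ≤ b) (hz : b < z) :
    deriv (fun z : ℝ => max a (min b z)) z = 0 := by
  have h : (fun z : ℝ => max a (min b z)) =ᶠ[𝓝 z] fun _ => b := by
    filter_upwards [Ioi_mem_nhds hz] with y hy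
    have hy' : b < y := hy
    rw [min_eq_left hy'.le, max_eq_right hab]
  rw [h.deriv_eq, deriv_const]

/-- truncation -/
theorem tp_localSobolev_clamp (hfin : FiniteOnBoundedSets m) (hf : LocalSobolev m f) (a b : ℝ) :
    LocalSobolev m (fun x => max a (min b (f x))) :=
  tp_localSobolev_comp_lipschitz hfin hf (tp_clamp_lipschitz a b)

theorem tp_weakGradient_clamp (hfin : FiniteOnBoundedSets m) (hf : LocalSobolev m f) {a b : ℝ} (hab : a ≤ b) :
    ∀ᵐ x ∂m, (f x ∈ Ioo a b → weakGradient m (fun x => max a (min b (f x))) x = weakGradient m f x) ∧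
      (f x ∉ Ioo a b → weakGradient m (fun x => max a (min b (f x))) x = 0) := by
  have hN : volume ({a, b} : Set ℝ) = 0 := (Set.toFinite ({a, b} : Set ℝ)).measure_zero volume
  filter_upwards [tp_weakGradient_comp_lipschitz hfin hf (tp_clamp_lipschitz a b),
    tp_weakGradient_null hf hN] with x hx hx0
  refine ⟨fun hz => ?_, fun hz => ?_⟩
  · rw [hx, tp_clamp_deriv_mid hz, abs_one, one_mul]
  · rw [hx]
    rcases lt_trichotomy (f x) a with h | h | h
    · rw [tp_clamp_deriv_lt hab h, abs_zero, zero_mul]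
    · rw [hx0 (by rw [h]; exact mem_insert _ _), mul_zero]
    · rcases lt_trichotomy (f x) b with h' | h' | h'
      · exact absurd ⟨h, h'⟩ hz
      · rw [hx0 (by rw [h']; exact mem_insert_of_mem _ rfl), mul_zero]
      · rw [tp_clamp_deriv_gt hab h', abs_zero, zero_mul]

theorem tp_weakGradient_clamp_le (hfin : FiniteOnBoundedSets m) (hf : LocalSobolev m f) (a b : ℝ) :
    ∀ᵐ x ∂m, weakGradient m (fun x => max a (min b (f x))) x ≤ weakGradient m f x := by
  filter_upwards [tp_weakGradient_comp_lipschitz hfin hf (tp_clamp_lipschitz a b),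
    Basic.tp_weakGradient_nonneg m f] with x hx hx0
  rw [hx]
  have h1 : |deriv (fun z : ℝ => max a (min b z)) (f x)| ≤ 1 := by
    have := norm_deriv_le_of_lipschitz (x₀ := f x) (tp_clamp_lipschitz a b)
    simpa using this
  calc |deriv (fun z : ℝ => max a (min b z)) (f x)| * weakGradient m f x
      ≤ 1 * weakGradient m f x := mul_le_mul_of_nonneg_right h1 hx0
    _ = weakGradient m f x := one_mul _

end Claimed.Agent.R210.TP.Grad
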