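/-
Row 210 (S0432), layer TP, architect helper661.
TP4: functions which are Lipschitz on bounded sets are `LocalSobolev`; `|Df|` is a.e. bounded by the slope, by the ascending slope,
by the descending slope and by the local Lipschitz constant.
-/
import Claimed.Agent.R210.TP.Grad

set_option autoImplicit false
set_option linter.unusedSectionVars false

open Claims.C0366 Claims.C0366.WeakHessian
open Claimed.Agent.R210.TP.Defs
open Set Filter MeasureTheory
open scoped ENNReal NNReal Topology

namespace Claimed.Agent.R210.TP.Lip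

section slopes

variable {X : Type*} [MetricSpace X] {f : X → ℝ}

theorem tp_slopeDown_eq (f : X → ℝ) (x : X) : tp_slopeDown f x = tp_slopeUp (fun y => -f y) x := by
  unfold tp_slopeDown tp_slopeUp
  congr 1
  funext y
  congr 2
  ring

theorem tp_localSlope_eq_max (f : X → ℝ) (x : X) :
    localSlope f x = max (tp_slopeUp f x) (tp_slopeDown f x) := by
  unfold localSlope tp_slopeUp tp_slopeDown
  rw [← _root_.limsup_max]
  congr 1
  funext y
  have hd : 0 ≤ dist y x := dist_nonneg
  rcases le_total 0 (f y - f x) with h | h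
  · rw [abs_of_nonneg h, max_eq_left]
    apply ENNReal.ofReal_le_ofReal
    apply div_le_div_of_nonneg_right _ hd
    linarith
  · rw [abs_of_nonpos h, max_eq_right]
    · congr 2; ring
    · apply ENNReal.ofReal_le_ofReal
      apply div_le_div_of_nonneg_right _ hd
      linarith

theorem tp_slopeUp_le_localSlope (f : X → ℝ) (x : X) : tp_slopeUp f x ≤ localSlope f x := by
  rw [tp_localSlope_eq_max]; exact le_max_left _ _

theorem tp_slopeDown_le_localSlope (f : X → ℝ) (x : X) : tp_slopeDown f x ≤ localSlope f x := by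
  rw [tp_localSlope_eq_max]; exact le_max_right _ _

/-- the slope is bounded by the Lipschitz constant on a neighbourhood -/
theorem tp_localSlope_le_of_lipschitzOn {L : ℝ≥0} {U : Set X} (hf : LipschitzOnWith L f U) {x : X}
    (hx : U ∈ 𝓝 x) : localSlope f x ≤ L := by
  unfold localSlope
  refine Filter.limsup_le_of_le (by isBoundedDefault) ?_
  filter_upwards [self_mem_nhdsWithin, nhdsWithin_le_nhds hx] with y hy hyU
  have hd : 0 < dist y x := dist_pos.2 hy
  rw [← ENNReal.ofReal_coe_nnreal]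
  apply ENNReal.ofReal_le_ofReal
  rw [div_le_iff₀ hd, ← Real.dist_eq]
  exact hf.dist_le_mul y hyU x (mem_of_mem_nhds hx)

theorem tp_slopeUp_eq_iInf (f : X → ℝ) (x : X) :
    tp_slopeUp f x = ⨅ n : ℕ, ⨆ y : X, ⨆ (_ : 0 < dist y x ∧ dist y x < 1 / ((n : ℝ) + 1)),
      ENNReal.ofReal ((f y - f x) / dist y x) := by
  unfold tp_slopeUp
  rw [(nhdsWithin_hasBasis Metric.nhds_basis_ball_inv_nat_succ _).limsup_eq_iInf_iSup]
  simp only [iInf_true]
  refine iInf_congr fun n => ?_
  refine iSup_congr fun y => ?_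
  refine iSup_congr_Prop ?_ fun _ => rfl
  simp only [Set.mem_inter_iff, Metric.mem_ball, Set.mem_compl_iff, Set.mem_singleton_iff, dist_pos]
  tauto

theorem tp_isOpen_slope_aux (hf : Continuous f) (r : ℝ) (y : X) (a : ℝ≥0∞) :
    IsOpen {x : X | (0 < dist y x ∧ dist y x < r) ∧ a < ENNReal.ofReal ((f y - f x) / dist y x)} := by
  have hd : Continuous (fun x : X => dist y x) := continuous_const.dist continuous_id
  have hU : IsOpen {x : X | 0 < dist y x} := isOpen_lt continuous_const hd
  have hV : IsOpen {x : X | dist y x < r} := isOpen_lt hd continuous_const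
  have hnum : Continuous (fun x : X => f y - f x) := continuous_const.sub hf
  have hq : ContinuousOn (fun x : X => (f y - f x) / dist y x) {x : X | 0 < dist y x} :=
    hnum.continuousOn.div hd.continuousOn (fun p hp => ne_of_gt hp)
  have hg : ContinuousOn (fun x : X => ENNReal.ofReal ((f y - f x) / dist y x)) {x : X | 0 < dist y x} :=
    ENNReal.continuous_ofReal.comp_continuousOn hq
  have hW := hg.isOpen_inter_preimage hU (isOpen_Ioi (a := a))
  have := hW.inter hV
  convert this using 1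
  ext p
  simp only [mem_ofPred_eq, mem_inter_iff, mem_preimage, mem_Ioi]
  tauto

theorem tp_lsc_slope_sup (hf : Continuous f) (r : ℝ) :
    LowerSemicontinuous (fun x : X => ⨆ y : X, ⨆ (_ : 0 < dist y x ∧ dist y x < r),
      ENNReal.ofReal ((f y - f x) / dist y x)) := by
  rw [lowerSemicontinuous_iff_isOpen_preimage]
  intro a
  have : ((fun x : X => ⨆ y : X, ⨆ (_ : 0 < dist y x ∧ dist y x < r),
      ENNReal.ofReal ((f y - f x) / dist y x)) ⁻¹' Ioi a) =
      ⋃ y : X, {x : X | (0 < dist y x ∧ dist y x < r) ∧ a < ENNReal.ofReal ((f y - f x) / dist y x)} := by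
    ext p
    simp only [mem_preimage, mem_Ioi, lt_iSup_iff, mem_iUnion, mem_ofPred_eq, exists_prop]
  rw [this]
  exact isOpen_iUnion fun y => tp_isOpen_slope_aux hf r y a

theorem tp_measurable_slopeUp [MeasurableSpace X] [BorelSpace X] (hf : Continuous f) :
    Measurable (tp_slopeUp f) := by
  have h1 : ∀ n : ℕ, Measurable (fun x : X => ⨆ y : X,
      ⨆ (_ : 0 < dist y x ∧ dist y x < 1 / ((n : ℝ) + 1)), ENNReal.ofReal ((f y - f x) / dist y x)) :=
    fun n => (tp_lsc_slope_sup hf (1 / ((n : ℝ) + 1))).measurable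
  have h2 := Measurable.iInf h1
  have h : tp_slopeUp f = fun x : X =>
      ⨅ n : ℕ, ⨆ y : X, ⨆ (_ : 0 < dist y x ∧ dist y x < 1 / ((n : ℝ) + 1)),
        ENNReal.ofReal ((f y - f x) / dist y x) :=
    funext fun p => tp_slopeUp_eq_iInf f p
  exact h ▸ h2

theorem tp_measurable_slopeDown [MeasurableSpace X] [BorelSpace X] (hf : Continuous f) :
    Measurable (tp_slopeDown f) := by
  have : tp_slopeDown f = tp_slopeUp (fun y => -f y) := funext (tp_slopeDown_eq f)
  rw [this]; exact tp_measurable_slopeUp hf.neg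

theorem tp_measurable_localSlope [MeasurableSpace X] [BorelSpace X] (hf : Continuous f) :
    Measurable (localSlope f) := by
  have : localSlope f = fun x => max (tp_slopeUp f x) (tp_slopeDown f x) := funext (tp_localSlope_eq_max f)
  rw [this]; exact (tp_measurable_slopeUp hf).max (tp_measurable_slopeDown hf)

theorem tp_continuous_of_lipOnBdd (hf : tp_LipOnBdd f) : Continuous f := by
  rw [continuous_iff_continuousAt]
  intro x
  obtain ⟨L, hL⟩ := hf x 1
  exact hL.continuousOn.continuousAt (Metric.ball_mem_nhds x one_pos)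

theorem tp_lipOnBdd_of_lipschitz {L : ℝ≥0} (hf : LipschitzWith L f) : tp_LipOnBdd f :=
  fun _ _ => ⟨L, hf.lipschitzOnWith⟩

theorem tp_continuous_evalReal (γ : Curve X) : Continuous (evalReal γ) := by
  have h : Continuous clampTime :=
    Continuous.subtype_mk (continuous_const.max (continuous_const.min continuous_id)) _
  exact γ.continuous.comp h

/-- one sided version of the key inequality -/
theorem tp_deriv_aux {γ : Curve X} {t c : ℝ} {l : Filter ℝ} [l.NeBot] (hl : l ≤ 𝓝[≠] t) (hc : 0 < c)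
    (hlim : Tendsto (fun s => (f (evalReal γ s) - f (evalReal γ t)) / |s - t|) l (𝓝 c))
    (hs : tp_slopeUp f (evalReal γ t) ≠ ∞) (hv : metricSpeed γ t ≠ ∞) :
    ENNReal.ofReal c ≤ tp_slopeUp f (evalReal γ t) * metricSpeed γ t := by
  set x0 := evalReal γ t with hx0
  set a := (tp_slopeUp f x0).toReal with ha
  set b := (metricSpeed γ t).toReal with hb
  have ha0 : 0 ≤ a := ENNReal.toReal_nonneg
  have hb0 : 0 ≤ b := ENNReal.toReal_nonneg
  have hpos : ∀ᶠ s in l, 0 < (f (evalReal γ s) - f x0) / |s - t| := hlim.eventually (lt_mem_nhds hc)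
  have hne : ∀ᶠ s in l, s ≠ t := hl self_mem_nhdsWithin
  have htend : Tendsto (evalReal γ) l (𝓝[≠] x0) := by
    rw [tendsto_nhdsWithin_iff]
    constructor
    · exact ((tp_continuous_evalReal γ).tendsto t).mono_left (hl.trans nhdsWithin_le_nhds)
    · filter_upwards [hpos] with s hs1
      intro h
      have h' : evalReal γ s = x0 := h
      rw [h'] at hs1
      simp at hs1
  have key : ∀ ε : ℝ, 0 < ε → c ≤ (a + ε) * (b + ε) := by
    intro ε hε
    have h1 : ∀ᶠ y in 𝓝[≠] x0, ENNReal.ofReal ((f y - f x0) / dist y x0) < ENNReal.ofReal (a + ε) := by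
      refine Filter.eventually_lt_of_limsup_lt ?_ (by isBoundedDefault)
      change tp_slopeUp f x0 < _
      rw [← ENNReal.ofReal_toReal hs]
      exact (ENNReal.ofReal_lt_ofReal_iff (by linarith)).2 (by linarith)
    have h2 : ∀ᶠ s in 𝓝[≠] t, ENNReal.ofReal (dist (evalReal γ s) (evalReal γ t) / |s - t|)
        < ENNReal.ofReal (b + ε) := by
      refine Filter.eventually_lt_of_limsup_lt ?_ (by isBoundedDefault)
      change metricSpeed γ t < _
      rw [← ENNReal.ofReal_toReal hv]
      exact (ENNReal.ofReal_lt_ofReal_iff (by linarith)).2 (by linarith)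
    refine le_of_tendsto hlim ?_
    filter_upwards [htend.eventually h1, hl h2, hpos, hne, htend.eventually self_mem_nhdsWithin]
      with s e1 e2 e3 e4 e5
    have e1' := (ENNReal.ofReal_lt_ofReal_iff (by linarith)).1 e1
    have e2' := (ENNReal.ofReal_lt_ofReal_iff (by linarith)).1 e2
    have hd : 0 < dist (evalReal γ s) x0 := dist_pos.2 e5
    have hst : 0 < |s - t| := abs_pos.2 (sub_ne_zero.2 e4)
    have hfac : (f (evalReal γ s) - f x0) / |s - t|
        = ((f (evalReal γ s) - f x0) / dist (evalReal γ s) x0) * (dist (evalReal γ s) x0 / |s - t|) := by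
      field_simp
    rw [hfac]
    have p2 : 0 ≤ dist (evalReal γ s) x0 / |s - t| := by positivity
    exact mul_le_mul e1'.le e2'.le p2 (by linarith)
  have hfin : c ≤ a * b := by
    have ht : Tendsto (fun ε : ℝ => (a + ε) * (b + ε)) (𝓝[>] 0) (𝓝 ((a + 0) * (b + 0))) :=
      (((continuous_const.add continuous_id).mul (continuous_const.add continuous_id)).tendsto 0).mono_left
        nhdsWithin_le_nhds
    simp only [add_zero] at ht
    exact ge_of_tendsto ht (by filter_upwards [self_mem_nhdsWithin] with ε hε using key ε hε)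
  calc ENNReal.ofReal c ≤ ENNReal.ofReal (a * b) := ENNReal.ofReal_le_ofReal hfin
    _ = ENNReal.ofReal a * ENNReal.ofReal b := ENNReal.ofReal_mul ha0
    _ = tp_slopeUp f x0 * metricSpeed γ t := by
        rw [ha, hb, ENNReal.ofReal_toReal hs, ENNReal.ofReal_toReal hv]

/-- pointwise key inequality: at a differentiability point of `f ∘ γ` -/
theorem tp_deriv_le_slopeUp_mul_speed {γ : Curve X} {t : ℝ} (ht : t ∈ Ioo (0 : ℝ) 1)
    (hd : DifferentiableAt ℝ (fun r => f (evalReal γ r)) t) (hs : tp_slopeUp f (evalReal γ t) ≠ ∞)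
    (hv : metricSpeed γ t ≠ ∞) :
    ENNReal.ofReal |deriv (fun r => f (evalReal γ r)) t| ≤ tp_slopeUp f (evalReal γ t) * metricSpeed γ t := by
  set d := deriv (fun r => f (evalReal γ r)) t with hdd
  have hslope : Tendsto (slope (fun r => f (evalReal γ r)) t) (𝓝[≠] t) (𝓝 d) :=
    hasDerivAt_iff_tendsto_slope.1 hd.hasDerivAt
  rcases lt_trichotomy d 0 with h | h | h
  · -- left limit
    have hl : 𝓝[<] t ≤ 𝓝[≠] t := nhdsWithin_mono _ (fun s hs => ne_of_lt hs)
    have hlim : Tendsto (fun s => (f (evalReal γ s) - f (evalReal γ t)) / |s - t|) (𝓝[<] t) (𝓝 (-d)) := by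
      refine ((hslope.mono_left hl).neg).congr' ?_
      filter_upwards [self_mem_nhdsWithin] with s hs1
      have hs2 : s - t < 0 := sub_neg.2 hs1
      rw [abs_of_neg hs2, slope_def_field]
      rw [div_neg]
    rw [abs_of_neg h]
    exact tp_deriv_aux hl (by linarith) hlim hs hv
  · rw [h]; simp
  · have hl : 𝓝[>] t ≤ 𝓝[≠] t := nhdsWithin_mono _ (fun s hs => ne_of_gt hs)
    have hlim : Tendsto (fun s => (f (evalReal γ s) - f (evalReal γ t)) / |s - t|) (𝓝[>] t) (𝓝 d) := by
      refine (hslope.mono_left hl).congr' ?_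
      filter_upwards [self_mem_nhdsWithin] with s hs1
      have hs2 : 0 < s - t := sub_pos.2 hs1
      rw [abs_of_pos hs2, slope_def_field]
    rw [abs_of_pos h]
    exact tp_deriv_aux hl h hlim hs hv

theorem tp_evalReal_of_mem (γ : Curve X) {t : ℝ} (ht : t ∈ Icc (0 : ℝ) 1) : evalReal γ t = γ ⟨t, ht⟩ := by
  unfold evalReal clampTime
  congr 1
  apply Subtype.ext
  simp only
  rw [min_eq_right ht.2, max_eq_right ht.1]

/-- `f ∘ γ` is absolutely continuous -/
theorem tp_ac_comp_curve {γ : Curve X} (hγ : IsAC2 γ) {L : ℝ≥0} {U : Set X} (hf : LipschitzOnWith L f U)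
    (hU : ∀ t : ℝ, evalReal γ t ∈ U) : AbsolutelyContinuousOnInterval (fun t => f (evalReal γ t)) 0 1 := by
  obtain ⟨a, ham, ha2, hle⟩ := hγ
  -- `a` is integrable on `[0,1]`
  have ha1 : (∫⁻ t in Icc (0 : ℝ) 1, a t) < ∞ := by
    have h1 : (∫⁻ t in Icc (0 : ℝ) 1, a t) ≤ ∫⁻ t in Icc (0 : ℝ) 1, (1 + (a t) ^ 2) := by
      refine lintegral_mono fun t => ?_
      rcases le_total (a t) 1 with h | h
      · exact h.trans le_self_add
      · calc a t = a t * 1 := (mul_one _).symm
          _ ≤ a t * a t := by gcongr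
          _ = (a t) ^ 2 := (sq _).symm
          _ ≤ 1 + (a t) ^ 2 := le_add_self
    refine h1.trans_lt ?_
    rw [lintegral_add_left measurable_const]
    simp only [lintegral_const, MeasurableSet.univ, Measure.restrict_apply, univ_inter, Real.volume_Icc,
      sub_zero, ENNReal.ofReal_one, mul_one]
    exact ENNReal.add_lt_top.2 ⟨ENNReal.one_lt_top, ha2⟩
  have hint : IntegrableOn (fun r => (a r).toReal) (Icc (0 : ℝ) 1) :=
    integrable_toReal_of_lintegral_ne_top ham.aemeasurable ha1.ne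
  have hii : IntervalIntegrable (fun r => (a r).toReal) volume 0 1 := by
    rw [intervalIntegrable_iff_integrableOn_Icc_of_le zero_le_one]
    exact hint
  have hW : AbsolutelyContinuousOnInterval (fun x => (L : ℝ) * ∫ v in (0 : ℝ)..x, (a v).toReal) 0 1 :=
    (hii.absolutelyContinuousOnInterval_intervalIntegral (c := 0) (by simp)).const_mul _
  refine OneD.tp1_ac_of_dist_le hW ?_
  -- ordered version
  have key : ∀ x ∈ Icc (0 : ℝ) 1, ∀ y ∈ Icc (0 : ℝ) 1, x ≤ y →
      dist (f (evalReal γ x)) (f (evalReal γ y))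
        ≤ dist ((L : ℝ) * ∫ v in (0 : ℝ)..x, (a v).toReal) ((L : ℝ) * ∫ v in (0 : ℝ)..y, (a v).toReal) := by
    intro x hx y hy hxy
    have hsub : Icc x y ⊆ Icc (0 : ℝ) 1 := Icc_subset_Icc hx.1 hy.2
    have hfinxy : (∫⁻ r in Icc x y, a r) < ∞ := (lintegral_mono_set hsub).trans_lt ha1
    have h1 : dist (f (evalReal γ x)) (f (evalReal γ y)) ≤ L * dist (evalReal γ x) (evalReal γ y) :=
      hf.dist_le_mul _ (hU x) _ (hU y)
    have h2 : dist (evalReal γ x) (evalReal γ y) ≤ (∫⁻ r in Icc x y, a r).toReal := by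
      have := hle ⟨x, hx⟩ ⟨y, hy⟩ hxy
      rw [tp_evalReal_of_mem γ hx, tp_evalReal_of_mem γ hy, dist_edist]
      exact ENNReal.toReal_mono hfinxy.ne this
    have h3 : (∫⁻ r in Icc x y, a r).toReal = ∫ v in x..y, (a v).toReal := by
      rw [intervalIntegral.integral_of_le hxy, ← integral_Icc_eq_integral_Ioc]
      rw [integral_toReal ham.aemeasurable.restrict]
      exact ae_lt_top ham hfinxy.ne
    have hi0x : IntervalIntegrable (fun r => (a r).toReal) volume 0 x :=
      hii.mono_set (by rw [uIcc_of_le hx.1, uIcc_of_le zero_le_one]; exact Icc_subset_Icc le_rfl hx.2)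
    have hixy : IntervalIntegrable (fun r => (a r).toReal) volume x y :=
      hii.mono_set (by rw [uIcc_of_le hxy, uIcc_of_le zero_le_one]; exact hsub)
    have h4 : (∫ v in (0 : ℝ)..y, (a v).toReal) - ∫ v in (0 : ℝ)..x, (a v).toReal = ∫ v in x..y, (a v).toReal := by
      rw [← intervalIntegral.integral_add_adjacent_intervals hi0x hixy]; ring
    have h5 : 0 ≤ ∫ v in x..y, (a v).toReal := by rw [← h3]; exact ENNReal.toReal_nonneg
    rw [Real.dist_eq ((L : ℝ) * _), ← mul_sub, abs_mul, abs_sub_comm, h4, abs_of_nonneg h5,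
      abs_of_nonneg L.coe_nonneg, ← h3]
    exact h1.trans (mul_le_mul_of_nonneg_left h2 L.coe_nonneg)
  intro x hx y hy
  rw [uIcc_of_le zero_le_one] at hx hy
  rcases le_total x y with h | h
  · exact key x hx y hy h
  · rw [dist_comm (f _), dist_comm ((L : ℝ) * _)]
    exact key y hy x hx h

end slopes

variable {X : Type*} [MetricSpace X] [MeasurableSpace X] [BorelSpace X] [CompleteSpace X]
  [TopologicalSpace.SeparableSpace X] {m : Measure X} {f : X → ℝ}

theorem tp_locBdd_aux (m : Measure X) (hf : tp_LipOnBdd f) : tp_LocBdd m f := by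
  intro o R
  obtain ⟨L, hL⟩ := hf o R
  refine ⟨|f o| + L * R, Eventually.of_forall fun x hx => ?_⟩
  have hx' : dist x o < R := hx
  have hR : 0 < R := lt_of_le_of_lt dist_nonneg hx'
  have ho : o ∈ Metric.ball o R := Metric.mem_ball_self hR
  have h1 := hL.dist_le_mul x hx o ho
  rw [Real.dist_eq] at h1
  have h3 : |f x| ≤ |f o| + |f x - f o| := by
    have := abs_add_le (f o) (f x - f o)
    simpa using this
  have h4 : (L : ℝ) * dist x o ≤ L * R := mul_le_mul_of_nonneg_left hx'.le L.coe_nonneg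
  linarith

/-- the slope is finite, bounded on balls -/
theorem tp_localSlope_le_on_ball {o : X} {R : ℝ} {L : ℝ≥0} (hL : LipschitzOnWith L f (Metric.ball o R))
    {x : X} (hx : x ∈ Metric.ball o R) : localSlope f x ≤ L :=
  tp_localSlope_le_of_lipschitzOn hL (Metric.isOpen_ball.mem_nhds hx)

theorem tp_localSlope_ne_top (hf : tp_LipOnBdd f) (x : X) : localSlope f x ≠ ∞ := by
  obtain ⟨L, hL⟩ := hf x 1
  exact ne_top_of_le_ne_top ENNReal.coe_ne_top (tp_localSlope_le_on_ball hL (Metric.mem_ball_self one_pos))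

theorem tp_slopeUp_ne_top (hf : tp_LipOnBdd f) (x : X) : tp_slopeUp f x ≠ ∞ :=
  ne_top_of_le_ne_top (tp_localSlope_ne_top hf x) (tp_slopeUp_le_localSlope f x)

theorem tp_locallyL2_of_lipOnBdd (hfin : FiniteOnBoundedSets m) (hf : tp_LipOnBdd f) : LocallyL2 m f :=
  Basic.tp_locallyL2_of_locBdd hfin (tp_continuous_of_lipOnBdd hf).aestronglyMeasurable (tp_locBdd_aux m hf)

theorem tp_locBdd_of_lipOnBdd (m : Measure X) (hf : tp_LipOnBdd f) : tp_LocBdd m f :=
  tp_locBdd_aux m hf

theorem tp_locallyL2_slopeUp (hfin : FiniteOnBoundedSets m) (hf : tp_LipOnBdd f) :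
    LocallyL2 m (fun x => (tp_slopeUp f x).toReal) := by
  refine Basic.tp_locallyL2_of_locBdd hfin
    (tp_measurable_slopeUp (tp_continuous_of_lipOnBdd hf)).ennreal_toReal.aestronglyMeasurable ?_
  intro o R
  obtain ⟨L, hL⟩ := hf o R
  refine ⟨L, Eventually.of_forall fun x hx => ?_⟩
  rw [abs_of_nonneg ENNReal.toReal_nonneg]
  exact ENNReal.toReal_le_coe_of_le_coe ((tp_slopeUp_le_localSlope f x).trans (tp_localSlope_le_on_ball hL hx))

theorem tp_locallyL2_localSlope (hfin : FiniteOnBoundedSets m) (hf : tp_LipOnBdd f) :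
    LocallyL2 m (fun x => (localSlope f x).toReal) := by
  refine Basic.tp_locallyL2_of_locBdd hfin
    (tp_measurable_localSlope (tp_continuous_of_lipOnBdd hf)).ennreal_toReal.aestronglyMeasurable ?_
  intro o R
  obtain ⟨L, hL⟩ := hf o R
  refine ⟨L, Eventually.of_forall fun x hx => ?_⟩
  rw [abs_of_nonneg ENNReal.toReal_nonneg]
  exact ENNReal.toReal_le_coe_of_le_coe (tp_localSlope_le_on_ball hL hx)

/-- **TP4** the ascending slope is a weak upper gradient -/
theorem tp_wug_slopeUp (hfin : FiniteOnBoundedSets m) (hf : tp_LipOnBdd f) :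
    IsLocalWeakUpperGradient m f (fun x => (tp_slopeUp f x).toReal) := by
  refine Curve.tp_wug_of_sobAlong (tp_locallyL2_slopeUp hfin hf)
    (Eventually.of_forall fun x => ENNReal.toReal_nonneg) ?_
  intro π hπ hb
  obtain ⟨o, R, hR, htr⟩ := Need.tp_tracks_evalReal hb
  obtain ⟨L, hL⟩ := hf o R
  filter_upwards [htr, hπ.2.2.1, Need.tp_ae_speed_lt_top hπ] with γ hγ hAC hsp
  have hac : AbsolutelyContinuousOnInterval (fun t => f (evalReal γ t)) 0 1 := tp_ac_comp_curve hAC hL hγ
  refine ⟨fun t => f (evalReal γ t), hac, Eventually.of_forall fun t => rfl, rfl, rfl, ?_⟩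
  have hdiff : ∀ᵐ t ∂(volume.restrict (Icc (0 : ℝ) 1)), t ∈ uIcc (0 : ℝ) 1 →
      DifferentiableAt ℝ (fun t => f (evalReal γ t)) t := ae_restrict_of_ae hac.ae_differentiableAt
  have hIoo : ∀ᵐ t ∂(volume.restrict (Icc (0 : ℝ) 1)), t ∈ Ioo (0 : ℝ) 1 := by
    rw [← Measure.restrict_congr_set (Ioo_ae_eq_Icc (a := (0 : ℝ)) (b := 1) (μ := volume))]
    exact ae_restrict_mem measurableSet_Ioo
  filter_upwards [hdiff, hIoo, hsp] with t h1 h2 h3
  have h4 : t ∈ uIcc (0 : ℝ) 1 := by
    rw [uIcc_of_le zero_le_one]; exact Ioo_subset_Icc_self h2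
  have := tp_deriv_le_slopeUp_mul_speed h2 (h1 h4) (tp_slopeUp_ne_top hf _) h3.ne
  unfold tp_wt
  rwa [ENNReal.ofReal_toReal (tp_slopeUp_ne_top hf _)]

theorem tp_wug_slopeDown (hfin : FiniteOnBoundedSets m) (hf : tp_LipOnBdd f) :
    IsLocalWeakUpperGradient m f (fun x => (tp_slopeDown f x).toReal) := by
  have hneg : tp_LipOnBdd (fun y => -f y) := by
    intro o R
    obtain ⟨L, hL⟩ := hf o R
    refine ⟨L, LipschitzOnWith.of_dist_le_mul fun x hx y hy => ?_⟩
    have := hL.dist_le_mul x hx y hy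
    rwa [Real.dist_eq, neg_sub_neg, abs_sub_comm, ← Real.dist_eq]
  have h := tp_wug_slopeUp hfin hneg
  have hD : (fun x => (tp_slopeDown f x).toReal) = fun x => (tp_slopeUp (fun y => -f y) x).toReal :=
    funext fun x => by rw [tp_slopeDown_eq]
  rw [hD]
  refine ⟨h.1, h.2.1, fun π hπ hb => ?_⟩
  have := h.2.2 π hπ hb
  simpa only [neg_sub_neg, abs_sub_comm] using this

theorem tp_wug_localSlope (hfin : FiniteOnBoundedSets m) (hf : tp_LipOnBdd f) :
    IsLocalWeakUpperGradient m f (fun x => (localSlope f x).toReal) :=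
  Basic.tp_wug_mono (tp_wug_slopeUp hfin hf) (tp_locallyL2_localSlope hfin hf)
    (Eventually.of_forall fun x =>
      ENNReal.toReal_mono (tp_localSlope_ne_top hf x) (tp_slopeUp_le_localSlope f x))

theorem tp_localSobolev_of_lipOnBdd (hfin : FiniteOnBoundedSets m) (hf : tp_LipOnBdd f) : LocalSobolev m f :=
  Min.tp_localSobolev_of_wug hfin (tp_locallyL2_of_lipOnBdd hfin hf) (tp_wug_slopeUp hfin hf)

theorem tp_weakGradient_le_slopeUp (hfin : FiniteOnBoundedSets m) (hf : tp_LipOnBdd f) :
    ∀ᵐ x ∂m, ENNReal.ofReal (weakGradient m f x) ≤ tp_slopeUp f x := by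
  filter_upwards [Basic.tp_weakGradient_le (tp_wug_slopeUp hfin hf)] with x hx
  exact (ENNReal.ofReal_le_ofReal hx).trans ENNReal.ofReal_toReal_le

theorem tp_weakGradient_le_slopeDown (hfin : FiniteOnBoundedSets m) (hf : tp_LipOnBdd f) :
    ∀ᵐ x ∂m, ENNReal.ofReal (weakGradient m f x) ≤ tp_slopeDown f x := by
  filter_upwards [Basic.tp_weakGradient_le (tp_wug_slopeDown hfin hf)] with x hx
  exact (ENNReal.ofReal_le_ofReal hx).trans ENNReal.ofReal_toReal_le

theorem tp_weakGradient_le_localSlope (hfin : FiniteOnBoundedSets m) (hf : tp_LipOnBdd f) :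
    ∀ᵐ x ∂m, ENNReal.ofReal (weakGradient m f x) ≤ localSlope f x := by
  filter_upwards [tp_weakGradient_le_slopeUp hfin hf] with x hx using hx.trans (tp_slopeUp_le_localSlope f x)

/-- a function `G ∈ L²_loc` which dominates the slope a.e. is a wug (used by RS7) -/
theorem tp_wug_of_localSlope_le (hfin : FiniteOnBoundedSets m) (hf : tp_LipOnBdd f) {G : X → ℝ}
    (hG : LocallyL2 m G) (hG0 : ∀ᵐ x ∂m, 0 ≤ G x) (hle : ∀ᵐ x ∂m, localSlope f x ≤ ENNReal.ofReal (G x)) :
    IsLocalWeakUpperGradient m f G := by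
  refine Basic.tp_wug_mono (tp_wug_localSlope hfin hf) hG ?_
  filter_upwards [hG0, hle] with x h0 h1
  exact ENNReal.toReal_le_of_le_ofReal h0 h1

theorem tp_weakGradient_le_of_lipschitz (hfin : FiniteOnBoundedSets m) {L : ℝ≥0} (hf : LipschitzWith L f) :
    ∀ᵐ x ∂m, weakGradient m f x ≤ L := by
  filter_upwards [Basic.tp_weakGradient_le (tp_wug_localSlope hfin (tp_lipOnBdd_of_lipschitz hf))] with x hx
  refine hx.trans (ENNReal.toReal_le_coe_of_le_coe ?_)
  exact tp_localSlope_le_of_lipschitzOn (U := univ) (hf.lipschitzOnWith) univ_mem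

/-- local Lipschitz constant on an open set -/
theorem tp_weakGradient_le_of_lipschitzOn (hfin : FiniteOnBoundedSets m) (hf : tp_LipOnBdd f) {L : ℝ≥0}
    {U : Set X} (hU : IsOpen U) (hL : LipschitzOnWith L f U) : ∀ᵐ x ∂m, x ∈ U → weakGradient m f x ≤ L := by
  filter_upwards [Basic.tp_weakGradient_le (tp_wug_localSlope hfin hf)] with x hx hxU
  exact hx.trans (ENNReal.toReal_le_coe_of_le_coe (tp_localSlope_le_of_lipschitzOn hL (hU.mem_nhds hxU)))

end Claimed.Agent.R210.TP.Lip
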