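/-
Row 210 (S0432), layer TP, architect helper661.
TP5: stability of weak upper gradients under strong `L²_loc` convergence.
-/
import Claimed.Agent.R210.TP.Curve

set_option autoImplicit false
set_option linter.unusedSectionVars false

open Claims.C0366 Claims.C0366.WeakHessian
open Claimed.Agent.R210.TP.Defs
open Set Filter MeasureTheory
open scoped ENNReal NNReal Topology

namespace Claimed.Agent.R210.TP.Stab

variable {X : Type*} [MetricSpace X] [MeasurableSpace X] [BorelSpace X] [CompleteSpace X]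
  [TopologicalSpace.SeparableSpace X] {m : Measure X} {f D : X → ℝ} {fs Ds : ℕ → X → ℝ}

/-- `A ≤ a n + ε n`, `ε n → 0` implies `A ≤ liminf a`. -/
theorem tp_le_liminf_of_le_add {A : ℝ≥0∞} {a ε : ℕ → ℝ≥0∞} (h : ∀ n, A ≤ a n + ε n)
    (hε : Tendsto ε atTop (𝓝 0)) : A ≤ liminf a atTop := by
  apply ENNReal.le_of_forall_pos_le_add
  intro δ hδ _
  have hev : ∀ᶠ n in atTop, ε n ≤ δ :=
    hε.eventually (Iic_mem_nhds (by exact_mod_cast hδ))
  rw [← tsub_le_iff_right]
  refine le_liminf_of_le (by isBoundedDefault) ?_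
  filter_upwards [hev] with n hn
  rw [tsub_le_iff_right]
  exact (h n).trans (by gcongr)

/-- `b n ≤ B + ε n`, `ε n → 0` implies `limsup b ≤ B`. -/
theorem tp_limsup_le_of_le_add {B : ℝ≥0∞} {b ε : ℕ → ℝ≥0∞} (h : ∀ n, b n ≤ B + ε n)
    (hε : Tendsto ε atTop (𝓝 0)) : limsup b atTop ≤ B := by
  apply ENNReal.le_of_forall_pos_le_add
  intro δ hδ _
  have hev : ∀ᶠ n in atTop, ε n ≤ δ :=
    hε.eventually (Iic_mem_nhds (by exact_mod_cast hδ))
  refine limsup_le_of_le (by isBoundedDefault) ?_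
  filter_upwards [hev] with n hn
  exact (h n).trans (by gcongr)

theorem tp_aemeasurable_eval {π : Measure (Curve X)} (hπ : IsTestPlan m π) {h : X → ℝ}
    (hh : AEMeasurable h m) (t : ℝ) : AEMeasurable (fun γ : Curve X => h (evalReal γ t)) π := by
  obtain ⟨C, hC⟩ := hπ.2.1
  have hac : Measure.map (fun γ : Curve X => γ (clampTime t)) π ≪ m :=
    Measure.absolutelyContinuous_of_le_smul (hC (clampTime t))
  exact (hh.mono_ac hac).comp_measurable (Need.tp_measurable_eval (clampTime t))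

/-- the a.e. sign passes to the `L²_loc` limit -/
theorem tp_nonneg_of_tendsto (hDs : ∀ n, LocallyL2 m (Ds n)) (hD : LocallyL2 m D)
    (h0 : ∀ n, ∀ᵐ x ∂m, 0 ≤ Ds n x) (hlim : tp_L2locTendsto m Ds D) : ∀ᵐ x ∂m, 0 ≤ D x := by
  apply Basic.tp_ae_of_ae_ball
  intro o R
  rw [← ae_restrict_iff' Metric.isOpen_ball.measurableSet]
  set μ := m.restrict (Metric.ball o R) with hμ
  have hDm : AEStronglyMeasurable D μ := (Basic.tp_aestronglyMeasurable hD).restrict
  have hNm : AEStronglyMeasurable (fun x => max (-D x) 0) μ :=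
    (hDm.neg.aemeasurable.max aemeasurable_const).aestronglyMeasurable
  have hle : ∀ n, eLpNorm (fun x => max (-D x) 0) 2 μ ≤ eLpNorm (fun x => Ds n x - D x) 2 μ := by
    intro n
    apply eLpNorm_mono_ae
    filter_upwards [ae_restrict_of_ae (h0 n)] with x hx
    rw [Real.norm_eq_abs, Real.norm_eq_abs, abs_of_nonneg (le_max_right _ _)]
    apply max_le
    · exact le_trans (by linarith) (le_abs_self _)
    · exact abs_nonneg _
  have hzero : eLpNorm (fun x => max (-D x) 0) 2 μ = 0 :=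
    le_antisymm (ge_of_tendsto' (hlim o R) hle) zero_le
  rw [eLpNorm_eq_zero_iff hNm (by norm_num)] at hzero
  filter_upwards [hzero] with x hx
  have : max (-D x) 0 = 0 := hx
  have h2 := le_max_left (-D x) 0
  linarith

/-- left hand sides converge -/
theorem tp_tendsto_lhs {π : Measure (Curve X)} (hπ : IsTestPlan m π) (hb : BoundedTracks π)
    (hfs : ∀ n, LocallyL2 m (fs n)) (hf : LocallyL2 m f) (hlim : tp_L2locTendsto m fs f) :
    (∫⁻ γ, ENNReal.ofReal |f (γ timeOne) - f (γ timeZero)| ∂π) ≤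
      liminf (fun n => ∫⁻ γ, ENNReal.ofReal |fs n (γ timeOne) - fs n (γ timeZero)| ∂π) atTop := by
  obtain ⟨o, R, C, hC⟩ := Need.tp_lintegral_eval_le hπ hb
  set ε : ℕ → ℝ≥0∞ := fun n => (C : ℝ≥0∞) * eLpNorm (fun x => fs n x - f x) 2 (m.restrict (Metric.ball o R))
    + (C : ℝ≥0∞) * eLpNorm (fun x => fs n x - f x) 2 (m.restrict (Metric.ball o R)) with hε
  have hε0 : Tendsto ε atTop (𝓝 0) := by
    have h1 : Tendsto (fun n => (C : ℝ≥0∞) * eLpNorm (fun x => fs n x - f x) 2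
        (m.restrict (Metric.ball o R))) atTop (𝓝 ((C : ℝ≥0∞) * 0)) :=
      ENNReal.Tendsto.const_mul (hlim o R) (Or.inr ENNReal.coe_ne_top)
    rw [mul_zero] at h1
    simpa using h1.add h1
  refine tp_le_liminf_of_le_add (fun n => ?_) hε0
  have hh : LocallyL2 m (fun x => fs n x - f x) := Basic.tp_locallyL2_sub (hfs n) hf
  have hm1 : AEMeasurable (fun γ : Curve X => ENNReal.ofReal |fs n (evalReal γ 1) - f (evalReal γ 1)|) π :=
    (tp_aemeasurable_eval hπ (Basic.tp_aemeasurable hh) 1).abs.ennreal_ofReal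
  have hm0 : AEMeasurable (fun γ : Curve X => ENNReal.ofReal |fs n (evalReal γ 0) - f (evalReal γ 0)|) π :=
    (tp_aemeasurable_eval hπ (Basic.tp_aemeasurable hh) 0).abs.ennreal_ofReal
  calc (∫⁻ γ, ENNReal.ofReal |f (γ timeOne) - f (γ timeZero)| ∂π)
      ≤ ∫⁻ γ, (ENNReal.ofReal |fs n (γ timeOne) - fs n (γ timeZero)|
          + (ENNReal.ofReal |fs n (evalReal γ 1) - f (evalReal γ 1)|
            + ENNReal.ofReal |fs n (evalReal γ 0) - f (evalReal γ 0)|)) ∂π := by
        refine lintegral_mono fun γ => ?_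
        rw [Need.tp_evalReal_one, Need.tp_evalReal_zero]
        rw [← ENNReal.ofReal_add (abs_nonneg _) (abs_nonneg _),
          ← ENNReal.ofReal_add (abs_nonneg _) (add_nonneg (abs_nonneg _) (abs_nonneg _))]
        apply ENNReal.ofReal_le_ofReal
        have e : f (γ timeOne) - f (γ timeZero) = (fs n (γ timeOne) - fs n (γ timeZero))
            + (-(fs n (γ timeOne) - f (γ timeOne)) + (fs n (γ timeZero) - f (γ timeZero))) := by ring
        rw [e]
        refine (abs_add_le _ _).trans ?_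
        gcongr
        refine (abs_add_le _ _).trans ?_
        rw [abs_neg]
    _ = (∫⁻ γ, ENNReal.ofReal |fs n (γ timeOne) - fs n (γ timeZero)| ∂π)
          + ((∫⁻ γ, ENNReal.ofReal |fs n (evalReal γ 1) - f (evalReal γ 1)| ∂π)
            + ∫⁻ γ, ENNReal.ofReal |fs n (evalReal γ 0) - f (evalReal γ 0)| ∂π) := by
        have hsum : AEMeasurable (fun γ : Curve X =>
            ENNReal.ofReal |fs n (evalReal γ 1) - f (evalReal γ 1)|
              + ENNReal.ofReal |fs n (evalReal γ 0) - f (evalReal γ 0)|) π := hm1.add hm0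
        rw [lintegral_add_right' _ hsum, lintegral_add_left' hm1]
    _ ≤ (∫⁻ γ, ENNReal.ofReal |fs n (γ timeOne) - fs n (γ timeZero)| ∂π) + ε n := by
        gcongr
        exact add_le_add (hC _ hh 1) (hC _ hh 0)

/-- right hand sides converge -/
theorem tp_tendsto_rhs {π : Measure (Curve X)} (hπ : IsTestPlan m π) (hb : BoundedTracks π)
    (hDs : ∀ n, LocallyL2 m (Ds n)) (hD : LocallyL2 m D) (hlim : tp_L2locTendsto m Ds D) :
    limsup (fun n => ∫⁻ γ, ∫⁻ t in Icc (0 : ℝ) 1, tp_wt (Ds n) γ t ∂volume ∂π) atTop ≤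
      ∫⁻ γ, ∫⁻ t in Icc (0 : ℝ) 1, tp_wt D γ t ∂volume ∂π := by
  obtain ⟨o, R, C, hC⟩ := Need.tp_lintegral_wt_le hπ hb
  have hε0 : Tendsto (fun n => (C : ℝ≥0∞) * eLpNorm (fun x => Ds n x - D x) 2
      (m.restrict (Metric.ball o R))) atTop (𝓝 0) := by
    have h1 := ENNReal.Tendsto.const_mul (a := (C : ℝ≥0∞)) (hlim o R) (Or.inr ENNReal.coe_ne_top)
    rwa [mul_zero] at h1
  refine tp_limsup_le_of_le_add (fun n => ?_) hε0
  -- Borel representative of `D`
  have hm := Basic.tp_aemeasurable hD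
  have hDD : D =ᵐ[m] hm.mk D := hm.ae_eq_mk
  have hmk : Measurable (hm.mk D) := hm.measurable_mk
  have hR : (∫⁻ γ, ∫⁻ t in Icc (0 : ℝ) 1, tp_wt D γ t ∂volume ∂π)
      = ∫⁻ γ, ∫⁻ t in Icc (0 : ℝ) 1, tp_wt (hm.mk D) γ t ∂volume ∂π := by
    apply lintegral_congr_ae
    filter_upwards [Curve.tp_wt_congr_ae hπ hDD] with γ hγ
    exact lintegral_congr_ae hγ
  have hE : LocallyL2 m (fun x => Ds n x - D x) := Basic.tp_locallyL2_sub (hDs n) hD
  have hmeas1 : ∀ γ : Curve X, Measurable (fun t => tp_wt (hm.mk D) γ t) := fun γ =>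
    (Curve.tp_measurable_wt hmk).comp measurable_prodMk_left
  have hmeas2 : Measurable (fun γ : Curve X => ∫⁻ t in Icc (0 : ℝ) 1, tp_wt (hm.mk D) γ t) :=
    (Curve.tp_measurable_wt hmk).lintegral_prod_right'
  calc (∫⁻ γ, ∫⁻ t in Icc (0 : ℝ) 1, tp_wt (Ds n) γ t ∂volume ∂π)
      ≤ ∫⁻ γ, ∫⁻ t in Icc (0 : ℝ) 1, (tp_wt (hm.mk D) γ t
          + ENNReal.ofReal |Ds n (evalReal γ t) - D (evalReal γ t)| * metricSpeed γ t) ∂volume ∂π := by
        apply lintegral_mono_ae
        filter_upwards [Curve.tp_wt_congr_ae hπ hDD] with γ hγ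
        apply lintegral_mono_ae
        filter_upwards [hγ] with t ht
        rw [← ht]
        unfold tp_wt
        rw [← add_mul]
        gcongr
        refine le_trans ?_ ENNReal.ofReal_add_le
        apply ENNReal.ofReal_le_ofReal
        have := le_abs_self (Ds n (evalReal γ t) - D (evalReal γ t))
        linarith
    _ = (∫⁻ γ, ∫⁻ t in Icc (0 : ℝ) 1, tp_wt (hm.mk D) γ t ∂volume ∂π)
          + ∫⁻ γ, ∫⁻ t in Icc (0 : ℝ) 1,
            ENNReal.ofReal |Ds n (evalReal γ t) - D (evalReal γ t)| * metricSpeed γ t ∂volume ∂π := by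
        rw [← lintegral_add_left hmeas2]
        refine lintegral_congr fun γ => ?_
        rw [lintegral_add_left (hmeas1 γ)]
    _ ≤ (∫⁻ γ, ∫⁻ t in Icc (0 : ℝ) 1, tp_wt D γ t ∂volume ∂π)
          + (C : ℝ≥0∞) * eLpNorm (fun x => Ds n x - D x) 2 (m.restrict (Metric.ball o R)) := by
        rw [hR]
        gcongr
        exact hC _ hE

/-- **TP5** -/
theorem tp_stability (h : ∀ n, IsLocalWeakUpperGradient m (fs n) (Ds n)) (hfs : ∀ n, LocallyL2 m (fs n))
    (hf : LocallyL2 m f) (hD : LocallyL2 m D) (hflim : tp_L2locTendsto m fs f)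
    (hDlim : tp_L2locTendsto m Ds D) : IsLocalWeakUpperGradient m f D := by
  refine ⟨hD, tp_nonneg_of_tendsto (fun n => (h n).1) hD (fun n => (h n).2.1) hDlim, fun π hπ hb => ?_⟩
  calc (∫⁻ γ, ENNReal.ofReal |f (γ timeOne) - f (γ timeZero)| ∂π)
      ≤ liminf (fun n => ∫⁻ γ, ENNReal.ofReal |fs n (γ timeOne) - fs n (γ timeZero)| ∂π) atTop :=
        tp_tendsto_lhs hπ hb hfs hf hflim
    _ ≤ liminf (fun n => ∫⁻ γ, ∫⁻ t in Icc (0 : ℝ) 1, tp_wt (Ds n) γ t ∂volume ∂π) atTop :=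
        liminf_le_liminf (Eventually.of_forall fun n => (h n).2.2 π hπ hb)
    _ ≤ limsup (fun n => ∫⁻ γ, ∫⁻ t in Icc (0 : ℝ) 1, tp_wt (Ds n) γ t ∂volume ∂π) atTop :=
        liminf_le_limsup
    _ ≤ ∫⁻ γ, ∫⁻ t in Icc (0 : ℝ) 1, tp_wt D γ t ∂volume ∂π := tp_tendsto_rhs hπ hb (fun n => (h n).1) hD hDlim

/-- global `L²` convergence implies `L²_loc` convergence -/
theorem tp_L2locTendsto_of_tendsto
    (h : Tendsto (fun n => eLpNorm (fun x => fs n x - f x) 2 m) atTop (𝓝 0)) : tp_L2locTendsto m fs f := by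
  intro o R
  exact tendsto_of_tendsto_of_tendsto_of_le_of_le tendsto_const_nhds h (fun _ => zero_le)
    (fun n => eLpNorm_mono_measure _ Measure.restrict_le_self)

end Claimed.Agent.R210.TP.Stab
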