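/-
Row 210 (S0432), layer TP, architect helper661.
TP6: the global class `Sobolev`: vector space, truncation, cut-off, products.
-/
import Claimed.Agent.R210.TP.Lip
import Claimed.Agent.R210.TP.Stab

set_option autoImplicit false
set_option linter.unusedSectionVars false

open Claims.C0366 Claims.C0366.WeakHessian
open Claimed.Agent.R210.Defs Claimed.Agent.R210.TP.Defs
open Set Filter MeasureTheory
open scoped ENNReal NNReal Topology

namespace Claimed.Agent.R210.TP.Cut

variable {X : Type*} [MetricSpace X] [MeasurableSpace X] [BorelSpace X] [CompleteSpace X]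
  [TopologicalSpace.SeparableSpace X] {m : Measure X} {f g χ : X → ℝ}

/-- criterion -/
theorem tp_sobolev_of_le (hf : MemLp f 2 m) (hloc : LocalSobolev m f) {G : X → ℝ} (hG : MemLp G 2 m)
    (hle : ∀ᵐ x ∂m, weakGradient m f x ≤ G x) : Sobolev m f := by
  refine ⟨hf, hloc, hG.mono (Basic.tp_aestronglyMeasurable (Basic.tp_weakGradient_locallyL2 m f)) ?_⟩
  filter_upwards [hle, Basic.tp_weakGradient_nonneg m f] with x h1 h0
  rw [Real.norm_eq_abs, Real.norm_eq_abs, abs_of_nonneg h0]
  exact h1.trans (le_abs_self _)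

theorem tp_sobolev_add (hfin : FiniteOnBoundedSets m) (hf : Sobolev m f) (hg : Sobolev m g) :
    Sobolev m (fun x => f x + g x) :=
  tp_sobolev_of_le (hf.1.add hg.1) (Grad.tp_localSobolev_add hfin hf.2.1 hg.2.1) (hf.2.2.add hg.2.2)
    (Grad.tp_weakGradient_add_le hf.2.1 hg.2.1)

theorem tp_sobolev_const_mul (hfin : FiniteOnBoundedSets m) (c : ℝ) (hf : Sobolev m f) :
    Sobolev m (fun x => c * f x) :=
  tp_sobolev_of_le (hf.1.const_mul c) (Grad.tp_localSobolev_const_mul hfin c hf.2.1)
    (hf.2.2.const_mul |c|) ((Grad.tp_weakGradient_const_mul m c f).le)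

theorem tp_sobolev_neg (hfin : FiniteOnBoundedSets m) (hf : Sobolev m f) : Sobolev m (fun x => -f x) := by
  simpa using tp_sobolev_const_mul hfin (-1) hf

theorem tp_sobolev_sub (hfin : FiniteOnBoundedSets m) (hf : Sobolev m f) (hg : Sobolev m g) :
    Sobolev m (fun x => f x - g x) := by
  simpa [sub_eq_add_neg] using tp_sobolev_add hfin hf (tp_sobolev_neg hfin hg)

theorem tp_sobolev_zero (m : Measure X) : Sobolev m (fun _ : X => (0 : ℝ)) :=
  tp_sobolev_of_le (G := fun _ => 0) MemLp.zero'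
    ⟨Basic.tp_locallyL2_zero, fun _ => 0, Calc.tp_wug_const m 0, fun _ h => h.2.1⟩ MemLp.zero'
    ((Grad.tp_weakGradient_const m 0).le)

theorem tp_sobolev_comp_lipschitz (hfin : FiniteOnBoundedSets m) (hf : Sobolev m f) {φ : ℝ → ℝ} {L : ℝ≥0}
    (hφ : LipschitzWith L φ) (h0 : φ 0 = 0) : Sobolev m (fun x => φ (f x)) := by
  refine tp_sobolev_of_le (hφ.comp_memLp h0 hf.1) (Grad.tp_localSobolev_comp_lipschitz hfin hf.2.1 hφ)
    (hf.2.2.const_mul (L : ℝ)) ?_
  filter_upwards [Grad.tp_weakGradient_comp_lipschitz hfin hf.2.1 hφ,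
    Basic.tp_weakGradient_nonneg m f] with x h1 h2
  rw [h1]
  refine mul_le_mul_of_nonneg_right ?_ h2
  rw [← Real.norm_eq_abs]
  exact norm_deriv_le_of_lipschitz hφ

/-- truncation -/
theorem tp_sobolev_clamp (hfin : FiniteOnBoundedSets m) (hf : Sobolev m f) {a b : ℝ} (ha : a ≤ 0) (hb : 0 ≤ b) :
    Sobolev m (fun x => max a (min b (f x))) :=
  tp_sobolev_comp_lipschitz hfin hf (Grad.tp_clamp_lipschitz a b)
    (by rw [min_eq_right hb, max_eq_right ha])

theorem tp_sobolev_abs (hfin : FiniteOnBoundedSets m) (hf : Sobolev m f) : Sobolev m (fun x => |f x|) :=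
  tp_sobolev_comp_lipschitz hfin hf (φ := fun z : ℝ => |z|) (L := 1)
    (LipschitzWith.of_dist_le_mul fun x y => by
      simpa [Real.dist_eq] using abs_abs_sub_abs_le_abs_sub x y) abs_zero

theorem tp_sobolev_max (hfin : FiniteOnBoundedSets m) (hf : Sobolev m f) (hg : Sobolev m g) :
    Sobolev m (fun x => max (f x) (g x)) := by
  refine tp_sobolev_of_le (G := fun x => weakGradient m f x + weakGradient m g x) ?_
    (Grad.tp_localSobolev_max hfin hf.2.1 hg.2.1) (hf.2.2.add hg.2.2) ?_
  · exact hf.1.sup hg.1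
  · filter_upwards [Grad.tp_weakGradient_max hfin hf.2.1 hg.2.1, Basic.tp_weakGradient_nonneg m f,
      Basic.tp_weakGradient_nonneg m g] with x h1 h2 h3
    rcases le_total (f x) (g x) with h | h
    · rw [h1.2 h]; linarith
    · rw [h1.1 h]; linarith

theorem tp_sobolev_min (hfin : FiniteOnBoundedSets m) (hf : Sobolev m f) (hg : Sobolev m g) :
    Sobolev m (fun x => min (f x) (g x)) := by
  refine tp_sobolev_of_le (G := fun x => weakGradient m f x + weakGradient m g x) ?_
    (Grad.tp_localSobolev_min hfin hf.2.1 hg.2.1) (hf.2.2.add hg.2.2) ?_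
  · exact hf.1.inf hg.1
  · filter_upwards [Grad.tp_weakGradient_min hfin hf.2.1 hg.2.1, Basic.tp_weakGradient_nonneg m f,
      Basic.tp_weakGradient_nonneg m g] with x h1 h2 h3
    rcases le_total (f x) (g x) with h | h
    · rw [h1.1 h]; linarith
    · rw [h1.2 h]; linarith

/-- Lipschitz with bounded support -/
theorem tp_sobolev_of_lipschitz_bddSupp (hfin : FiniteOnBoundedSets m) (hf : GloballyLipschitz f)
    (hs : tp_BddSupp f) : Sobolev m f := by
  obtain ⟨L, hL⟩ := hf
  rcases (Function.support f).eq_empty_or_nonempty with hA | ⟨o, ho⟩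
  · have e : f = fun _ : X => (0 : ℝ) := Function.support_eq_empty_iff.1 hA
    rw [e]
    exact tp_sobolev_zero m
  · obtain ⟨R, hR⟩ := Bornology.IsBounded.subset_ball hs o
    have hRpos : 0 < R := Metric.pos_of_mem_ball (hR ho)
    have hLoc : LocallyL2 m f := Lip.tp_locallyL2_of_lipOnBdd hfin (Lip.tp_lipOnBdd_of_lipschitz hL)
    have hLS : LocalSobolev m f := Lip.tp_localSobolev_of_lipOnBdd hfin (Lip.tp_lipOnBdd_of_lipschitz hL)
    have hmem : MemLp f 2 m := by
      have h1 : MemLp ((Metric.ball o R).indicator f) 2 m :=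
        (memLp_indicator_iff_restrict Metric.isOpen_ball.measurableSet).2 (hLoc o R hRpos)
      rwa [Set.indicator_eq_self.2 hR] at h1
    have hG : MemLp ((Metric.ball o R).indicator (fun _ : X => (L : ℝ))) 2 m :=
      memLp_indicator_const 2 Metric.isOpen_ball.measurableSet (L : ℝ)
        (Or.inr (hfin _ Metric.isBounded_ball).ne)
    refine tp_sobolev_of_le hmem hLS hG ?_
    filter_upwards [Lip.tp_weakGradient_le_of_lipschitz hfin hL,
      Grad.tp_weakGradient_null hLS (N := {0}) (by simp)] with x h1 h2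
    by_cases hx : x ∈ Metric.ball o R
    · rw [Set.indicator_of_mem hx]; exact h1
    · rw [Set.indicator_of_notMem hx]
      have hfx : f x = 0 := by
        by_contra hne
        exact hx (hR hne)
      exact (h2 (by simp [hfx])).le

theorem tp_bddSupp_of_hasCompactSupport (hf : HasCompactSupport f) : tp_BddSupp f := by
  exact hf.isCompact.isBounded.subset (subset_tsupport f)

theorem tp_sobolev_of_lipC (hfin : FiniteOnBoundedSets m) (hf : LipC f) : Sobolev m f :=
  tp_sobolev_of_lipschitz_bddSupp hfin hf.1 (tp_bddSupp_of_hasCompactSupport hf.2)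

/-- the integrability facts behind the Leibniz rule for (Lipschitz on balls) × `LocalSobolev` -/
theorem tp_lip_mul_locallyL2 (hfin : FiniteOnBoundedSets m) (hf : LocalSobolev m f) (hχ : tp_LipOnBdd χ) :
    LocallyL2 m (fun x => χ x * f x) ∧
      LocallyL2 m (fun x => |χ x| * weakGradient m f x + |f x| * weakGradient m χ x) := by
  have hχS : LocalSobolev m χ := Lip.tp_localSobolev_of_lipOnBdd hfin hχ
  have hχm := Basic.tp_aestronglyMeasurable hχS.1
  have hfm := Basic.tp_aestronglyMeasurable hf.1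
  have hbχ : tp_LocBdd m χ := Lip.tp_locBdd_of_lipOnBdd m hχ
  have hbχ' : tp_LocBdd m (fun x => |χ x|) := fun o R => by
    obtain ⟨B, hB⟩ := hbχ o R
    exact ⟨B, by simpa only [abs_abs] using hB⟩
  have hχm' : AEStronglyMeasurable (fun x => |χ x|) m := hχm.norm
  have hDm : AEStronglyMeasurable (weakGradient m χ) m :=
    Basic.tp_aestronglyMeasurable (Basic.tp_weakGradient_locallyL2 m χ)
  have hbD : tp_LocBdd m (weakGradient m χ) := fun o R => by
    obtain ⟨L, hL⟩ := hχ o R
    refine ⟨L, ?_⟩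
    filter_upwards [Lip.tp_weakGradient_le_of_lipschitzOn hfin hχ Metric.isOpen_ball hL,
      Basic.tp_weakGradient_nonneg m χ] with x hx h0 hxb
    rw [abs_of_nonneg h0]
    exact hx hxb
  have habs : LocallyL2 m (fun x => |f x|) :=
    Basic.tp_locallyL2_of_abs_le hf.1 hfm.norm (Eventually.of_forall fun x => by simp)
  have h2 : LocallyL2 m (fun x => |f x| * weakGradient m χ x) := by
    have := Basic.tp_locallyL2_mul_of_locBdd hDm hbD habs
    simpa only [mul_comm] using this
  exact ⟨Basic.tp_locallyL2_mul_of_locBdd hχm hbχ hf.1,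
    Basic.tp_locallyL2_add
      (Basic.tp_locallyL2_mul_of_locBdd hχm' hbχ' (Basic.tp_weakGradient_locallyL2 m f)) h2⟩

/-- Leibniz inequality (auxiliary copy placed before the cut-off lemma) -/
theorem tp_localSobolev_lip_mul_aux (hfin : FiniteOnBoundedSets m) (hf : LocalSobolev m f) (hχ : tp_LipOnBdd χ) :
    LocalSobolev m (fun x => χ x * f x) ∧
      ∀ᵐ x ∂m, weakGradient m (fun x => χ x * f x) x ≤
        |χ x| * weakGradient m f x + |f x| * weakGradient m χ x := by
  have hχS : LocalSobolev m χ := Lip.tp_localSobolev_of_lipOnBdd hfin hχ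
  obtain ⟨h1, h2⟩ := tp_lip_mul_locallyL2 hfin hf hχ
  exact ⟨Grad.tp_localSobolev_mul hfin hχS hf h1 h2, Grad.tp_weakGradient_mul_le hχS hf h2⟩

/-- a locally `L²` function vanishing a.e. outside a ball is `L²` -/
theorem tp_memLp_of_locallyL2_of_ae_zero {F : X → ℝ} (hF : LocallyL2 m F) {o : X} {R : ℝ} (hR : 0 < R)
    (h0 : ∀ᵐ x ∂m, x ∉ Metric.ball o R → F x = 0) : MemLp F 2 m := by
  have h1 : MemLp ((Metric.ball o R).indicator F) 2 m :=
    (memLp_indicator_iff_restrict measurableSet_ball).2 (hF o R hR)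
  refine h1.ae_eq ?_
  filter_upwards [h0] with x hx
  by_cases hxb : x ∈ Metric.ball o R
  · rw [indicator_of_mem hxb]
  · rw [indicator_of_notMem hxb, hx hxb]

/-- **TP6** cut-off of a `LocalSobolev` function (no boundedness of `f` is needed) -/
theorem tp_sobolev_cutoff (hfin : FiniteOnBoundedSets m) (hf : LocalSobolev m f) (hχ : GloballyLipschitz χ)
    (hs : tp_BddSupp χ) : Sobolev m (fun x => χ x * f x) := by
  obtain ⟨L, hL⟩ := hχ
  have hχ' : tp_LipOnBdd χ := Lip.tp_lipOnBdd_of_lipschitz hL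
  have hχS : LocalSobolev m χ := Lip.tp_localSobolev_of_lipOnBdd hfin hχ'
  obtain ⟨h1, h2⟩ := tp_lip_mul_locallyL2 hfin hf hχ'
  obtain ⟨hS, hle⟩ := tp_localSobolev_lip_mul_aux hfin hf hχ'
  rcases isEmpty_or_nonempty X with hX | ⟨⟨o⟩⟩
  · have hm : m = 0 := Measure.eq_zero_of_isEmpty m
    refine tp_sobolev_of_le (G := fun _ => 0) ?_ hS ?_ ?_
    · rw [hm]; exact memLp_measure_zero
    · exact MemLp.zero
    · exact Eventually.of_forall fun x => (hX.false x).elim
  obtain ⟨R, hR, hsub⟩ := hs.subset_ball_lt 0 o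
  have hz : ∀ x, x ∉ Metric.ball o R → χ x = 0 := fun x hx => by
    by_contra hne
    exact hx (hsub hne)
  refine tp_sobolev_of_le (tp_memLp_of_locallyL2_of_ae_zero (o := o) h1 hR ?_) hS
    (tp_memLp_of_locallyL2_of_ae_zero (o := o) h2 hR ?_) hle
  · exact Eventually.of_forall fun x hx => by rw [hz x hx, zero_mul]
  · filter_upwards [Grad.tp_weakGradient_null hχS (N := {0}) (by simp)] with x hx hxb
    rw [hz x hxb, hx (by rw [hz x hxb]; rfl)]
    simp

/-- Leibniz inequality for (bounded on balls, Lipschitz on balls) × `LocalSobolev` -/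
theorem tp_localSobolev_lip_mul (hfin : FiniteOnBoundedSets m) (hf : LocalSobolev m f) (hχ : tp_LipOnBdd χ) :
    LocalSobolev m (fun x => χ x * f x) ∧
      ∀ᵐ x ∂m, weakGradient m (fun x => χ x * f x) x ≤
        |χ x| * weakGradient m f x + |f x| * weakGradient m χ x :=
  tp_localSobolev_lip_mul_aux hfin hf hχ

theorem tp_sobolev_lipB_mul (hfin : FiniteOnBoundedSets m) (hf : Sobolev m f) (hχ : LipB χ) :
    Sobolev m (fun x => χ x * f x) := by
  obtain ⟨⟨L, hL⟩, ⟨B, hB⟩⟩ := hχ
  have hχm : AEStronglyMeasurable χ m := hL.continuous.aestronglyMeasurable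
  have hfm : AEStronglyMeasurable f m := hf.1.aestronglyMeasurable
  have h1 : MemLp (fun x => χ x * f x) 2 m := by
    refine (hf.1.const_mul B).mono (hχm.mul hfm) (Eventually.of_forall fun x => ?_)
    rw [Real.norm_eq_abs, Real.norm_eq_abs, abs_mul, abs_mul]
    exact mul_le_mul_of_nonneg_right ((hB x).trans (le_abs_self B)) (abs_nonneg _)
  obtain ⟨h2, h3⟩ := tp_localSobolev_lip_mul hfin hf.2.1 (Lip.tp_lipOnBdd_of_lipschitz hL)
  have h4 := Lip.tp_weakGradient_le_of_lipschitz hfin hL
  have hG : MemLp (fun x => B * weakGradient m f x + (L : ℝ) * ‖f x‖) 2 m :=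
    (hf.2.2.const_mul B).add (hf.1.norm.const_mul (L : ℝ))
  refine tp_sobolev_of_le h1 h2 hG ?_
  filter_upwards [h3, h4, Basic.tp_weakGradient_nonneg m f] with x hx3 hx4 hx5
  refine hx3.trans ?_
  have e1 := mul_le_mul_of_nonneg_right (hB x) hx5
  have e2 := mul_le_mul_of_nonneg_left hx4 (abs_nonneg (f x))
  rw [Real.norm_eq_abs, mul_comm (L : ℝ) |f x|]
  exact add_le_add e1 e2

/-- `W^{1,2} ∩ L^∞` is an algebra -/
theorem tp_sobolev_mul (hfin : FiniteOnBoundedSets m) (hf : Sobolev m f) (hg : Sobolev m g) {B B' : ℝ}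
    (hbf : AEBdd m f B) (hbg : AEBdd m g B') : Sobolev m (fun x => f x * g x) := by
  have hlf : tp_LocBdd m f := fun _ _ => ⟨B, hbf.mono fun _ hx _ => hx⟩
  have hlg : tp_LocBdd m g := fun _ _ => ⟨B', hbg.mono fun _ hx _ => hx⟩
  have h1 : MemLp (fun x => f x * g x) 2 m := by
    refine (hg.1.const_mul B).mono (hf.1.aestronglyMeasurable.mul hg.1.aestronglyMeasurable) ?_
    filter_upwards [hbf] with x hx
    rw [Real.norm_eq_abs, Real.norm_eq_abs, abs_mul, abs_mul]
    exact mul_le_mul_of_nonneg_right (hx.trans (le_abs_self B)) (abs_nonneg _)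
  have h2 := Grad.tp_localSobolev_mul_of_locBdd hfin hf.2.1 hg.2.1 hlf hlg
  have h3 := Grad.tp_weakGradient_mul_le_of_locBdd hf.2.1 hg.2.1 hlf hlg
  have hG : MemLp (fun x => B * weakGradient m g x + B' * weakGradient m f x) 2 m :=
    (hg.2.2.const_mul B).add (hf.2.2.const_mul B')
  refine tp_sobolev_of_le h1 h2 hG ?_
  filter_upwards [h3, hbf, hbg, Basic.tp_weakGradient_nonneg m f, Basic.tp_weakGradient_nonneg m g]
    with x hx3 hxf hxg h5 h6
  refine hx3.trans ?_
  exact add_le_add (mul_le_mul_of_nonneg_right hxf h6) (mul_le_mul_of_nonneg_right hxg h5)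

end Claimed.Agent.R210.TP.Cut
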