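/-
Row 210 (S0432), layer TP, architect helper661.
TP8: removal of the hypothesis `BoundedTracks` from all statements which hold for a.e. curve
(every curve is bounded; restrict the plan to the closed set of the curves contained in `closedBall o n` and normalise).
-/
import Claimed.Agent.R210.TP.Curve

set_option autoImplicit false
set_option linter.unusedSectionVars false

open Claims.C0366 Claims.C0366.WeakHessian
open Claimed.Agent.R210.TP.Defs
open Claimed.Agent.R210.CU.Defs Claimed.Agent.R210.CU.IfcBasic Claimed.Agent.R210.CU.Ifc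
open Set Filter MeasureTheory
open scoped ENNReal NNReal Topology

namespace Claimed.Agent.R210.TP.Unb

variable {X : Type*} [MetricSpace X] [MeasurableSpace X] [BorelSpace X] [CompleteSpace X]
  [TopologicalSpace.SeparableSpace X] {m : Measure X} {π : Measure (Curve X)} {f D : X → ℝ}

theorem tp_isClosed_inBall (o : X) (r : ℝ) : IsClosed (tp_inBall o r : Set (Curve X)) := by
  have : (tp_inBall o r : Set (Curve X)) = ⋂ t : Time, {γ | dist (γ t) o ≤ r} := by
    ext γ; simp [tp_inBall]
  rw [this]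
  exact isClosed_iInter fun t =>
    isClosed_le ((cu_continuous_eval_time t).dist continuous_const) continuous_const

theorem tp_measurableSet_inBall (o : X) (r : ℝ) : MeasurableSet (tp_inBall o r : Set (Curve X)) :=
  (tp_isClosed_inBall o r).measurableSet

theorem tp_exists_inBall (o : X) (γ : Curve X) : ∃ n : ℕ, γ ∈ tp_inBall o ((n : ℝ) + 1) := by
  have hc : IsCompact (range γ) := isCompact_range γ.continuous
  obtain ⟨r, hr⟩ := hc.isBounded.subset_closedBall o
  obtain ⟨n, hn⟩ := exists_nat_gt r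
  refine ⟨n, fun t => ?_⟩
  have := hr (mem_range_self t)
  rw [Metric.mem_closedBall] at this
  linarith

/-- **TP8**: a property of curves which holds a.e. for every test plan with bounded tracks (absolutely continuous w.r.t. `π`)
holds a.e. for the test plan `π`. -/
theorem tp_ae_of_forall_boundedTracks (hπ : IsTestPlan m π) {P : Curve X → Prop}
    (h : ∀ π' : Measure (Curve X), IsTestPlan m π' → BoundedTracks π' → π' ≪ π → ∀ᵐ γ ∂π', P γ) :
    ∀ᵐ γ ∂π, P γ := by
  rcases isEmpty_or_nonempty X with hX | ⟨⟨o⟩⟩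
  · have : IsEmpty (Curve X) := ⟨fun γ => hX.elim (γ timeZero)⟩
    exact Eventually.of_forall fun γ => this.elim γ
  have key : ∀ n : ℕ, ∀ᵐ γ ∂π, γ ∈ tp_inBall o ((n : ℝ) + 1) → P γ := by
    intro n
    set Γ : Set (Curve X) := tp_inBall o ((n : ℝ) + 1) with hΓ
    have hΓm : MeasurableSet Γ := tp_measurableSet_inBall o _
    rw [← ae_restrict_iff' hΓm]
    by_cases h0 : π Γ = 0
    · rw [Measure.restrict_eq_zero.2 h0]; simp
    have hprob := hπ.1
    have htop : π Γ ≠ ∞ := measure_ne_top π Γ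
    have hc0 : (π Γ)⁻¹ ≠ 0 := ENNReal.inv_ne_zero.2 htop
    have h1 : IsTestPlan m ((π Γ)⁻¹ • π.restrict Γ) := Need.tp_testPlan_normalize hπ h0
    have h2 : BoundedTracks ((π Γ)⁻¹ • π.restrict Γ) := by
      refine ⟨o, (n : ℝ) + 1, by positivity, ?_⟩
      rw [Measure.ae_ennreal_smul_measure_iff hc0]
      exact ae_restrict_mem hΓm
    have h3 : ((π Γ)⁻¹ • π.restrict Γ) ≪ π :=
      (Measure.AbsolutelyContinuous.rfl.smul_left _).trans Measure.absolutelyContinuous_restrict
    have := h _ h1 h2 h3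
    rwa [Measure.ae_ennreal_smul_measure_iff hc0] at this
  filter_upwards [ae_all_iff.2 key] with γ hγ
  obtain ⟨n, hn⟩ := tp_exists_inBall o γ
  exact hγ n hn

/-- TP1 without `BoundedTracks` -/
theorem tp_sobAlong_all (hf : AEMeasurable f m) (h : IsLocalWeakUpperGradient m f D) (hπ : IsTestPlan m π) :
    ∀ᵐ γ ∂π, tp_SobAlong f D γ :=
  tp_ae_of_forall_boundedTracks hπ fun _ h1 h2 _ => Curve.tp_sobAlong hf h h1 h2

/-- TP1 (complement) without `BoundedTracks` -/
theorem tp_rep_eval_all (hf : AEMeasurable f m) (h : IsLocalWeakUpperGradient m f D) (hπ : IsTestPlan m π)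
    {t : ℝ} (ht : t ∈ Icc (0 : ℝ) 1) : ∀ᵐ γ ∂π, ∀ g, tp_Rep f D γ g → g t = f (evalReal γ t) :=
  tp_ae_of_forall_boundedTracks hπ fun _ h1 h2 _ => Curve.tp_rep_eval hf h h1 h2 ht

/-- **TP7** without `BoundedTracks`, a.e. curve -/
theorem tp_interval_ae_all (hf : AEMeasurable f m) (h : IsLocalWeakUpperGradient m f D) (hπ : IsTestPlan m π)
    {s t : ℝ} (hs : 0 ≤ s) (hst : s ≤ t) (ht : t ≤ 1) :
    ∀ᵐ γ ∂π, ENNReal.ofReal |f (evalReal γ t) - f (evalReal γ s)| ≤ ∫⁻ r in Icc s t, tp_wt D γ r :=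
  tp_ae_of_forall_boundedTracks hπ fun _ h1 h2 _ => Curve.tp_interval_ae hf h h1 h2 hs hst ht

/-- **TP7** without `BoundedTracks`, integrated -/
theorem tp_interval_all (hf : AEMeasurable f m) (h : IsLocalWeakUpperGradient m f D) (hπ : IsTestPlan m π)
    {s t : ℝ} (hs : 0 ≤ s) (hst : s ≤ t) (ht : t ≤ 1) :
    (∫⁻ γ, ENNReal.ofReal |f (evalReal γ t) - f (evalReal γ s)| ∂π) ≤
      ∫⁻ γ, ∫⁻ r in Icc s t, tp_wt D γ r ∂volume ∂π :=
  lintegral_mono_ae (tp_interval_ae_all hf h hπ hs hst ht)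

end Claimed.Agent.R210.TP.Unb
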