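/-
Row 210 (S0432), layer TP (Sobolev calculus for the frozen test-plan notions), architect helper661.
INTERFACE: consumers import only this file (definitions: `TP/Defs.lean`).      GENERATED from the topic files; do not edit by hand.
Notation: wug = `IsLocalWeakUpperGradient`, |Df| = `weakGradient m f`, `hfin : FiniteOnBoundedSets m`.
 TP0 basics (measurability, congruence, spec of weakGradient)      section Basic
 TP1 Sobolev along a.e. curve, TP7 inequality on subintervals       section Curve   (tp_sobAlong, tp_rep_eval, tp_wug_of_sobAlong, tp_interval_ae, tp_interval, tp_wug_of_local)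
 TP2 lattice, minimal wug                                           section Min     (tp_wug_min, tp_wug_indicator, tp_exists_minimal, tp_localSobolev_of_wug, tp_sobolev_of_wug)
 TP3 calculus for wugs / for weakGradient                           sections Calc, Grad
 TP4 Lipschitz functions, slopes                                    section Lip
 TP5 stability                                                      section Stab    (tp_stability)
 TP6 the class Sobolev: truncation, cut-off, products               section Cut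
 facts on curves and plans (from CU)                                section Need
 TP8 the a.e.-curve statements WITHOUT BoundedTracks                 section Unb     (tp_ae_of_forall_boundedTracks, tp_sobAlong_all, tp_interval_ae_all, tp_interval_all)
-/
import Claimed.Agent.R210.TP.Cut
import Claimed.Agent.R210.TP.Unb

set_option autoImplicit false
set_option linter.unusedSectionVars false

open Claims.C0366 Claims.C0366.WeakHessian
open Claimed.Agent.R210.Defs Claimed.Agent.R210.TP.Defs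
open Claimed.Agent.R210.TP
open Set Filter MeasureTheory
open scoped ENNReal NNReal Topology

namespace Claimed.Agent.R210.TP.Ifc


section NeedX

variable {X : Type*} [MetricSpace X] [MeasurableSpace X] [BorelSpace X] [CompleteSpace X]
  [TopologicalSpace.SeparableSpace X]

theorem tp_evalReal_zero (γ : Curve X) : evalReal γ 0 = γ timeZero :=
  Need.tp_evalReal_zero γ

theorem tp_evalReal_one (γ : Curve X) : evalReal γ 1 = γ timeOne :=
  Need.tp_evalReal_one γ

theorem tp_evalReal_coe (γ : Curve X) (t : Time) : evalReal γ (t : ℝ) = γ t :=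
  Need.tp_evalReal_coe γ t

/-- CU1 -/
theorem tp_measurable_eval (t : Time) : Measurable (fun γ : Curve X => γ t) :=
  Need.tp_measurable_eval t

theorem tp_measurable_evalReal_time (t : ℝ) : Measurable (fun γ : Curve X => evalReal γ t) :=
  Need.tp_measurable_evalReal_time t

/-- CU1: joint measurability of the evaluation (product sigma-algebra). -/
theorem tp_measurable_evalReal : Measurable (fun p : Curve X × ℝ => evalReal p.1 p.2) :=
  Need.tp_measurable_evalReal

/-- CU2: joint measurability of the metric speed (product sigma-algebra). -/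
theorem tp_measurable_metricSpeed : Measurable (fun p : Curve X × ℝ => metricSpeed p.1 p.2) :=
  Need.tp_measurable_metricSpeed

/-- CU6: normalised restriction of a test plan. -/
theorem tp_testPlan_normalize {m : Measure X} {π : Measure (Curve X)} (hπ : IsTestPlan m π)
    {Γ : Set (Curve X)} (h0 : π Γ ≠ 0) : IsTestPlan m ((π Γ)⁻¹ • π.restrict Γ) :=
  Need.tp_testPlan_normalize hπ h0

/-- CU6 -/
theorem tp_boundedTracks_normalize {π : Measure (Curve X)} (hπ : BoundedTracks π)
    (Γ : Set (Curve X)) : BoundedTracks ((π Γ)⁻¹ • π.restrict Γ) :=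
  Need.tp_boundedTracks_normalize hπ Γ

/-- CU7: an `m`-a.e. property holds at `γ_t`, for every fixed `t`, for a.e. curve. -/
theorem tp_ae_eval {m : Measure X} {π : Measure (Curve X)} (hπ : IsTestPlan m π) {P : X → Prop}
    (hP : ∀ᵐ x ∂m, P x) (t : ℝ) : ∀ᵐ γ ∂π, P (evalReal γ t) :=
  Need.tp_ae_eval hπ hP t

/-- CU7: an `m`-a.e. property holds at `γ_t` for a.e. `t ∈ [0,1]`, for a.e. curve. -/
theorem tp_ae_ae_eval {m : Measure X} {π : Measure (Curve X)} (hπ : IsTestPlan m π) {P : X → Prop}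
    (hP : ∀ᵐ x ∂m, P x) : ∀ᵐ γ ∂π, ∀ᵐ t ∂(volume.restrict (Icc (0 : ℝ) 1)), P (evalReal γ t) :=
  Need.tp_ae_ae_eval hπ hP

/-- a.e. curve of a plan with bounded tracks stays in a ball -/
theorem tp_tracks_evalReal {π : Measure (Curve X)} (hπ : BoundedTracks π) :
    ∃ o : X, ∃ R : ℝ, 0 < R ∧ ∀ᵐ γ ∂π, ∀ t : ℝ, evalReal γ t ∈ Metric.ball o R :=
  Need.tp_tracks_evalReal hπ

/-- a.e. curve of a test plan has finite energy -/
theorem tp_ae_energy_lt_top {m : Measure X} {π : Measure (Curve X)} (hπ : IsTestPlan m π) :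
    ∀ᵐ γ ∂π, (∫⁻ t in Icc (0 : ℝ) 1, (metricSpeed γ t) ^ 2) < ∞ :=
  Need.tp_ae_energy_lt_top hπ

/-- a.e. curve of a test plan has a.e. finite speed -/
theorem tp_ae_speed_lt_top {m : Measure X} {π : Measure (Curve X)} (hπ : IsTestPlan m π) :
    ∀ᵐ γ ∂π, ∀ᵐ t ∂(volume.restrict (Icc (0 : ℝ) 1)), metricSpeed γ t < ∞ :=
  Need.tp_ae_speed_lt_top hπ

/-- CU7 (quantitative form, used for stability): there are a ball and a constant, depending only on `π`, with
`∫∫ |D|(γ_t)·speed dt dπ ≤ C ‖D‖_{L²(ball)}`. -/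
theorem tp_lintegral_wt_le {m : Measure X} {π : Measure (Curve X)} (hπ : IsTestPlan m π)
    (hb : BoundedTracks π) :
    ∃ o : X, ∃ R : ℝ, ∃ C : ℝ≥0, ∀ D : X → ℝ, LocallyL2 m D →
      (∫⁻ γ, ∫⁻ t in Icc (0 : ℝ) 1, ENNReal.ofReal |D (evalReal γ t)| * metricSpeed γ t ∂volume ∂π) ≤
        C * eLpNorm D 2 (m.restrict (Metric.ball o R)) :=
  Need.tp_lintegral_wt_le hπ hb

/-- compression at a fixed time, quantitative: `∫ |f|(γ_t) dπ ≤ C ‖f‖_{L²(ball)}`. -/
theorem tp_lintegral_eval_le {m : Measure X} {π : Measure (Curve X)} (hπ : IsTestPlan m π)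
    (hb : BoundedTracks π) :
    ∃ o : X, ∃ R : ℝ, ∃ C : ℝ≥0, ∀ f : X → ℝ, LocallyL2 m f → ∀ t : ℝ,
      (∫⁻ γ, ENNReal.ofReal |f (evalReal γ t)| ∂π) ≤ C * eLpNorm f 2 (m.restrict (Metric.ball o R)) :=
  Need.tp_lintegral_eval_le hπ hb

end NeedX


section BasicX

variable {X : Type*} [MetricSpace X] [MeasurableSpace X] [BorelSpace X] [CompleteSpace X]
  [TopologicalSpace.SeparableSpace X] {m : Measure X} {f f' g D D' : X → ℝ}

/-! ### `LocallyL2` -/

theorem tp_aestronglyMeasurable (hf : LocallyL2 m f) : AEStronglyMeasurable f m :=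
  Basic.tp_aestronglyMeasurable hf

theorem tp_aemeasurable (hf : LocallyL2 m f) : AEMeasurable f m :=
  Basic.tp_aemeasurable hf

theorem tp_locallyL2_congr (h : f =ᵐ[m] f') (hf : LocallyL2 m f) : LocallyL2 m f' :=
  Basic.tp_locallyL2_congr h hf

theorem tp_locallyL2_of_memLp (hf : MemLp f 2 m) : LocallyL2 m f :=
  Basic.tp_locallyL2_of_memLp hf

theorem tp_locallyL2_zero : LocallyL2 m (fun _ : X => (0 : ℝ)) :=
  Basic.tp_locallyL2_zero

theorem tp_locallyL2_add (hf : LocallyL2 m f) (hg : LocallyL2 m g) : LocallyL2 m (fun x => f x + g x) :=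
  Basic.tp_locallyL2_add hf hg

theorem tp_locallyL2_sub (hf : LocallyL2 m f) (hg : LocallyL2 m g) : LocallyL2 m (fun x => f x - g x) :=
  Basic.tp_locallyL2_sub hf hg

theorem tp_locallyL2_const_mul (c : ℝ) (hf : LocallyL2 m f) : LocallyL2 m (fun x => c * f x) :=
  Basic.tp_locallyL2_const_mul c hf

/-- domination -/
theorem tp_locallyL2_of_abs_le (hg : LocallyL2 m g) (hf : AEStronglyMeasurable f m)
    (h : ∀ᵐ x ∂m, |f x| ≤ |g x|) : LocallyL2 m f :=
  Basic.tp_locallyL2_of_abs_le hg hf h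

/-- bounded on balls and a.e. measurable, `m` finite on bounded sets -/
theorem tp_locallyL2_of_locBdd (hfin : FiniteOnBoundedSets m) (hf : AEStronglyMeasurable f m)
    (hb : tp_LocBdd m f) : LocallyL2 m f :=
  Basic.tp_locallyL2_of_locBdd hfin hf hb

/-- (locally bounded) × (locally `L²`) -/
theorem tp_locallyL2_mul_of_locBdd (hf : AEStronglyMeasurable f m) (hb : tp_LocBdd m f)
    (hg : LocallyL2 m g) : LocallyL2 m (fun x => f x * g x) :=
  Basic.tp_locallyL2_mul_of_locBdd hf hb hg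

theorem tp_sigmaFinite (hfin : FiniteOnBoundedSets m) : SigmaFinite m :=
  Basic.tp_sigmaFinite hfin

/-- a property which holds a.e. on every ball holds a.e. -/
theorem tp_ae_of_ae_ball {P : X → Prop} (h : ∀ o : X, ∀ R : ℝ, ∀ᵐ x ∂m, x ∈ Metric.ball o R → P x) :
    ∀ᵐ x ∂m, P x :=
  Basic.tp_ae_of_ae_ball h

/-! ### weak upper gradients: congruence and monotonicity -/

theorem tp_wug_congr (hf : f =ᵐ[m] f') (hD : D =ᵐ[m] D') (h : IsLocalWeakUpperGradient m f D) :
    IsLocalWeakUpperGradient m f' D' :=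
  Basic.tp_wug_congr hf hD h

theorem tp_wug_mono (h : IsLocalWeakUpperGradient m f D) (hD' : LocallyL2 m D') (hle : ∀ᵐ x ∂m, D x ≤ D' x) :
    IsLocalWeakUpperGradient m f D' :=
  Basic.tp_wug_mono h hD' hle

theorem tp_minimal_congr (hf : f =ᵐ[m] f') (hD : D =ᵐ[m] D') (h : IsMinimalLocalWeakUpperGradient m f D) :
    IsMinimalLocalWeakUpperGradient m f' D' :=
  Basic.tp_minimal_congr hf hD h

/-- two minimal wugs agree a.e. -/
theorem tp_minimal_unique (h : IsMinimalLocalWeakUpperGradient m f D)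
    (h' : IsMinimalLocalWeakUpperGradient m f D') : D =ᵐ[m] D' :=
  Basic.tp_minimal_unique h h'

/-! ### `weakGradient` -/

/-- equality of FUNCTIONS -/
theorem tp_weakGradient_congr (h : f =ᵐ[m] f') : weakGradient m f = weakGradient m f' :=
  Basic.tp_weakGradient_congr h

theorem tp_weakGradient_minimal (hf : LocalSobolev m f) :
    IsMinimalLocalWeakUpperGradient m f (weakGradient m f) :=
  Basic.tp_weakGradient_minimal hf

theorem tp_weakGradient_wug (hf : LocalSobolev m f) : IsLocalWeakUpperGradient m f (weakGradient m f) :=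
  Basic.tp_weakGradient_wug hf

/-- unconditional -/
theorem tp_weakGradient_nonneg (m : Measure X) (f : X → ℝ) : ∀ᵐ x ∂m, 0 ≤ weakGradient m f x :=
  Basic.tp_weakGradient_nonneg m f

/-- unconditional -/
theorem tp_weakGradient_locallyL2 (m : Measure X) (f : X → ℝ) : LocallyL2 m (weakGradient m f) :=
  Basic.tp_weakGradient_locallyL2 m f

/-- unconditional -/
theorem tp_weakGradient_le (h : IsLocalWeakUpperGradient m f D) : ∀ᵐ x ∂m, weakGradient m f x ≤ D x :=
  Basic.tp_weakGradient_le h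

theorem tp_weakGradient_eq_of_minimal (h : IsMinimalLocalWeakUpperGradient m f D) :
    weakGradient m f =ᵐ[m] D :=
  Basic.tp_weakGradient_eq_of_minimal h

theorem tp_localSobolev_congr (h : f =ᵐ[m] f') (hf : LocalSobolev m f) : LocalSobolev m f' :=
  Basic.tp_localSobolev_congr h hf

theorem tp_sobolev_congr (h : f =ᵐ[m] f') (hf : Sobolev m f) : Sobolev m f' :=
  Basic.tp_sobolev_congr h hf

end BasicX


section CurveX

variable {X : Type*} [MetricSpace X] [MeasurableSpace X] [BorelSpace X] [CompleteSpace X]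
  [TopologicalSpace.SeparableSpace X] {m : Measure X} {π : Measure (Curve X)} {f f' D D' : X → ℝ}

/-! ### measurability and finiteness of the weight -/

theorem tp_measurable_wt (hD : Measurable D) : Measurable (fun p : Curve X × ℝ => tp_wt D p.1 p.2) :=
  Curve.tp_measurable_wt hD

/-- the three a.e. statements which are used in every curvewise argument -/
theorem tp_ae_curve (hπ : IsTestPlan m π) {P : X → Prop} (hP : ∀ᵐ x ∂m, P x) :
    ∀ᵐ γ ∂π, (∀ᵐ t ∂(volume.restrict (Icc (0 : ℝ) 1)), P (evalReal γ t)) ∧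
      P (evalReal γ 0) ∧ P (evalReal γ 1) :=
  Curve.tp_ae_curve hπ hP

theorem tp_wt_congr_ae (hπ : IsTestPlan m π) (hD : D =ᵐ[m] D') :
    ∀ᵐ γ ∂π, ∀ᵐ t ∂(volume.restrict (Icc (0 : ℝ) 1)), tp_wt D γ t = tp_wt D' γ t :=
  Curve.tp_wt_congr_ae hπ hD

theorem tp_lintegral_wt_lt_top (hπ : IsTestPlan m π) (hb : BoundedTracks π) (hD : LocallyL2 m D) :
    (∫⁻ γ, ∫⁻ t in Icc (0 : ℝ) 1, tp_wt D γ t ∂volume ∂π) < ∞ :=
  Curve.tp_lintegral_wt_lt_top hπ hb hD

theorem tp_ae_lintegral_wt_lt_top (hπ : IsTestPlan m π) (hb : BoundedTracks π) (hD : LocallyL2 m D) :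
    ∀ᵐ γ ∂π, (∫⁻ t in Icc (0 : ℝ) 1, tp_wt D γ t) < ∞ :=
  Curve.tp_ae_lintegral_wt_lt_top hπ hb hD

/-! ### the inequality on subintervals, Borel data -/

/-! ### general data -/

/-- changing `f` and `D` on `m`-null sets does not change the representatives, for a.e. curve -/
theorem tp_rep_congr_ae (hπ : IsTestPlan m π) (hf : f =ᵐ[m] f') (hD : D =ᵐ[m] D') :
    ∀ᵐ γ ∂π, ∀ g, tp_Rep f D γ g → tp_Rep f' D' γ g :=
  Curve.tp_rep_congr_ae hπ hf hD

/-- enlarging `D` -/
theorem tp_rep_mono_ae (hπ : IsTestPlan m π) (hD : ∀ᵐ x ∂m, D x ≤ D' x) :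
    ∀ᵐ γ ∂π, ∀ g, tp_Rep f D γ g → tp_Rep f D' γ g :=
  Curve.tp_rep_mono_ae hπ hD

/-- **TP1, direct part** -/
theorem tp_sobAlong (hf : AEMeasurable f m) (h : IsLocalWeakUpperGradient m f D)
    (hπ : IsTestPlan m π) (hb : BoundedTracks π) : ∀ᵐ γ ∂π, tp_SobAlong f D γ :=
  Curve.tp_sobAlong hf h hπ hb

/-- TP1, complement: the representative takes the right value at every fixed time, for a.e. curve -/
theorem tp_rep_eval (hf : AEMeasurable f m) (h : IsLocalWeakUpperGradient m f D)
    (hπ : IsTestPlan m π) (hb : BoundedTracks π) {t : ℝ} (ht : t ∈ Icc (0 : ℝ) 1) :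
    ∀ᵐ γ ∂π, ∀ g, tp_Rep f D γ g → g t = f (evalReal γ t) :=
  Curve.tp_rep_eval hf h hπ hb ht

/-- **TP1, converse part** -/
theorem tp_wug_of_sobAlong (hD : LocallyL2 m D) (hD0 : ∀ᵐ x ∂m, 0 ≤ D x)
    (h : ∀ π : Measure (Curve X), IsTestPlan m π → BoundedTracks π → ∀ᵐ γ ∂π, tp_SobAlong f D γ) :
    IsLocalWeakUpperGradient m f D :=
  Curve.tp_wug_of_sobAlong hD hD0 h

/-- **TP7**, a.e. curve -/
theorem tp_interval_ae (hf : AEMeasurable f m) (h : IsLocalWeakUpperGradient m f D)
    (hπ : IsTestPlan m π) (hb : BoundedTracks π) {s t : ℝ} (hs : 0 ≤ s) (hst : s ≤ t) (ht : t ≤ 1) :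
    ∀ᵐ γ ∂π, ENNReal.ofReal |f (evalReal γ t) - f (evalReal γ s)| ≤ ∫⁻ r in Icc s t, tp_wt D γ r :=
  Curve.tp_interval_ae hf h hπ hb hs hst ht

/-- **TP7**, integrated -/
theorem tp_interval (hf : AEMeasurable f m) (h : IsLocalWeakUpperGradient m f D)
    (hπ : IsTestPlan m π) (hb : BoundedTracks π) {s t : ℝ} (hs : 0 ≤ s) (hst : s ≤ t) (ht : t ≤ 1) :
    (∫⁻ γ, ENNReal.ofReal |f (evalReal γ t) - f (evalReal γ s)| ∂π) ≤
      ∫⁻ γ, ∫⁻ r in Icc s t, tp_wt D γ r ∂volume ∂π :=
  Curve.tp_interval hf h hπ hb hs hst ht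

/-- localisation: only the values of `f` and `D` on the ball containing the tracks matter -/
theorem tp_wug_of_local (hD : LocallyL2 m D) (hD0 : ∀ᵐ x ∂m, 0 ≤ D x)
    (h : ∀ o : X, ∀ R : ℝ, ∃ f₁ D₁ : X → ℝ, IsLocalWeakUpperGradient m f₁ D₁ ∧
      (∀ᵐ x ∂m, x ∈ Metric.ball o R → f x = f₁ x) ∧ (∀ᵐ x ∂m, x ∈ Metric.ball o R → D₁ x ≤ D x)) :
    IsLocalWeakUpperGradient m f D :=
  Curve.tp_wug_of_local hD hD0 h

end CurveX


section MinX

variable {X : Type*} [MetricSpace X] [MeasurableSpace X] [BorelSpace X] [CompleteSpace X]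
  [TopologicalSpace.SeparableSpace X] {m : Measure X} {f D D₁ D₂ : X → ℝ}

theorem tp_wug_min (hf : AEMeasurable f m) (h₁ : IsLocalWeakUpperGradient m f D₁)
    (h₂ : IsLocalWeakUpperGradient m f D₂) : IsLocalWeakUpperGradient m f (fun x => min (D₁ x) (D₂ x)) :=
  Min.tp_wug_min hf h₁ h₂

/-- **TP2** lattice property -/
theorem tp_wug_indicator (hf : AEMeasurable f m) (h₁ : IsLocalWeakUpperGradient m f D₁)
    (h₂ : IsLocalWeakUpperGradient m f D₂) {B : Set X} (hB : MeasurableSet B) :
    IsLocalWeakUpperGradient m f (fun x => B.indicator D₁ x + Bᶜ.indicator D₂ x) :=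
  Min.tp_wug_indicator hf h₁ h₂ hB

/-- **TP2** decreasing limits -/
theorem tp_wug_antitone_lim (hf : AEMeasurable f m) {Ds : ℕ → X → ℝ}
    (h : ∀ n, IsLocalWeakUpperGradient m f (Ds n)) (hanti : Antitone Ds) :
    IsLocalWeakUpperGradient m f (fun x => ⨅ n, Ds n x) ∧ ∀ n, ∀ᵐ x ∂m, (⨅ k, Ds k x) ≤ Ds n x :=
  Min.tp_wug_antitone_lim hf h hanti

/-- **TP2** existence of the minimal weak upper gradient -/
theorem tp_exists_minimal (hfin : FiniteOnBoundedSets m) (hf : AEMeasurable f m)
    (h : IsLocalWeakUpperGradient m f D) : ∃ D₀, IsMinimalLocalWeakUpperGradient m f D₀ :=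
  Min.tp_exists_minimal hfin hf h

theorem tp_localSobolev_of_wug (hfin : FiniteOnBoundedSets m) (hf : LocallyL2 m f)
    (h : IsLocalWeakUpperGradient m f D) : LocalSobolev m f :=
  Min.tp_localSobolev_of_wug hfin hf h

theorem tp_sobolev_of_wug (hfin : FiniteOnBoundedSets m) (hf : MemLp f 2 m)
    (h : IsLocalWeakUpperGradient m f D) (hD : MemLp D 2 m) : Sobolev m f :=
  Min.tp_sobolev_of_wug hfin hf h hD

end MinX


section CalcX

variable {X : Type*} [MetricSpace X] [MeasurableSpace X] [BorelSpace X] [CompleteSpace X]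
  [TopologicalSpace.SeparableSpace X] {m : Measure X} {f g D D' D₁ D₂ E : X → ℝ}

/-- the wug predicate only sees the increments of `f` -/
theorem tp_wug_iff_of_increments {f' : X → ℝ} (h : ∀ x y, |f' x - f' y| = |f x - f y|) :
    IsLocalWeakUpperGradient m f' D ↔ IsLocalWeakUpperGradient m f D :=
  Calc.tp_wug_iff_of_increments h

theorem tp_wug_const (m : Measure X) (c : ℝ) : IsLocalWeakUpperGradient m (fun _ => c) (fun _ => 0) :=
  Calc.tp_wug_const m c

theorem tp_wug_const_mul (c : ℝ) (h : IsLocalWeakUpperGradient m f D) :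
    IsLocalWeakUpperGradient m (fun x => c * f x) (fun x => |c| * D x) :=
  Calc.tp_wug_const_mul c h

theorem tp_wug_add (hf : AEMeasurable f m) (hg : AEMeasurable g m) (h₁ : IsLocalWeakUpperGradient m f D₁)
    (h₂ : IsLocalWeakUpperGradient m g D₂) :
    IsLocalWeakUpperGradient m (fun x => f x + g x) (fun x => D₁ x + D₂ x) :=
  Calc.tp_wug_add hf hg h₁ h₂

theorem tp_wug_mul (hf : AEMeasurable f m) (hg : AEMeasurable g m) (h₁ : IsLocalWeakUpperGradient m f D₁)
    (h₂ : IsLocalWeakUpperGradient m g D₂) (hL : LocallyL2 m (fun x => |f x| * D₂ x + |g x| * D₁ x)) :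
    IsLocalWeakUpperGradient m (fun x => f x * g x) (fun x => |f x| * D₂ x + |g x| * D₁ x) :=
  Calc.tp_wug_mul hf hg h₁ h₂ hL

theorem tp_wug_comp_lipschitz (hf : AEMeasurable f m) (h : IsLocalWeakUpperGradient m f D) {φ : ℝ → ℝ}
    {L : ℝ≥0} (hφ : LipschitzWith L φ) :
    IsLocalWeakUpperGradient m (fun x => φ (f x)) (fun x => |deriv φ (f x)| * D x) :=
  Calc.tp_wug_comp_lipschitz hf h hφ

/-- a wug may be replaced by `0` on `f⁻¹(N)`, `N` Lebesgue null -/
theorem tp_wug_null (hf : AEMeasurable f m) (h : IsLocalWeakUpperGradient m f D) {N : Set ℝ}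
    (hN : volume N = 0) (hE : LocallyL2 m E) (hE0 : ∀ᵐ x ∂m, 0 ≤ E x)
    (hle : ∀ᵐ x ∂m, f x ∉ N → D x ≤ E x) : IsLocalWeakUpperGradient m f E :=
  Calc.tp_wug_null hf h hN hE hE0 hle

/-- on `{f = g}` a wug of `f` may be replaced by a wug of `g` -/
theorem tp_wug_locality (hf : AEMeasurable f m) (hg : AEMeasurable g m)
    (h₁ : IsLocalWeakUpperGradient m f D₁) (h₂ : IsLocalWeakUpperGradient m g D₂)
    (hE : LocallyL2 m E) (hE0 : ∀ᵐ x ∂m, 0 ≤ E x)
    (hle : ∀ᵐ x ∂m, (f x = g x → D₂ x ≤ E x) ∧ (f x ≠ g x → D₁ x ≤ E x)) :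
    IsLocalWeakUpperGradient m f E :=
  Calc.tp_wug_locality hf hg h₁ h₂ hE hE0 hle

/-- reverse chain rule: where `φ'(f) ≠ 0` a wug `D'` of `φ ∘ f` gives the wug `D'/|φ'(f)|` of `f` -/
theorem tp_wug_inv_chain (hf : AEMeasurable f m) (h : IsLocalWeakUpperGradient m f D) {φ : ℝ → ℝ}
    {L : ℝ≥0} (hφ : LipschitzWith L φ) (h' : IsLocalWeakUpperGradient m (fun x => φ (f x)) D')
    (hE : LocallyL2 m E) (hE0 : ∀ᵐ x ∂m, 0 ≤ E x)
    (hle : ∀ᵐ x ∂m, D x ≤ E x ∨ (deriv φ (f x) ≠ 0 ∧ D' x ≤ |deriv φ (f x)| * E x)) :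
    IsLocalWeakUpperGradient m f E :=
  Calc.tp_wug_inv_chain hf h hφ h' hE hE0 hle

end CalcX


section GradX

variable {X : Type*} [MetricSpace X] [MeasurableSpace X] [BorelSpace X] [CompleteSpace X]
  [TopologicalSpace.SeparableSpace X] {m : Measure X} {f g : X → ℝ}

/-! ### linear structure -/

/-- equality of FUNCTIONS -/
theorem tp_weakGradient_of_increments {f' : X → ℝ} (h : ∀ x y, |f' x - f' y| = |f x - f y|) :
    weakGradient m f' = weakGradient m f :=
  Grad.tp_weakGradient_of_increments h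

/-- equality of FUNCTIONS, unconditional -/
theorem tp_weakGradient_neg (m : Measure X) (f : X → ℝ) :
    weakGradient m (fun x => -f x) = weakGradient m f :=
  Grad.tp_weakGradient_neg m f

/-- equality of FUNCTIONS, unconditional -/
theorem tp_weakGradient_add_const (m : Measure X) (f : X → ℝ) (c : ℝ) :
    weakGradient m (fun x => f x + c) = weakGradient m f :=
  Grad.tp_weakGradient_add_const m f c

/-- equality of FUNCTIONS, unconditional -/
theorem tp_weakGradient_sub_comm (m : Measure X) (f g : X → ℝ) :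
    weakGradient m (fun x => f x - g x) = weakGradient m (fun x => g x - f x) :=
  Grad.tp_weakGradient_sub_comm m f g

theorem tp_weakGradient_const (m : Measure X) (c : ℝ) : weakGradient m (fun _ : X => c) =ᵐ[m] 0 :=
  Grad.tp_weakGradient_const m c

theorem tp_localSobolev_const (hfin : FiniteOnBoundedSets m) (c : ℝ) : LocalSobolev m (fun _ : X => c) :=
  Grad.tp_localSobolev_const hfin c

/-- unconditional -/
theorem tp_weakGradient_const_mul (m : Measure X) (c : ℝ) (f : X → ℝ) :
    weakGradient m (fun x => c * f x) =ᵐ[m] fun x => |c| * weakGradient m f x :=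
  Grad.tp_weakGradient_const_mul m c f

theorem tp_localSobolev_const_mul (hfin : FiniteOnBoundedSets m) (c : ℝ) (hf : LocalSobolev m f) :
    LocalSobolev m (fun x => c * f x) :=
  Grad.tp_localSobolev_const_mul hfin c hf

theorem tp_localSobolev_neg (hfin : FiniteOnBoundedSets m) (hf : LocalSobolev m f) :
    LocalSobolev m (fun x => -f x) :=
  Grad.tp_localSobolev_neg hfin hf

theorem tp_localSobolev_add (hfin : FiniteOnBoundedSets m) (hf : LocalSobolev m f) (hg : LocalSobolev m g) :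
    LocalSobolev m (fun x => f x + g x) :=
  Grad.tp_localSobolev_add hfin hf hg

theorem tp_weakGradient_add_le (hf : LocalSobolev m f) (hg : LocalSobolev m g) :
    ∀ᵐ x ∂m, weakGradient m (fun x => f x + g x) x ≤ weakGradient m f x + weakGradient m g x :=
  Grad.tp_weakGradient_add_le hf hg

theorem tp_localSobolev_sub (hfin : FiniteOnBoundedSets m) (hf : LocalSobolev m f) (hg : LocalSobolev m g) :
    LocalSobolev m (fun x => f x - g x) :=
  Grad.tp_localSobolev_sub hfin hf hg

theorem tp_weakGradient_sub_le (hfin : FiniteOnBoundedSets m) (hf : LocalSobolev m f)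
    (hg : LocalSobolev m g) :
    ∀ᵐ x ∂m, weakGradient m (fun x => f x - g x) x ≤ weakGradient m f x + weakGradient m g x :=
  Grad.tp_weakGradient_sub_le hfin hf hg

theorem tp_localSobolev_add_const (hfin : FiniteOnBoundedSets m) (hf : LocalSobolev m f) (c : ℝ) :
    LocalSobolev m (fun x => f x + c) :=
  Grad.tp_localSobolev_add_const hfin hf c

/-- `| |Df| - |Dg| | ≤ |D(f-g)|` -/
theorem tp_abs_weakGradient_sub_le (hfin : FiniteOnBoundedSets m) (hf : LocalSobolev m f)
    (hg : LocalSobolev m g) :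
    ∀ᵐ x ∂m, |weakGradient m f x - weakGradient m g x| ≤ weakGradient m (fun x => f x - g x) x :=
  Grad.tp_abs_weakGradient_sub_le hfin hf hg

/-! ### locality -/

theorem tp_weakGradient_locality (hf : LocalSobolev m f) (hg : LocalSobolev m g) :
    ∀ᵐ x ∂m, f x = g x → weakGradient m f x = weakGradient m g x :=
  Grad.tp_weakGradient_locality hf hg

theorem tp_weakGradient_null (hf : LocalSobolev m f) {N : Set ℝ} (hN : volume N = 0) :
    ∀ᵐ x ∂m, f x ∈ N → weakGradient m f x = 0 :=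
  Grad.tp_weakGradient_null hf hN

/-- local-to-global: a function which coincides a.e. on every ball with a `LocalSobolev` function is `LocalSobolev` -/
theorem tp_localSobolev_of_local (hfin : FiniteOnBoundedSets m)
    (h : ∀ o : X, ∀ R : ℝ, ∃ f₁ : X → ℝ, LocalSobolev m f₁ ∧ ∀ᵐ x ∂m, x ∈ Metric.ball o R → f x = f₁ x) :
    LocalSobolev m f :=
  Grad.tp_localSobolev_of_local hfin h

/-! ### chain rule -/

theorem tp_localSobolev_comp_lipschitz (hfin : FiniteOnBoundedSets m) (hf : LocalSobolev m f) {φ : ℝ → ℝ}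
    {L : ℝ≥0} (hφ : LipschitzWith L φ) : LocalSobolev m (fun x => φ (f x)) :=
  Grad.tp_localSobolev_comp_lipschitz hfin hf hφ

/-- chain rule, `φ` Lipschitz; `deriv φ z = 0` by convention where `φ` is not differentiable -/
theorem tp_weakGradient_comp_lipschitz (hfin : FiniteOnBoundedSets m) (hf : LocalSobolev m f) {φ : ℝ → ℝ}
    {L : ℝ≥0} (hφ : LipschitzWith L φ) :
    weakGradient m (fun x => φ (f x)) =ᵐ[m] fun x => |deriv φ (f x)| * weakGradient m f x :=
  Grad.tp_weakGradient_comp_lipschitz hfin hf hφ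

/-- chain rule, local form: on every ball `f` takes a.e. its values in a compact interval on which `φ` is Lipschitz
(e.g. `φ ∈ C¹` and `f` locally bounded; `φ = log, sqrt` and `f` locally bounded and locally bounded away from `0`). -/
theorem tp_chain_local (hfin : FiniteOnBoundedSets m) (hf : LocalSobolev m f) {φ : ℝ → ℝ}
    (hφ : ∀ o : X, ∀ R : ℝ, ∃ a b : ℝ, ∃ L : ℝ≥0,
      (∀ᵐ x ∂m, x ∈ Metric.ball o R → f x ∈ Icc a b) ∧ LipschitzOnWith L φ (Icc a b)) :
    LocalSobolev m (fun x => φ (f x)) ∧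
      weakGradient m (fun x => φ (f x)) =ᵐ[m] fun x => |deriv φ (f x)| * weakGradient m f x :=
  Grad.tp_chain_local hfin hf hφ

/-- chain rule for `C¹` functions of locally bounded functions -/
theorem tp_chain_contDiff (hfin : FiniteOnBoundedSets m) (hf : LocalSobolev m f) (hb : tp_LocBdd m f)
    {φ : ℝ → ℝ} (hφ : ContDiff ℝ 1 φ) :
    LocalSobolev m (fun x => φ (f x)) ∧
      weakGradient m (fun x => φ (f x)) =ᵐ[m] fun x => |deriv φ (f x)| * weakGradient m f x :=
  Grad.tp_chain_contDiff hfin hf hb hφ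

/-! ### Leibniz rule -/

theorem tp_weakGradient_mul_le (hf : LocalSobolev m f) (hg : LocalSobolev m g)
    (hL : LocallyL2 m (fun x => |f x| * weakGradient m g x + |g x| * weakGradient m f x)) :
    ∀ᵐ x ∂m, weakGradient m (fun x => f x * g x) x ≤
      |f x| * weakGradient m g x + |g x| * weakGradient m f x :=
  Grad.tp_weakGradient_mul_le hf hg hL

theorem tp_localSobolev_mul (hfin : FiniteOnBoundedSets m) (hf : LocalSobolev m f) (hg : LocalSobolev m g)
    (hfg : LocallyL2 m (fun x => f x * g x))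
    (hL : LocallyL2 m (fun x => |f x| * weakGradient m g x + |g x| * weakGradient m f x)) :
    LocalSobolev m (fun x => f x * g x) :=
  Grad.tp_localSobolev_mul hfin hf hg hfg hL

/-- the integrability hypotheses of the Leibniz rule hold for locally bounded functions -/
theorem tp_leibniz_locallyL2 (hf : LocalSobolev m f) (hg : LocalSobolev m g) (hbf : tp_LocBdd m f)
    (hbg : tp_LocBdd m g) :
    LocallyL2 m (fun x => f x * g x) ∧
      LocallyL2 m (fun x => |f x| * weakGradient m g x + |g x| * weakGradient m f x) :=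
  Grad.tp_leibniz_locallyL2 hf hg hbf hbg

theorem tp_localSobolev_mul_of_locBdd (hfin : FiniteOnBoundedSets m) (hf : LocalSobolev m f)
    (hg : LocalSobolev m g) (hbf : tp_LocBdd m f) (hbg : tp_LocBdd m g) :
    LocalSobolev m (fun x => f x * g x) :=
  Grad.tp_localSobolev_mul_of_locBdd hfin hf hg hbf hbg

theorem tp_weakGradient_mul_le_of_locBdd (hf : LocalSobolev m f) (hg : LocalSobolev m g)
    (hbf : tp_LocBdd m f) (hbg : tp_LocBdd m g) :
    ∀ᵐ x ∂m, weakGradient m (fun x => f x * g x) x ≤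
      |f x| * weakGradient m g x + |g x| * weakGradient m f x :=
  Grad.tp_weakGradient_mul_le_of_locBdd hf hg hbf hbg

/-! ### lattice operations -/

theorem tp_localSobolev_posPart (hfin : FiniteOnBoundedSets m) (hf : LocalSobolev m f) :
    LocalSobolev m (fun x => max (f x) 0) :=
  Grad.tp_localSobolev_posPart hfin hf

theorem tp_weakGradient_posPart (hfin : FiniteOnBoundedSets m) (hf : LocalSobolev m f) :
    ∀ᵐ x ∂m, (0 < f x → weakGradient m (fun x => max (f x) 0) x = weakGradient m f x) ∧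
      (f x ≤ 0 → weakGradient m (fun x => max (f x) 0) x = 0) :=
  Grad.tp_weakGradient_posPart hfin hf

theorem tp_localSobolev_abs (hfin : FiniteOnBoundedSets m) (hf : LocalSobolev m f) :
    LocalSobolev m (fun x => |f x|) :=
  Grad.tp_localSobolev_abs hfin hf

theorem tp_weakGradient_abs (hfin : FiniteOnBoundedSets m) (hf : LocalSobolev m f) :
    weakGradient m (fun x => |f x|) =ᵐ[m] weakGradient m f :=
  Grad.tp_weakGradient_abs hfin hf

theorem tp_localSobolev_max (hfin : FiniteOnBoundedSets m) (hf : LocalSobolev m f) (hg : LocalSobolev m g) :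
    LocalSobolev m (fun x => max (f x) (g x)) :=
  Grad.tp_localSobolev_max hfin hf hg

theorem tp_localSobolev_min (hfin : FiniteOnBoundedSets m) (hf : LocalSobolev m f) (hg : LocalSobolev m g) :
    LocalSobolev m (fun x => min (f x) (g x)) :=
  Grad.tp_localSobolev_min hfin hf hg

theorem tp_weakGradient_max (hfin : FiniteOnBoundedSets m) (hf : LocalSobolev m f) (hg : LocalSobolev m g) :
    ∀ᵐ x ∂m, (g x ≤ f x → weakGradient m (fun x => max (f x) (g x)) x = weakGradient m f x) ∧
      (f x ≤ g x → weakGradient m (fun x => max (f x) (g x)) x = weakGradient m g x) :=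
  Grad.tp_weakGradient_max hfin hf hg

theorem tp_weakGradient_min (hfin : FiniteOnBoundedSets m) (hf : LocalSobolev m f) (hg : LocalSobolev m g) :
    ∀ᵐ x ∂m, (f x ≤ g x → weakGradient m (fun x => min (f x) (g x)) x = weakGradient m f x) ∧
      (g x ≤ f x → weakGradient m (fun x => min (f x) (g x)) x = weakGradient m g x) :=
  Grad.tp_weakGradient_min hfin hf hg

/-- truncation -/
theorem tp_localSobolev_clamp (hfin : FiniteOnBoundedSets m) (hf : LocalSobolev m f) (a b : ℝ) :
    LocalSobolev m (fun x => max a (min b (f x))) :=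
  Grad.tp_localSobolev_clamp hfin hf a b

theorem tp_weakGradient_clamp (hfin : FiniteOnBoundedSets m) (hf : LocalSobolev m f) {a b : ℝ} (hab : a ≤ b) :
    ∀ᵐ x ∂m, (f x ∈ Ioo a b → weakGradient m (fun x => max a (min b (f x))) x = weakGradient m f x) ∧
      (f x ∉ Ioo a b → weakGradient m (fun x => max a (min b (f x))) x = 0) :=
  Grad.tp_weakGradient_clamp hfin hf hab

theorem tp_weakGradient_clamp_le (hfin : FiniteOnBoundedSets m) (hf : LocalSobolev m f) (a b : ℝ) :
    ∀ᵐ x ∂m, weakGradient m (fun x => max a (min b (f x))) x ≤ weakGradient m f x :=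
  Grad.tp_weakGradient_clamp_le hfin hf a b

end GradX


section LipX

section slopes

variable {X : Type*} [MetricSpace X] {f : X → ℝ}

theorem tp_slopeDown_eq (f : X → ℝ) (x : X) : tp_slopeDown f x = tp_slopeUp (fun y => -f y) x :=
  Lip.tp_slopeDown_eq f x

theorem tp_localSlope_eq_max (f : X → ℝ) (x : X) :
    localSlope f x = max (tp_slopeUp f x) (tp_slopeDown f x) :=
  Lip.tp_localSlope_eq_max f x

theorem tp_slopeUp_le_localSlope (f : X → ℝ) (x : X) : tp_slopeUp f x ≤ localSlope f x :=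
  Lip.tp_slopeUp_le_localSlope f x

theorem tp_slopeDown_le_localSlope (f : X → ℝ) (x : X) : tp_slopeDown f x ≤ localSlope f x :=
  Lip.tp_slopeDown_le_localSlope f x

/-- the slope is bounded by the Lipschitz constant on a neighbourhood -/
theorem tp_localSlope_le_of_lipschitzOn {L : ℝ≥0} {U : Set X} (hf : LipschitzOnWith L f U) {x : X}
    (hx : U ∈ 𝓝 x) : localSlope f x ≤ L :=
  Lip.tp_localSlope_le_of_lipschitzOn hf hx

theorem tp_measurable_slopeUp [MeasurableSpace X] [BorelSpace X] (hf : Continuous f) :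
    Measurable (tp_slopeUp f) :=
  Lip.tp_measurable_slopeUp hf

theorem tp_measurable_slopeDown [MeasurableSpace X] [BorelSpace X] (hf : Continuous f) :
    Measurable (tp_slopeDown f) :=
  Lip.tp_measurable_slopeDown hf

theorem tp_measurable_localSlope [MeasurableSpace X] [BorelSpace X] (hf : Continuous f) :
    Measurable (localSlope f) :=
  Lip.tp_measurable_localSlope hf

theorem tp_continuous_of_lipOnBdd (hf : tp_LipOnBdd f) : Continuous f :=
  Lip.tp_continuous_of_lipOnBdd hf

theorem tp_lipOnBdd_of_lipschitz {L : ℝ≥0} (hf : LipschitzWith L f) : tp_LipOnBdd f :=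
  Lip.tp_lipOnBdd_of_lipschitz hf

/-- pointwise key inequality: at a differentiability point of `f ∘ γ` -/
theorem tp_deriv_le_slopeUp_mul_speed {γ : Curve X} {t : ℝ} (ht : t ∈ Ioo (0 : ℝ) 1)
    (hd : DifferentiableAt ℝ (fun r => f (evalReal γ r)) t) (hs : tp_slopeUp f (evalReal γ t) ≠ ∞)
    (hv : metricSpeed γ t ≠ ∞) :
    ENNReal.ofReal |deriv (fun r => f (evalReal γ r)) t| ≤ tp_slopeUp f (evalReal γ t) * metricSpeed γ t :=
  Lip.tp_deriv_le_slopeUp_mul_speed ht hd hs hv

/-- `f ∘ γ` is absolutely continuous -/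
theorem tp_ac_comp_curve {γ : Curve X} (hγ : IsAC2 γ) {L : ℝ≥0} {U : Set X} (hf : LipschitzOnWith L f U)
    (hU : ∀ t : ℝ, evalReal γ t ∈ U) : AbsolutelyContinuousOnInterval (fun t => f (evalReal γ t)) 0 1 :=
  Lip.tp_ac_comp_curve hγ hf hU

end slopes

variable {X : Type*} [MetricSpace X] [MeasurableSpace X] [BorelSpace X] [CompleteSpace X]
  [TopologicalSpace.SeparableSpace X] {m : Measure X} {f : X → ℝ}

theorem tp_locallyL2_of_lipOnBdd (hfin : FiniteOnBoundedSets m) (hf : tp_LipOnBdd f) : LocallyL2 m f :=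
  Lip.tp_locallyL2_of_lipOnBdd hfin hf

theorem tp_locBdd_of_lipOnBdd (m : Measure X) (hf : tp_LipOnBdd f) : tp_LocBdd m f :=
  Lip.tp_locBdd_of_lipOnBdd m hf

theorem tp_locallyL2_slopeUp (hfin : FiniteOnBoundedSets m) (hf : tp_LipOnBdd f) :
    LocallyL2 m (fun x => (tp_slopeUp f x).toReal) :=
  Lip.tp_locallyL2_slopeUp hfin hf

/-- **TP4** the ascending slope is a weak upper gradient -/
theorem tp_wug_slopeUp (hfin : FiniteOnBoundedSets m) (hf : tp_LipOnBdd f) :
    IsLocalWeakUpperGradient m f (fun x => (tp_slopeUp f x).toReal) :=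
  Lip.tp_wug_slopeUp hfin hf

theorem tp_wug_slopeDown (hfin : FiniteOnBoundedSets m) (hf : tp_LipOnBdd f) :
    IsLocalWeakUpperGradient m f (fun x => (tp_slopeDown f x).toReal) :=
  Lip.tp_wug_slopeDown hfin hf

theorem tp_wug_localSlope (hfin : FiniteOnBoundedSets m) (hf : tp_LipOnBdd f) :
    IsLocalWeakUpperGradient m f (fun x => (localSlope f x).toReal) :=
  Lip.tp_wug_localSlope hfin hf

theorem tp_localSobolev_of_lipOnBdd (hfin : FiniteOnBoundedSets m) (hf : tp_LipOnBdd f) : LocalSobolev m f :=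
  Lip.tp_localSobolev_of_lipOnBdd hfin hf

theorem tp_weakGradient_le_slopeUp (hfin : FiniteOnBoundedSets m) (hf : tp_LipOnBdd f) :
    ∀ᵐ x ∂m, ENNReal.ofReal (weakGradient m f x) ≤ tp_slopeUp f x :=
  Lip.tp_weakGradient_le_slopeUp hfin hf

theorem tp_weakGradient_le_slopeDown (hfin : FiniteOnBoundedSets m) (hf : tp_LipOnBdd f) :
    ∀ᵐ x ∂m, ENNReal.ofReal (weakGradient m f x) ≤ tp_slopeDown f x :=
  Lip.tp_weakGradient_le_slopeDown hfin hf

theorem tp_weakGradient_le_localSlope (hfin : FiniteOnBoundedSets m) (hf : tp_LipOnBdd f) :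
    ∀ᵐ x ∂m, ENNReal.ofReal (weakGradient m f x) ≤ localSlope f x :=
  Lip.tp_weakGradient_le_localSlope hfin hf

/-- a function `G ∈ L²_loc` which dominates the slope a.e. is a wug (used by RS7) -/
theorem tp_wug_of_localSlope_le (hfin : FiniteOnBoundedSets m) (hf : tp_LipOnBdd f) {G : X → ℝ}
    (hG : LocallyL2 m G) (hG0 : ∀ᵐ x ∂m, 0 ≤ G x) (hle : ∀ᵐ x ∂m, localSlope f x ≤ ENNReal.ofReal (G x)) :
    IsLocalWeakUpperGradient m f G :=
  Lip.tp_wug_of_localSlope_le hfin hf hG hG0 hle

theorem tp_weakGradient_le_of_lipschitz (hfin : FiniteOnBoundedSets m) {L : ℝ≥0} (hf : LipschitzWith L f) :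
    ∀ᵐ x ∂m, weakGradient m f x ≤ L :=
  Lip.tp_weakGradient_le_of_lipschitz hfin hf

/-- local Lipschitz constant on an open set -/
theorem tp_weakGradient_le_of_lipschitzOn (hfin : FiniteOnBoundedSets m) (hf : tp_LipOnBdd f) {L : ℝ≥0}
    {U : Set X} (hU : IsOpen U) (hL : LipschitzOnWith L f U) : ∀ᵐ x ∂m, x ∈ U → weakGradient m f x ≤ L :=
  Lip.tp_weakGradient_le_of_lipschitzOn hfin hf hU hL

end LipX


section StabX

variable {X : Type*} [MetricSpace X] [MeasurableSpace X] [BorelSpace X] [CompleteSpace X]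
  [TopologicalSpace.SeparableSpace X] {m : Measure X} {f D : X → ℝ} {fs Ds : ℕ → X → ℝ}

/-- **TP5** -/
theorem tp_stability (h : ∀ n, IsLocalWeakUpperGradient m (fs n) (Ds n)) (hfs : ∀ n, LocallyL2 m (fs n))
    (hf : LocallyL2 m f) (hD : LocallyL2 m D) (hflim : tp_L2locTendsto m fs f)
    (hDlim : tp_L2locTendsto m Ds D) : IsLocalWeakUpperGradient m f D :=
  Stab.tp_stability h hfs hf hD hflim hDlim

/-- global `L²` convergence implies `L²_loc` convergence -/
theorem tp_L2locTendsto_of_tendsto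
    (h : Tendsto (fun n => eLpNorm (fun x => fs n x - f x) 2 m) atTop (𝓝 0)) : tp_L2locTendsto m fs f :=
  Stab.tp_L2locTendsto_of_tendsto h

end StabX


section CutX

variable {X : Type*} [MetricSpace X] [MeasurableSpace X] [BorelSpace X] [CompleteSpace X]
  [TopologicalSpace.SeparableSpace X] {m : Measure X} {f g χ : X → ℝ}

/-- criterion -/
theorem tp_sobolev_of_le (hf : MemLp f 2 m) (hloc : LocalSobolev m f) {G : X → ℝ} (hG : MemLp G 2 m)
    (hle : ∀ᵐ x ∂m, weakGradient m f x ≤ G x) : Sobolev m f :=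
  Cut.tp_sobolev_of_le hf hloc hG hle

theorem tp_sobolev_add (hfin : FiniteOnBoundedSets m) (hf : Sobolev m f) (hg : Sobolev m g) :
    Sobolev m (fun x => f x + g x) :=
  Cut.tp_sobolev_add hfin hf hg

theorem tp_sobolev_const_mul (hfin : FiniteOnBoundedSets m) (c : ℝ) (hf : Sobolev m f) :
    Sobolev m (fun x => c * f x) :=
  Cut.tp_sobolev_const_mul hfin c hf

theorem tp_sobolev_neg (hfin : FiniteOnBoundedSets m) (hf : Sobolev m f) : Sobolev m (fun x => -f x) :=
  Cut.tp_sobolev_neg hfin hf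

theorem tp_sobolev_sub (hfin : FiniteOnBoundedSets m) (hf : Sobolev m f) (hg : Sobolev m g) :
    Sobolev m (fun x => f x - g x) :=
  Cut.tp_sobolev_sub hfin hf hg

theorem tp_sobolev_zero (m : Measure X) : Sobolev m (fun _ : X => (0 : ℝ)) :=
  Cut.tp_sobolev_zero m

theorem tp_sobolev_comp_lipschitz (hfin : FiniteOnBoundedSets m) (hf : Sobolev m f) {φ : ℝ → ℝ} {L : ℝ≥0}
    (hφ : LipschitzWith L φ) (h0 : φ 0 = 0) : Sobolev m (fun x => φ (f x)) :=
  Cut.tp_sobolev_comp_lipschitz hfin hf hφ h0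

/-- truncation -/
theorem tp_sobolev_clamp (hfin : FiniteOnBoundedSets m) (hf : Sobolev m f) {a b : ℝ} (ha : a ≤ 0) (hb : 0 ≤ b) :
    Sobolev m (fun x => max a (min b (f x))) :=
  Cut.tp_sobolev_clamp hfin hf ha hb

theorem tp_sobolev_abs (hfin : FiniteOnBoundedSets m) (hf : Sobolev m f) : Sobolev m (fun x => |f x|) :=
  Cut.tp_sobolev_abs hfin hf

theorem tp_sobolev_max (hfin : FiniteOnBoundedSets m) (hf : Sobolev m f) (hg : Sobolev m g) :
    Sobolev m (fun x => max (f x) (g x)) :=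
  Cut.tp_sobolev_max hfin hf hg

theorem tp_sobolev_min (hfin : FiniteOnBoundedSets m) (hf : Sobolev m f) (hg : Sobolev m g) :
    Sobolev m (fun x => min (f x) (g x)) :=
  Cut.tp_sobolev_min hfin hf hg

/-- Lipschitz with bounded support -/
theorem tp_sobolev_of_lipschitz_bddSupp (hfin : FiniteOnBoundedSets m) (hf : GloballyLipschitz f)
    (hs : tp_BddSupp f) : Sobolev m f :=
  Cut.tp_sobolev_of_lipschitz_bddSupp hfin hf hs

theorem tp_bddSupp_of_hasCompactSupport (hf : HasCompactSupport f) : tp_BddSupp f :=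
  Cut.tp_bddSupp_of_hasCompactSupport hf

theorem tp_sobolev_of_lipC (hfin : FiniteOnBoundedSets m) (hf : LipC f) : Sobolev m f :=
  Cut.tp_sobolev_of_lipC hfin hf

/-- **TP6** cut-off of a `LocalSobolev` function (no boundedness of `f` is needed) -/
theorem tp_sobolev_cutoff (hfin : FiniteOnBoundedSets m) (hf : LocalSobolev m f) (hχ : GloballyLipschitz χ)
    (hs : tp_BddSupp χ) : Sobolev m (fun x => χ x * f x) :=
  Cut.tp_sobolev_cutoff hfin hf hχ hs

/-- Leibniz inequality for (bounded on balls, Lipschitz on balls) × `LocalSobolev` -/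
theorem tp_localSobolev_lip_mul (hfin : FiniteOnBoundedSets m) (hf : LocalSobolev m f) (hχ : tp_LipOnBdd χ) :
    LocalSobolev m (fun x => χ x * f x) ∧
      ∀ᵐ x ∂m, weakGradient m (fun x => χ x * f x) x ≤
        |χ x| * weakGradient m f x + |f x| * weakGradient m χ x :=
  Cut.tp_localSobolev_lip_mul hfin hf hχ

theorem tp_sobolev_lipB_mul (hfin : FiniteOnBoundedSets m) (hf : Sobolev m f) (hχ : LipB χ) :
    Sobolev m (fun x => χ x * f x) :=
  Cut.tp_sobolev_lipB_mul hfin hf hχ

/-- `W^{1,2} ∩ L^∞` is an algebra -/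
theorem tp_sobolev_mul (hfin : FiniteOnBoundedSets m) (hf : Sobolev m f) (hg : Sobolev m g) {B B' : ℝ}
    (hbf : AEBdd m f B) (hbg : AEBdd m g B') : Sobolev m (fun x => f x * g x) :=
  Cut.tp_sobolev_mul hfin hf hg hbf hbg

end CutX


section UnbX

variable {X : Type*} [MetricSpace X] [MeasurableSpace X] [BorelSpace X] [CompleteSpace X]
  [TopologicalSpace.SeparableSpace X] {m : Measure X} {π : Measure (Curve X)} {f D : X → ℝ}

theorem tp_isClosed_inBall (o : X) (r : ℝ) : IsClosed (tp_inBall o r : Set (Curve X)) :=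
  Unb.tp_isClosed_inBall o r

theorem tp_measurableSet_inBall (o : X) (r : ℝ) : MeasurableSet (tp_inBall o r : Set (Curve X)) :=
  Unb.tp_measurableSet_inBall o r

theorem tp_exists_inBall (o : X) (γ : Curve X) : ∃ n : ℕ, γ ∈ tp_inBall o ((n : ℝ) + 1) :=
  Unb.tp_exists_inBall o γ

/-- **TP8**: a property of curves which holds a.e. for every test plan with bounded tracks (absolutely continuous w.r.t. `π`)
holds a.e. for the test plan `π`. -/
theorem tp_ae_of_forall_boundedTracks (hπ : IsTestPlan m π) {P : Curve X → Prop}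
    (h : ∀ π' : Measure (Curve X), IsTestPlan m π' → BoundedTracks π' → π' ≪ π → ∀ᵐ γ ∂π', P γ) :
    ∀ᵐ γ ∂π, P γ :=
  Unb.tp_ae_of_forall_boundedTracks hπ h

/-- TP1 without `BoundedTracks` -/
theorem tp_sobAlong_all (hf : AEMeasurable f m) (h : IsLocalWeakUpperGradient m f D) (hπ : IsTestPlan m π) :
    ∀ᵐ γ ∂π, tp_SobAlong f D γ :=
  Unb.tp_sobAlong_all hf h hπ

/-- TP1 (complement) without `BoundedTracks` -/
theorem tp_rep_eval_all (hf : AEMeasurable f m) (h : IsLocalWeakUpperGradient m f D) (hπ : IsTestPlan m π)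
    {t : ℝ} (ht : t ∈ Icc (0 : ℝ) 1) : ∀ᵐ γ ∂π, ∀ g, tp_Rep f D γ g → g t = f (evalReal γ t) :=
  Unb.tp_rep_eval_all hf h hπ ht

/-- **TP7** without `BoundedTracks`, a.e. curve -/
theorem tp_interval_ae_all (hf : AEMeasurable f m) (h : IsLocalWeakUpperGradient m f D) (hπ : IsTestPlan m π)
    {s t : ℝ} (hs : 0 ≤ s) (hst : s ≤ t) (ht : t ≤ 1) :
    ∀ᵐ γ ∂π, ENNReal.ofReal |f (evalReal γ t) - f (evalReal γ s)| ≤ ∫⁻ r in Icc s t, tp_wt D γ r :=
  Unb.tp_interval_ae_all hf h hπ hs hst ht

/-- **TP7** without `BoundedTracks`, integrated -/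
theorem tp_interval_all (hf : AEMeasurable f m) (h : IsLocalWeakUpperGradient m f D) (hπ : IsTestPlan m π)
    {s t : ℝ} (hs : 0 ≤ s) (hst : s ≤ t) (ht : t ≤ 1) :
    (∫⁻ γ, ENNReal.ofReal |f (evalReal γ t) - f (evalReal γ s)| ∂π) ≤
      ∫⁻ γ, ∫⁻ r in Icc s t, tp_wt D γ r ∂volume ∂π :=
  Unb.tp_interval_all hf h hπ hs hst ht

end UnbX


end Claimed.Agent.R210.TP.Ifc
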